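import Vale.Agent.P057TP.Alg2
import Vale.Agent.P057GH.Pb
import Vale.Agent.P057G.Ms2

/-!
Points and centres of cube systems; centres on faces of full size are affine in every vertex.
-/

set_option linter.unusedSectionVars false

open Matrix Finset MvPolynomial
open Vale.Agent.P267.H775 Vale.Agent.P057G Vale.Agent.P057PC Vale.Agent.P057TP

namespace Vale.Agent.P057EN

noncomputable section

variable {C W S C' W' S' R : Type} [Fintype W] [DecidableEq W] [Fintype S] [Fintype W']
  [DecidableEq W'] [Fintype S'] {T : Tow} {cl : W → C} {cl' : W' → C'} {m : ℕ}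

open Classical in
/-- the label on the face `A` seen from the base `s`, or zero -/
def tot [AddCommMonoid R] (x : Lb T cl S m → R) (s : S) (a : T.ι) (A : Finset W) : R :=
  ∑ l, if l.cd = a ∧ l.fc = A ∧ (l.bs = none ∨ l.bs = some s) then x l else 0

theorem pt_tot [AddCommMonoid R] (x : Lb T cl S m → R) (s : S) (B : Finset W) (a : T.ι) :
    pt x (some s) B a = ∑ A ∈ B.powerset, tot x s a A := by
  classical
  unfold pt tot
  rw [sum_comm]
  refine sum_congr rfl fun l _ => ?_
  by_cases h : l.fc ⊆ B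
  · rw [sum_eq_single_of_mem l.fc (mem_powerset.2 h) fun A _ hA => if_neg fun e => hA e.2.1.symm]
    simp [h]
  · rw [if_neg fun e => h e.2.1, sum_eq_zero]
    intro A hA
    refine if_neg fun e => h ?_
    rw [e.2.1]; exact mem_powerset.1 hA

theorem lab_eq {l l' : Lb T cl S m} {s : S} (h : l.bs = none ∨ l.bs = some s)
    (h' : l'.bs = none ∨ l'.bs = some s) (h1 : l'.cd = l.cd) (h2 : l'.fc = l.fc) : l' = l := by
  refine Lb.ext' h1 h2 ?_
  rcases h with h | h <;> rcases h' with h' | h'
  · rw [h, h']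
  · have := l.card_eq h; have := l'.card_lt h'; rw [h1, h2] at this; omega
  · have := l.card_lt h; have := l'.card_eq h'; rw [h1, h2] at this; omega
  · rw [h, h']

theorem tot_lab [AddCommMonoid R] (x : Lb T cl S m → R) {s : S} {l : Lb T cl S m}
    (h : l.bs = none ∨ l.bs = some s) : tot x s l.cd l.fc = x l := by
  classical
  unfold tot
  rw [sum_eq_single l (fun l' _ hl => if_neg fun e => hl (lab_eq h e.2.2 e.1 e.2.1)) (by simp),
    if_pos ⟨rfl, rfl, h⟩]

theorem tot_none [AddCommMonoid R] (x : Lb T cl S m → R) {s : S} {a : T.ι} {A : Finset W}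
    (h : ∀ l : Lb T cl S m, l.cd = a → l.fc = A → (l.bs = none ∨ l.bs = some s) → x l = 0) :
    tot x s a A = 0 := by
  classical
  refine sum_eq_zero fun l _ => ?_
  split_ifs with e
  exacts [h l e.1 e.2.1 e.2.2, rfl]

theorem tot_big [AddCommMonoid R] (x : Lb T cl S m → R) (s : S) {a : T.ι} {A : Finset W}
    (h : T.lv a < A.card) : tot x s a A = 0 :=
  tot_none x fun l h1 h2 _ => by have := l.card_le; rw [h1, h2] at this; omega

theorem tot_high [AddCommMonoid R] (x : Lb T cl S m → R) (s : S) {a : T.ι} (A : Finset W)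
    (h : m ≤ T.lv a) : tot x s a A = 0 :=
  tot_none x fun l h1 _ _ => by have : T.lv l.cd < m := l.2.1; rw [h1] at this; omega

theorem exists_lab (s : S) {a : T.ι} {A : Finset W} (h1 : T.lv a < m) (h2 : Set.InjOn cl A)
    (h3 : A.card ≤ T.lv a) :
    ∃ l : Lb T cl S m, l.cd = a ∧ l.fc = A ∧ (l.bs = none ∨ l.bs = some s) := by
  rcases h3.eq_or_lt with h | h
  · exact ⟨⟨(a, A, none), h1, h2, h⟩, rfl, rfl, Or.inl rfl⟩
  · exact ⟨⟨(a, A, some s), h1, h2, h⟩, rfl, rfl, Or.inr rfl⟩

theorem tot_cast (z : Lb T cl S m → ℤ) (s : S) (a : T.ι) (A : Finset W) :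
    ((tot z s a A : ℤ) : ℝ) = tot (toR z) s a A := by
  simp only [tot, Int.cast_sum, toR_apply, apply_ite (Int.cast : ℤ → ℝ), Int.cast_zero]

theorem dlt_tot [CommRing R] (x : Lb T cl S m → R) (s : S) (a : T.ι) (A : Finset W) :
    dlt (fun B => pt x (some s) B a) A = tot x s a A := by
  simp only [pt_tot, dlt_sum_powerset]

theorem pr_eq {Z : Sys T W S} (h : Z.Ok) (x : Lb T cl S m → ℝ) {s : S} {l : Lb T cl S m}
    (hl : l.bs = none ∨ l.bs = some s) : Z.pr cl m x l =
      dlt (fun B => eval (pt x (some s) B) (Z.fam.at' (some s) B l.cd)) l.fc := by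
  rcases hl with e | e
  · rw [Sys.pr, e, ← h.fam.alt_pure x (some s) (l.card_eq e)]; rfl
  · rw [Sys.pr, e]; rfl

/-- the centres add up to the values of the polynomials at the points -/
theorem pt_pr {Z : Sys T W S} (h : Z.Ok) (x : Lb T cl S m → ℝ) (s : S) {B : Finset W}
    (hB : Set.InjOn cl B) {a : T.ι} (ha : T.lv a < m) :
    pt (Z.pr cl m x) (some s) B a = eval (pt x (some s) B) (Z.fam.at' (some s) B a) := by
  rw [pt_tot, ← sum_powerset_dlt (fun B => eval (pt x (some s) B) (Z.fam.at' (some s) B a)) B]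
  refine sum_congr rfl fun A hA => ?_
  by_cases k : A.card ≤ T.lv a
  · obtain ⟨l, rfl, rfl, h3⟩ := exists_lab (T := T) (cl := cl) s ha
      (hB.mono (coe_subset.2 (mem_powerset.1 hA))) k
    rw [tot_lab _ h3, pr_eq h x h3]
  · rw [tot_big _ _ (not_le.1 k)]
    exact (h.fam.alt_lt x (some s) (not_le.1 k)).symm

/-- centres along a map of points -/
theorem pr_map {Z : Sys T W S} {Z' : Sys T W' S'} (h : Z.Ok) (h' : Z'.Ok)
    {x : Lb T cl S m → ℝ} {x' : Lb T cl' S' m → ℝ} {s : S} {s' : S'} {l : Lb T cl S m}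
    (hl : l.bs = none ∨ l.bs = some s) (ρ : Finset W → Finset W')
    (h1 : ∀ B ⊆ l.fc, Set.InjOn cl' (ρ B))
    (h2 : ∀ B ⊆ l.fc, pt x (some s) B = pt x' (some s') (ρ B))
    (h3 : ∀ B ⊆ l.fc, Z.fam.at' (some s) B l.cd = Z'.fam.at' (some s') (ρ B) l.cd) :
    Z.pr cl m x l = dlt (fun B => pt (Z'.pr cl' m x') (some s') (ρ B) l.cd) l.fc := by
  rw [pr_eq h x hl]
  exact dlt_congr fun B hB => by rw [pt_pr h' x' s' (h1 B hB) (a := l.cd) l.2.1, h2 B hB, h3 B hB]

/-! ### affine dependence -/

/-- coefficients without `v` are constant, coefficients of degree one in `v` are affine -/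
def AfC {E : Type} [AddCommGroup E] [Module ℝ E] (v : W) (F : E → Lam ℝ W) : Prop :=
  ∀ μ : Option W →₀ ℕ, (μ (some v) = 0 → ∀ x, coeff μ (F x) = coeff μ (F 0)) ∧
    (μ (some v) = 1 → IsLinearMap ℝ fun x => coeff μ (F x) - coeff μ (F 0))

section afc

variable {E : Type} [AddCommGroup E] [Module ℝ E] {v : W} {F G : E → Lam ℝ W}

theorem AfC.const (v : W) (y : Lam ℝ W) : AfC v fun _ : E => y :=
  fun _ => ⟨fun _ _ => rfl, fun _ => ⟨fun _ _ => by simp, fun _ _ => by simp⟩⟩

theorem AfC.add (hF : AfC v F) (hG : AfC v G) : AfC v fun x => F x + G x := fun μ =>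
  ⟨fun h x => by simp only [coeff_add, (hF μ).1 h x, (hG μ).1 h x], fun h =>
    ⟨fun x y => by
      have h1 := ((hF μ).2 h).map_add x y
      have h2 := ((hG μ).2 h).map_add x y
      simp only [coeff_add] at h1 h2 ⊢
      linear_combination h1 + h2, fun c x => by
      have h1 := ((hF μ).2 h).map_smul c x
      have h2 := ((hG μ).2 h).map_smul c x
      simp only [coeff_add, smul_eq_mul] at h1 h2 ⊢
      linear_combination h1 + h2⟩⟩

theorem AfC.mul (hF : AfC v F) (hG : AfC v G) : AfC v fun x => F x * G x := fun μ => by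
  classical
  refine ⟨fun h x => ?_, fun h => ?_⟩
  · simp only [coeff_mul]
    refine sum_congr rfl fun ν hν => ?_
    have := congrArg (· (some v)) (mem_antidiagonal.1 hν)
    simp only [Finsupp.add_apply, h] at this
    rw [(hF _).1 (by omega) x, (hG _).1 (by omega) x]
  · have key : ∀ ν ∈ antidiagonal μ, IsLinearMap ℝ fun x =>
        coeff ν.1 (F x) * coeff ν.2 (G x) - coeff ν.1 (F 0) * coeff ν.2 (G 0) := fun ν hν => by
      have := congrArg (· (some v)) (mem_antidiagonal.1 hν)
      simp only [Finsupp.add_apply, h] at this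
      by_cases k : ν.1 (some v) = 0
      · have h2 := (hG ν.2).2 (by omega)
        simp only [(hF _).1 k]
        refine ⟨fun x y => ?_, fun c x => ?_⟩
        · linear_combination coeff ν.1 (F 0) * h2.map_add x y
        · have := h2.map_smul c x
          simp only [smul_eq_mul] at this ⊢
          linear_combination coeff ν.1 (F 0) * this
      · have h2 := (hF ν.1).2 (by omega)
        simp only [(hG ν.2).1 (by omega)]
        refine ⟨fun x y => ?_, fun c x => ?_⟩
        · linear_combination coeff ν.2 (G 0) * h2.map_add x y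
        · have := h2.map_smul c x
          simp only [smul_eq_mul] at this ⊢
          linear_combination coeff ν.2 (G 0) * this
    simp only [coeff_mul, ← sum_sub_distrib]
    refine ⟨fun x y => ?_, fun c x => ?_⟩
    · rw [← sum_add_distrib]
      exact sum_congr rfl fun ν hν => (key ν hν).map_add x y
    · rw [smul_sum]
      exact sum_congr rfl fun ν hν => (key ν hν).map_smul c x

theorem AfC.eval {κ : Type} {Y : E → κ → Lam ℝ W} (hY : ∀ b, AfC v fun x => Y x b)
    (p : MvPolynomial κ (Lam ℝ W)) : AfC v fun x => eval (Y x) p := by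
  induction p using MvPolynomial.induction_on with
  | C a => simpa only [eval_C] using AfC.const v a
  | add p q hp hq => simpa only [map_add] using hp.add hq
  | mul_X p b hp => simpa only [map_mul, eval_X] using hp.mul (hY b)

end afc

theorem coeff_mon_ne {A : Finset W} {d : ℕ} {μ : Option W →₀ ℕ}
    (h : coeff μ (mon A d : Lam ℝ W) ≠ 0) {v : W} (hv : v ∈ A) : μ (some v) ≠ 0 := by
  classical
  intro e
  rw [mon, ← mul_prod_erase A _ hv, mul_assoc, coeff_X_mul'] at h
  exact h (if_neg (by simp [e]))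

theorem altL_full {A : Finset W} {x : Lam ℝ W} (hx : IsHomogeneous x A.card) :
    altL A x = coeff (∑ w ∈ A, Finsupp.single (some w) 1) x := by
  classical
  have h0 : ∀ w, (∑ w ∈ A, Finsupp.single (some w) 1 : Option W →₀ ℕ) (some w) =
      if w ∈ A then 1 else 0 := fun w => by
    simp [Finsupp.finsetSum_apply, Finsupp.single_apply]
  have h1 : spW (∑ w ∈ A, Finsupp.single (some w) 1) = A := by
    ext w; rw [mem_spW, h0]; simp
  rw [altL_eq_sum, sum_eq_single (∑ w ∈ A, Finsupp.single (some w) 1), if_pos h1]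
  · intro μ hμ hne
    refine if_neg fun e => hne ?_
    have h2 := deg_of_hom hx (mem_support_iff.1 hμ)
    rw [degree_opt, e] at h2
    have h3 : ∀ w ∈ A, 1 ≤ μ (some w) := fun w hw =>
      Nat.one_le_iff_ne_zero.2 (mem_spW.1 (e ▸ hw))
    have h4 := sum_le_sum h3
    rw [← card_eq_sum_ones] at h4
    have h5 := (sum_eq_sum_iff_of_le h3).1 (by rw [← card_eq_sum_ones]; omega)
    ext o
    cases o with
    | none => simp [Finsupp.finsetSum_apply]; omega
    | some w =>
      rw [h0]
      split_ifs with k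
      · exact (h5 w k).symm
      · by_contra k2
        exact k (e ▸ mem_spW.2 k2)
  · intro h; rw [if_pos h1]; exact notMem_support_iff.1 h

/-- on a face of full size the centre is affine in the labels through a vertex -/
theorem aff_pr {Z : Sys T W S} (h : Z.Ok) {l : Lb T cl S m} (hl : l.bs = none) {v : W}
    (hv : v ∈ l.fc) {r : Finset (Lb T cl S m)} (hr : ∀ k ∈ r, v ∈ k.fc) :
    Aff r fun x => Z.pr cl m x l := fun y => by
  classical
  have h1 : ∀ b, AfC v fun x => lift (mix r x y) l.bs b := fun b μ => by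
    have e : ∀ x, coeff μ (lift (mix r x y) l.bs b) - coeff μ (lift (mix r 0 y) l.bs b) =
        ∑ k, if k ∈ r ∧ k.cd = b ∧ (k.bs = none ∨ k.bs = l.bs) then
          x k * coeff μ (mon k.fc (T.lv b) : Lam ℝ W) else 0 := fun x => by
      simp only [lift, coeff_sum, ← sum_sub_distrib]
      refine sum_congr rfl fun k _ => ?_
      by_cases a : k ∈ r <;> by_cases c : k.cd = b ∧ (k.bs = none ∨ k.bs = l.bs) <;>
        simp [a, c, mix, coeff_C_mul]
    refine ⟨fun k x => sub_eq_zero.1 ?_, fun _ => ?_⟩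
    · rw [e]
      refine sum_eq_zero fun i _ => ?_
      split_ifs with a
      · rw [mul_eq_zero]
        exact Or.inr (by_contra fun c => coeff_mon_ne c (hr i a.1) k)
      · rfl
    · simp only [e]
      refine ⟨fun x x' => ?_, fun c x => ?_⟩
      · rw [← sum_add_distrib]
        exact sum_congr rfl fun k _ => by split_ifs <;> simp [add_mul]
      · rw [smul_sum]
        exact sum_congr rfl fun k _ => by split_ifs <;> simp [mul_assoc]
  have h2 : ∀ x, Z.pr cl m x l = coeff (∑ w ∈ l.fc, Finsupp.single (some w) 1)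
      (eval (lift x l.bs) (Z.fam.fn l.bs l.cd)) := fun x => by
    rw [Sys.pr, Fam.alt_eq, altL_full]
    rw [l.card_eq hl]
    exact JH.eval (h.fam.hom l.bs l.cd) (lift_hom x l.bs)
  simp only [h2]
  exact (AfC.eval h1 _ _).2 (by simp [Finsupp.finsetSum_apply, Finsupp.single_apply, hv])

/-- a vertex without lower order terms: the centre vanishes with the labels through it -/
theorem pr_free (Z : Sys T W S) {l : Lb T cl S m} {v : W} (hv : v ∈ l.fc)
    (hj : ∀ B, Z.fam.at' l.bs (insert v B) l.cd = Z.fam.at' l.bs B l.cd) {x : Lb T cl S m → ℝ}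
    (hx : ∀ k : Lb T cl S m, v ∈ k.fc → k.fc ⊆ l.fc → x k = 0) : Z.pr cl m x l = 0 := by
  classical
  change dlt (fun B => eval (pt x l.bs B) (Z.fam.at' l.bs B l.cd)) l.fc = 0
  rw [← insert_erase hv, dlt_insert _ (notMem_erase v _), dlt_congr (h := fun _ => 0)]
  · simp [dlt]
  intro B hB
  rw [hj, sub_eq_zero]
  congr 2
  funext a
  refine sum_congr rfl fun k _ => ?_
  by_cases e : v ∈ k.fc
  · by_cases e2 : k.fc ⊆ insert v B
    · rw [hx k e (e2.trans (insert_subset hv (hB.trans (erase_subset _ _))))]; simp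
    · rw [if_neg fun c => e2 c.2.1, if_neg fun c => e2 (c.2.1.trans (subset_insert _ _))]
  · exact @if_congr _ _ _ (_) (_) _ _ _ _ (by rw [subset_insert_iff_of_notMem e]) rfl rfl

theorem lin_pr {Z : Sys T W S} (h : Z.Ok) {l : Lb T cl S m} (hl : l.bs = none) {v : W}
    (hv : v ∈ l.fc) (hj : ∀ B, Z.fam.at' l.bs (insert v B) l.cd = Z.fam.at' l.bs B l.cd)
    {r : Finset (Lb T cl S m)} (hr : ∀ k, k ∈ r ↔ v ∈ k.fc) : Lin r fun x => Z.pr cl m x l :=
  (aff_pr h hl hv fun k hk => (hr k).1 hk).lin fun _ =>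
    pr_free Z hv hj fun k hk _ => mix_pos _ _ ((hr k).2 hk)

end

end Vale.Agent.P057EN
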