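import Vale.Agent.P057EN.Rfl
import Vale.Agent.P057DP.Cub
import Vale.Agent.P057PC.Cub

/-!
Deletion of vertices from cube systems; norms of partial bijections of labels.
-/

set_option linter.unusedSectionVars false

open Matrix Finset
open Vale.Agent.P267.H775 Vale.Agent.P057G Vale.Agent.P057PC Vale.Agent.P057TP Vale.Agent.P057ST
open Vale.Agent.P057GH Vale.Agent.P057DP Vale.Agent.P057RH

namespace Vale.Agent.P057EN

noncomputable section

section generic

variable {L K : Type*} [Fintype L] [DecidableEq L] [Fintype K] [DecidableEq K]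

theorem qq_cut {G : Matrix L L ℝ} (hG : G.PosDef) {D : L → Prop} [DecidablePred D] (h : Ort G D)
    (w : L → ℝ) : qq G (fun j => if D j then w j else 0) ≤ qq G w := by
  rw [← qq_bk G D fun l hl => if_neg hl, qq_split hG.1 h w]
  refine le_add_of_le_of_nonneg (le_of_eq ?_) (qq_nonneg (posDef_bk hG _).posSemidef _)
  congr 1
  funext l
  exact if_pos l.2

theorem qq_rel {G : Matrix L L ℝ} (hG : G.PosDef) {H : Matrix K K ℝ} (r : K → L → Prop)
    [DecidableRel r] (h1 : ∀ i i' j, r i j → r i' j → i = i')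
    (h2 : ∀ i i' j j', r i j → r i' j' → H i i' = G j j') (h3 : Ort G fun j => ∃ i, r i j)
    (w : L → ℝ) : qq H (Matrix.of (fun i j => if r i j then (1 : ℝ) else 0) *ᵥ w) ≤ qq G w := by
  refine le_trans (le_of_eq ?_) (qq_cut hG h3 w)
  rw [← qq_conj]
  simp only [qq, dotProduct, mulVec, mul_sum]
  refine sum_congr rfl fun j _ => sum_congr rfl fun j' _ => ?_
  simp only [mul_apply, transpose_apply, of_apply]
  by_cases a : ∃ i, r i j
  · by_cases b : ∃ i, r i j'
    · rw [if_pos a, if_pos b]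
      obtain ⟨i, a⟩ := a
      obtain ⟨i', b⟩ := b
      rw [sum_eq_single i' (fun k _ hk => by rw [if_neg fun e => hk (h1 _ _ _ e b), mul_zero])
        (by simp), if_pos b, sum_eq_single i
        (fun k _ hk => by rw [if_neg fun e => hk (h1 _ _ _ e a), zero_mul]) (by simp), if_pos a,
        h2 _ _ _ _ a b]
      ring
    · rw [if_neg b, sum_eq_zero fun k _ => by rw [if_neg fun e => b ⟨k, e⟩, mul_zero]]; simp
  · rw [if_neg a, sum_eq_zero fun k _ => by
      rw [sum_eq_zero fun i _ => by rw [if_neg fun e => a ⟨i, e⟩, zero_mul], zero_mul]]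
    simp

theorem qq_emb {G : Matrix L L ℝ} (hG : G.PosDef) {H : Matrix K K ℝ} {i : K → L}
    (hi : i.Injective) (h2 : ∀ k k', H k k' = G (i k) (i k')) (h3 : Ort G fun j => ∃ k, i k = j)
    (w : L → ℝ) : qq H (w ∘ i) ≤ qq G w := by
  refine le_trans (le_of_eq ?_) (qq_rel hG (H := H) (fun k j => i k = j)
    (fun _ _ _ a b => hi (a.trans b.symm)) (fun _ _ _ _ a b => a ▸ b ▸ h2 _ _) h3 w)
  congr 1
  funext k
  simp [mulVec, dotProduct]

end generic

variable {T : Tow} {C W S X : Type} {s m d n : ℕ} {N Λ η : ℝ} [Fintype W] [DecidableEq W]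
  [Fintype S] {cl : W → C} {Z : Sys T W S} {a : Finset W → Option S → ℝ} {c : Lb T cl S m → ℝ}
  {q : Finset (Lb T cl S m)}

/-- closed under passing to subfaces -/
def Cq (q : Finset (Lb T cl S m)) : Prop :=
  ∀ l ∈ q, ∀ l' : Lb T cl S m, l'.fc ⊆ l.fc → (l'.bs = none ∨ l'.bs = l.bs) → l' ∈ q

theorem cq_iff : Dc (cub Z cl m a c) q ↔ Cq q :=
  ⟨fun h l hl l' h1 h2 => h l hl l' (cub_sub.2 ⟨h1, h2⟩),
    fun h l hl l' h1 => h l hl l' (cub_sub.1 h1).1 (cub_sub.1 h1).2⟩

/-- the centres on `q` -/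
def pz (Z : Sys T W S) (q : Finset (Lb T cl S m)) (x : q → ℤ) (i : q) : ℝ :=
  Z.pr cl m (toR (put q x 0)) i

theorem pq_cub : pq (cub Z cl m a c) q = fun x => pz Z q x + fun i : q => c i := rfl

theorem pz_eq (hT : T.Ok s N) (hZ : Z.Ok) (hq : Cq q) {x : q → ℤ} {y : Lb T cl S m → ℝ}
    (h : ∀ i : q, (x i : ℝ) = y i) (i : q) : pz Z q x i = Z.pr cl m y i :=
  pr_congr hT hZ fun l' h1 h2 _ => by
    rw [toR_apply, put_pos _ _ (hq _ i.2 l' h1 h2)]; exact h _

theorem tri_pz (hT : T.Ok s N) (hZ : Z.Ok) (q : Finset (Lb T cl S m)) :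
    Tri (fun i : q => T.lv i.1.cd) (pz Z q) := fun i x x' k =>
  pr_congr hT hZ fun j _ _ hj => by
    by_cases e : j ∈ q
    · rw [toR_apply, toR_apply, put_pos _ _ e, put_pos _ _ e, k ⟨j, e⟩ hj]
    · rw [toR_apply, toR_apply, put_neg _ _ e, put_neg _ _ e]

theorem ort_Gam {D : Lb T cl S m → Prop}
    (h : ∀ l l' : Lb T cl S m, l.fc = l'.fc → l.bs = l'.bs → D l → D l') : Ort (Gam T cl S m) D :=
  fun i j hi hj => by_contra fun e => hj (h i j (Gam_ne e).1 (Gam_ne e).2 hi)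

theorem ort_sG (a : Finset W → Option S → ℝ) (q : Finset (Lb T cl S m)) {D : q → Prop}
    (h : ∀ l l' : q, l.1.fc = l'.1.fc → l.1.bs = l'.1.bs → D l → D l') :
    Ort (blk (sG T cl S m a) q) D := fun i j hi hj => by_contra fun e => by
  have := Gam_ne (right_ne_zero_of_mul e)
  exact hj (h i j this.1 this.2 hi)

theorem qq_blk_put (G : Matrix (Lb T cl S m) (Lb T cl S m) ℝ) (v : q → ℝ) :
    qq (blk G q) v = qq G (put q v 0) := by
  have h : msk q (put q v 0) = put q v 0 := funext fun l => by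
    unfold msk
    split_ifs with e
    exacts [rfl, (put_neg v 0 e).symm]
  rw [← h, qq_msk]
  congr 1
  funext i
  rw [put_coe]

theorem qq_blk_mono (hG : T.G.PosDef) {a b : Finset W → Option S → ℝ} (v : q → ℝ)
    (h : ∀ l : q, v l ≠ 0 → a l.1.fc l.1.bs ≤ b l.1.fc l.1.bs) :
    qq (blk (sG T cl S m a) q) v ≤ qq (blk (sG T cl S m b) q) v := by
  rw [qq_blk_put, qq_blk_put]
  refine qq_sG_mono hG _ fun l hl => ?_
  by_cases e : l ∈ q
  · exact h ⟨l, e⟩ (by rwa [put_pos _ _ e] at hl)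
  · exact absurd (put_neg _ _ e) hl

theorem qq_blk_const (b : ℝ) (v : q → ℝ) :
    qq (blk (sG T cl S m fun _ _ => b) q) v = b * qq (blk (Gam T cl S m) q) v := by
  rw [qq_blk_put, qq_blk_put, qq_sG_const]

theorem fine_pz (hT : T.Ok s N) (hZ : Z.Ok) (hq : Cq q) (hd : m ≤ d + 1) (hL : T.tw.LF d n Λ η)
    (hn : Fintype.card W + Fintype.card S ≤ n) (hΛ : 0 < Λ) :
    Fine ((Λ / (2 * Fintype.card S + 2)) • blk (Gam T cl S m) q) (pz Z q) η := by
  classical
  refine cub_emb hT hZ (i := fun i : q => i.1) Subtype.val_injective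
    (fun k => Nat.le_of_lt_succ (k.1.2.1.trans_le hd))
    (fun z k => pz_eq hT hZ hq (fun _ => rfl) k) hL hn hΛ fun v => ?_
  rw [qq_smul_mat, ← mul_assoc, mul_div_cancel₀ _ (by positivity)]
  refine mul_le_mul_of_nonneg_left (qq_emb (pd_Gam hT.pd cl S m) Subtype.val_injective
    (fun _ _ => rfl) (ort_Gam ?_) v) hΛ.le
  rintro l l' h1 h2 ⟨k, rfl⟩
  exact ⟨⟨l', hq _ k.2 l' h1.ge (Or.inr h2.symm)⟩, rfl⟩

section double

variable [Fintype X] [DecidableEq X] (D : X → W)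

open Classical in
/-- the second copy of the vertices -/
def e2 (v : W) : W ⊕ X := if h : ∃ x, D x = v then Sum.inr h.choose else Sum.inl v

theorem pi_e2 (v : W) : Sum.elim id D (e2 D v) = v := by
  unfold e2
  split_ifs with h
  exacts [h.choose_spec, rfl]

/-- the classes of the doubled vertices -/
def c2 (cl : W → C) (v : W ⊕ X) : C := cl (Sum.elim id D v)

theorem pr_pb {g : W → W ⊕ X} (hg : ∀ v, Sum.elim id D (g v) = v)
    (hc : ∀ w w', c2 D cl (g w) = c2 D cl (g w') ↔ cl w = cl w')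
    (x : Lb T (c2 D cl) S m → ℝ) (l : Lb T cl S m) :
    (pb Z (Sum.elim id D) id).pr _ m x (lift hc id l) = Z.pr cl m (x ∘ lift hc id) l := by
  have hi : g.Injective := Function.LeftInverse.injective hg
  rw [← pr_lift hc hi Function.injective_id]
  refine pr_ext (fun B _ => ?_) _
  rw [at_pb _ _ _ hi.injOn, at_pb, image_image, show Sum.elim id D ∘ g = id from funext hg]
  · simp
  · rintro _ x _ y e
    obtain ⟨u, -, rfl⟩ := mem_image.1 x
    obtain ⟨v, -, rfl⟩ := mem_image.1 y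
    rw [hg, hg] at e
    rw [e]

/-- the system with a second copy of the vertices of `D` has mass one -/
theorem fine_dbl (hT : T.Ok s N) (hZ : Z.Ok) (hq : Cq q) (hd : m ≤ d + 1) (hL : T.tw.LF d n Λ η)
    (hn : Fintype.card W + Fintype.card X + Fintype.card S ≤ n) (hΛ : 0 < Λ)
    [DecidablePred fun l : q => ∃ x, D x ∈ l.1.fc] :
    Fine ((Λ / (4 * Fintype.card S + 4)) • fromBlocks (blk (Gam T cl S m) q) 0 0
        (bk (blk (Gam T cl S m) q) fun l : q => ∃ x, D x ∈ l.1.fc))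
      (pc (fun l : q => ∃ x, D x ∈ l.1.fc) (pz Z q) (pz Z q)) η := by
  classical
  have g1 : ∀ v, Sum.elim id D (Sum.inl v) = v := fun _ => rfl
  have g2 := pi_e2 D
  have c1 : ∀ w w', c2 D cl (Sum.inl w) = c2 D cl (Sum.inl w') ↔ cl w = cl w' :=
    fun _ _ => Iff.rfl
  have c3 : ∀ w w', c2 D cl (e2 D w) = c2 D cl (e2 D w') ↔ cl w = cl w' :=
    fun _ _ => by rw [c2, c2, g2, g2]
  have i2 : (e2 D).Injective := Function.LeftInverse.injective g2
  have j1 := lift_inj (T := T) (m := m) (S := S) c1 Sum.inl_injective Function.injective_id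
  have j2 := lift_inj (T := T) (m := m) (S := S) c3 i2 Function.injective_id
  have hG := pd_Gam hT.pd (c2 D cl) S m
  refine cub_emb hT (ok_pb hZ (Sum.elim id D) id)
    (i := Sum.elim (fun l : q => lift c1 id l.1) fun l => lift c3 id l.1.1) ?_ ?_ ?_ hL
    (by simpa using hn) hΛ fun v => ?_
  · have key : ∀ (l : q) (l' : {l : q // ∃ x, D x ∈ l.1.fc}),
        lift c1 id l.1 ≠ lift c3 id l'.1.1 := fun l l' e => by
      obtain ⟨x, hx⟩ := l'.2
      have h1 : e2 D (D x) ∈ (lift c1 id l.1).fc := e ▸ mem_image_of_mem _ hx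
      obtain ⟨v, -, h2⟩ := mem_image.1 h1
      rw [e2, dif_pos ⟨x, rfl⟩] at h2
      cases h2
    rintro (l | l) (l' | l') e
    · exact congrArg _ (Subtype.ext (j1 e))
    · exact absurd e (key _ _)
    · exact absurd e.symm (key _ _)
    · exact congrArg _ (Subtype.ext (Subtype.ext (j2 e)))
  · rintro (l | l)
    exacts [Nat.le_of_lt_succ (l.1.2.1.trans_le hd), Nat.le_of_lt_succ (l.1.1.2.1.trans_le hd)]
  · rintro z (l | l)
    · exact (pz_eq hT hZ hq (fun _ => rfl) l).trans (pr_pb D g1 c1 _ _).symm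
    · refine (pz_eq hT hZ hq (fun i => ?_) l.1).trans (pr_pb D g2 c3 _ _).symm
      unfold zc
      split_ifs with h
      · rfl
      · refine congrArg (fun k => (z k : ℝ)) (lb_ext rfl (image_congr fun v hv => ?_) rfl)
        rw [e2, dif_neg]
        rintro ⟨x, rfl⟩
        exact h ⟨x, hv⟩
  · have a1 := qq_emb hG (H := blk (Gam T cl S m) q) (i := fun l : q => lift c1 id l.1)
      (fun _ _ e => Subtype.ext (j1 e))
      (fun _ _ => (Gam_lift c1 Sum.inl_injective Function.injective_id _ _).symm) (ort_Gam ?_) v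
    have a2 := qq_emb hG (H := bk (blk (Gam T cl S m) q) fun l : q => ∃ x, D x ∈ l.1.fc)
      (i := fun l => lift c3 id l.1.1) (fun _ _ e => Subtype.ext (Subtype.ext (j2 e)))
      (fun _ _ => (Gam_lift c3 i2 Function.injective_id _ _).symm) (ort_Gam ?_) v
    · rw [qq_smul_mat, qq_blocks, ← mul_assoc, show (2 * Fintype.card S + 2 : ℝ) *
        (Λ / (4 * Fintype.card S + 4)) = Λ / 2 by field_simp; ring]
      exact (mul_le_mul_of_nonneg_left (add_le_add a1 a2) (by positivity)).trans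
        (le_of_eq (by ring))
    · rintro l l' h1 h2 ⟨k, rfl⟩
      obtain ⟨j, rfl⟩ := mem_lift c3 (k := id) i2 (l := l') h1.ge (Or.inr h2.symm)
      have h3 : k.1.1.fc = j.fc := image_injective i2 h1
      have h4 : k.1.1.bs = j.bs := by simpa [lift_bs] using h2
      exact ⟨⟨⟨j, hq _ k.1.2 j h3.ge (Or.inr h4.symm)⟩, h3 ▸ k.2⟩, rfl⟩
    · rintro l l' h1 h2 ⟨k, rfl⟩
      obtain ⟨j, rfl⟩ := mem_lift c1 (k := id) Sum.inl_injective (l := l') h1.ge (Or.inr h2.symm)
      have h3 : k.1.fc = j.fc := image_injective Sum.inl_injective h1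
      have h4 : k.1.bs = j.bs := by simpa [lift_bs] using h2
      exact ⟨⟨j, hq _ k.2 j h3.ge (Or.inr h4.symm)⟩, rfl⟩

/-- deletion of the labels through the vertices of `D` -/
theorem del_cub (hT : T.Ok s N) (hZ : Z.Ok) (hq : Cq q) (hd : m ≤ d + 1) (hL : T.tw.LF d n Λ η)
    (hη : η ≤ 1) (hn : Fintype.card W + Fintype.card X + Fintype.card S ≤ n)
    (ha : ∀ A o, 0 < a A o) (hΛ : 0 < Λ)
    (hb : ∀ l ∈ q, a l.fc l.bs ≤ Λ / (4 * Fintype.card S + 4)) {q1 : Finset (Lb T cl S m)}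
    (h1 : ∀ l, l ∈ q1 ↔ l ∈ q ∧ ∀ x, D x ∉ l.fc) {f : (Lb T cl S m → ℤ) → ℂ} {B : ℝ}
    (hf : ∀ z, ‖f z‖ ≤ B) (df : Dp q1 f) :
    ‖Ev (cub Z cl m a c) q f - Ev (cub Z cl m a c) q1 f‖ ≤ 3 * √η * B := by
  classical
  have hq1 : Cq q1 := fun l hl l' k1 k2 => (h1 l').2
    ⟨hq l ((h1 l).1 hl).1 l' k1 k2, fun x hx => ((h1 l).1 hl).2 x (k1 hx)⟩
  have hA := pd_sG (cl := cl) (m := m) hT.pd ha
  have le : ∀ (r : Finset (Lb T cl S m)), r ⊆ q → ∀ v, qq (blk (sG T cl S m a) r) v ≤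
      Λ / (4 * Fintype.card S + 4) * qq (blk (Gam T cl S m) r) v := fun r hr v => by
    rw [← qq_blk_const]; exact qq_blk_mono hT.pd v fun l _ => hb l (hr l.2)
  have m1 : ∀ (r : Finset (Lb T cl S m)), Cq r → r ⊆ q →
      |ms (blk (sG T cl S m a) r) (pq (cub Z cl m a c) r) - 1| ≤ η := fun r k1 k2 =>
    fine_pz hT hZ k1 hd hL (by omega) hΛ _ _ (posDef_blk hA r) fun v => (le r k2 v).trans (by
      rw [qq_smul_mat]
      refine mul_le_mul_of_nonneg_right (div_le_div_of_nonneg_left hΛ.le (by positivity)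
        (by linarith [Nat.cast_nonneg (α := ℝ) (Fintype.card S)])) ?_
      exact qq_nonneg (posDef_blk (pd_Gam hT.pd cl S m) r).posSemidef v)
  let P : q → Prop := fun l => ∃ x, D x ∈ l.1.fc
  let e : {l : q // ¬ P l} ≃ q1 :=
    ⟨fun l => ⟨l.1.1, (h1 _).2 ⟨l.1.2, not_exists.1 l.2⟩⟩,
      fun l => ⟨⟨l.1, ((h1 _).1 l.2).1⟩, not_exists.2 ((h1 _).1 l.2).2⟩, fun _ => rfl, fun _ => rfl⟩
  have ho : Ort (blk (sG T cl S m a) q) P := ort_sG a q fun l l' k _ ⟨x, h⟩ => ⟨x, k ▸ h⟩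
  have ht : Tri _ (pq (cub Z cl m a c) q) := tri_add (tri_pz hT hZ q) fun i : q => c i
  have hs : Spl P (pq (cub Z cl m a c) q) fun y l => pq (cub Z cl m a c) q1 (y ∘ e.symm) (e l) :=
    fun z l => congrArg (· + c l) ((pz_eq hT hZ hq1 (y := toR (put q z 0)) (fun i => by
      rw [toR_apply, put_pos _ _ ((h1 _).1 i.2).1]; rfl) (e l)).symm)
  have e0 := ms_equiv e (G := blk (sG T cl S m a) q1)
    (G' := bk (blk (sG T cl S m a) q) fun l => ¬ P l) (p := pq (cub Z cl m a c) q1)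
    (p' := fun y l => pq (cub Z cl m a c) q1 (y ∘ e.symm) (e l)) (fun _ _ => rfl)
    fun z i => by simp [Function.comp_assoc]
  have e1 := Ex_equiv e (G := blk (sG T cl S m a) q1)
    (G' := bk (blk (sG T cl S m a) q) fun l => ¬ P l) (p := pq (cub Z cl m a c) q1)
    (p' := fun y l => pq (cub Z cl m a c) q1 (y ∘ e.symm) (e l))
    (f := fun x => f (put q1 x 0)) (f' := fun y => f (put q1 (y ∘ e.symm) 0)) (fun _ _ => rfl)
    (fun z i => by simp [Function.comp_assoc]) fun z => by simp [Function.comp_assoc]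
  have h2 := Ex_push ht (posDef_blk hA q) ho hs hη (e0 ▸ m1 q1 hq1 fun l hl => ((h1 l).1 hl).1)
    (m1 q hq Subset.rfl) (by
      rw [ms_Gd ht (posDef_blk hA q) ho hs]
      have := fine_dbl D hT hZ hq hd hL hn hΛ _ (Sum.elim (fun i => c i) fun i => c i.1)
        (posDef_blocks (posDef_blk hA q) (posDef_bk (posDef_blk hA q) P)) fun v => by
          rw [qq_smul_mat, qq_blocks, qq_blocks, mul_add]
          refine add_le_add (le q Subset.rfl _) ?_
          have hx : ∀ l, ¬ P l → glue (X := fun _ => ℝ) P (v ∘ Sum.inr) (fun _ => 0) l = 0 :=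
            fun l hl => glue_neg (X := fun _ => ℝ) _ _ hl
          rw [← rs_glue_pos P (v ∘ Sum.inr) fun _ => 0, qq_bk _ _ hx, qq_bk _ _ hx]
          exact le q Subset.rfl _
      refine (congrArg (fun p => |ms _ p - 1|) (funext fun z => funext fun k => ?_)).trans_le this
      cases k <;> rfl)
    (f := fun y => f (put q1 (y ∘ e.symm) 0)) fun _ => hf _
  rw [Ev_eq_Ex, Ev_eq_Ex]
  change ‖Ex (blk (sG T cl S m a) q) _ _ - Ex (blk (sG T cl S m a) q1) _ _‖ ≤ _
  rw [← e1]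
  refine (congrArg (fun g => ‖Ex _ _ g - _‖) (funext fun x => ?_)).trans_le h2
  refine df _ _ fun i hi => ?_
  rw [put_pos _ _ hi, put_pos _ _ ((h1 _).1 hi).1]
  rfl

end double

end

end Vale.Agent.P057EN
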