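import Vale.Agent.P057EN.Mov
import Vale.Agent.P057EN.Dbl

/-!
The reflection step for cube systems.
-/

set_option linter.unusedSectionVars false

open Matrix Finset
open Vale.Agent.P267.H775 Vale.Agent.P057G Vale.Agent.P057PC Vale.Agent.P057TP Vale.Agent.P057ST
open Vale.Agent.P057GH Vale.Agent.P057DP Vale.Agent.P057RH

namespace Vale.Agent.P057EN

noncomputable section

section generic

variable {L : Type*} [Fintype L] [DecidableEq L]

theorem qq_sgn {G : Matrix L L ℝ} (hG : G.IsHermitian) {P : L → Prop} [DecidablePred P]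
    (h : Ort G P) (v : L → ℝ) : qq G (fun l => if P l then -v l else v l) = qq G v := by
  simp only [qq, dotProduct, mulVec, mul_sum]
  refine sum_congr rfl fun i _ => sum_congr rfl fun j _ => ?_
  have hs : G j i = G i j := by simpa using hG.apply i j
  by_cases a : P i <;> by_cases b : P j
  · simp [a, b]
  · simp [h _ _ a b]
  · simp [← hs, h _ _ b a]
  · simp [a, b]

theorem col_mul (M : L → Prop) [DecidablePred M] (N : Matrix L L ℤ) (v : L → ℝ) :
    mR (col M N) *ᵥ v = mR N *ᵥ fun l => if M l then v l else 0 := by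
  funext i
  simp only [mR, col, mulVec, dotProduct, map_apply, of_apply]
  exact sum_congr rfl fun j _ => by split_ifs <;> simp

theorem rf_vec (P : L → Prop) [DecidablePred P] (N : Matrix L L ℤ) (v : L → ℝ) :
    mR (rf P N) *ᵥ v = (fun l => if P l then -v l else v l) + mR N *ᵥ v := by
  rw [rf, mR_add, add_mulVec]
  congr 1
  funext i
  rw [mR, diagonal_map (by simp), mulVec_diagonal]
  split_ifs <;> simp

theorem qq_add2 {G : Matrix L L ℝ} (hG : G.PosSemidef) (x y : L → ℝ) :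
    qq G (x + y) ≤ 2 * qq G x + 2 * qq G y := by
  have := qq_sum_le hG univ ![x, y]
  simp only [Fin.sum_univ_two, card_univ, Fintype.card_fin, cons_val_zero, cons_val_one] at this
  push_cast at this
  linarith

theorem sub_mulVec' {R : Type*} [CommRing R] (U : Matrix L L R) (q : Finset L) (y : L → R) (i : q)
    (h : ∀ l, l ∉ q → U i l * y l = 0) :
    (U.submatrix (Subtype.val : q → L) (Subtype.val : q → L) *ᵥ fun j : q => y j) i =
      (U *ᵥ y) i := by
  simp only [mulVec, dotProduct, submatrix_apply]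
  rw [sum_coe_sort q fun l => U i l * y l]
  exact sum_subset (subset_univ q) fun l _ hl => h l hl

end generic

variable {T : Tow} {C W S : Type} {s m d n : ℕ} {N Λ η : ℝ} [Fintype W] [DecidableEq W]
  [Fintype S] {cl : W → C} {Z : Sys T W S} {q : Finset (Lb T cl S m)} {M : Mov cl S}

theorem bs_eq {l l' : Lb T cl S m} {t : S} (h : l.bs = none ∨ l.bs = some t)
    (h' : l'.bs = none ∨ l'.bs = some t) (h1 : T.lv l.cd = T.lv l'.cd)
    (h2 : l.fc.card = l'.fc.card) : l.bs = l'.bs := by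
  rcases h with h | h <;> rcases h' with h' | h'
  · rw [h, h']
  · have := l.card_eq h; have := l'.card_lt h'; omega
  · have := l.card_lt h; have := l'.card_eq h'; omega
  · rw [h, h']

namespace Mov

/-- all labels of `q` belong to one base, their partners are in `q` -/
structure Adm (M : Mov cl S) (q : Finset (Lb T cl S m)) : Prop where
  cq : Cq q
  cmp : ∀ l ∈ q, ∃ t, M.Cmp t l.fc ∧ (l.bs = none ∨ l.bs = some t)
  par : ∀ l ∈ q, ∀ l', M.Rel l l' → l' ∈ q

theorem Adm.spec (h : M.Adm q) {i : q} {j : Lb T cl S m} (k : M.Rel i.1 j) :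
    ∃ t, (i.1.bs = none ∨ i.1.bs = some t) ∧ (j.bs = none ∨ j.bs = some t) ∧
      ((∃ v ∈ i.1.fc, M.lf v = some t) ∨ (M.Fix i.1.fc ∧ i.1.bs = some t)) ∧
      j.fc = insert (M.u t) (M.fx i.1.fc) := by
  obtain ⟨t, h1, h2⟩ := h.cmp _ i.2
  obtain ⟨-, -, t', k1, k2, k3⟩ := k
  refine ⟨t', ?_, k3, k1, k2⟩
  rcases k1 with ⟨v, a, b⟩ | a
  · have := h1.own v a
    rw [b] at this
    obtain rfl : t' = t := by simpa using this
    exact h2
  · exact Or.inr a.2

theorem ins_inj {t t' : S} {A A' : Finset W}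
    (h : insert (M.u t) (M.fx A) = insert (M.u t') (M.fx A')) : t = t' ∧ M.fx A = M.fx A' := by
  refine ⟨?_, by rw [← fix_fx.fx_insert (M.lu t), h, fix_fx.fx_insert (M.lu t')]⟩
  rcases mem_insert.1 (h ▸ mem_insert_self (M.u t) (M.fx A)) with e | e
  · have := M.lu t
    rw [e, M.lu] at this
    exact (Option.some_injective _ this).symm
  · exact absurd e (fix_fx.not_mem (M.lu t))

/-- the partners of the labels with a given movable part -/
def Rk (M : Mov cl S) (q : Finset (Lb T cl S m)) (κ : Option W) (i j : q) : Prop :=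
  M.Rel i.1 j.1 ∧ i.1.fc \ M.fx i.1.fc = κ.toFinset

theorem Rk.src (h : M.Adm q) {κ : Option W} {i i' j j' : q} (a : M.Rk q κ i j)
    (b : M.Rk q κ i' j') (e1 : j.1.fc = j'.1.fc) (e2 : j.1.bs = j'.1.bs) :
    i.1.fc = i'.1.fc ∧ i.1.bs = i'.1.bs := by
  obtain ⟨t, a1, a2, a3, a4⟩ := h.spec a.1
  obtain ⟨t', b1, b2, b3, b4⟩ := h.spec b.1
  obtain ⟨rfl, e4⟩ := ins_inj (a4.symm.trans (e1.trans b4))
  have e3 : i.1.fc = i'.1.fc := by
    rw [← sdiff_union_of_subset (fx_sub (M := M) (A := i.1.fc)), a.2, e4, ← b.2,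
      sdiff_union_of_subset fx_sub]
  refine ⟨e3, ?_⟩
  obtain ⟨r, c, -⟩ := h.cmp _ i.2
  rcases c.cases with k | ⟨v, k1, k2⟩
  · rw [(a3.resolve_left fun ⟨v, x, y⟩ => k.not_mem y x).2,
      (b3.resolve_left fun ⟨v, x, y⟩ => k.not_mem y (e3 ▸ x)).2]
  · have e5 : i.1.fc.card = j.1.fc.card := by
      rw [a4, card_insert_of_notMem (fix_fx.not_mem (M.lu t)), ← card_insert_of_notMem
        (fix_fx.not_mem k1), ← k2]
    rw [bs_eq a1 a2 (by rw [a.1.2.1]) e5, bs_eq b1 b2 (by rw [b.1.2.1]) (by rw [← e3, ← e1, e5]),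
      e2]

theorem Rk.iff (h : M.Adm q) {κ : Option W} {i i' j j' : q} (a : M.Rk q κ i j)
    (b : M.Rk q κ i' j') (e : T.lv i.1.cd = T.lv i'.1.cd) :
    (i.1.fc = i'.1.fc ∧ i.1.bs = i'.1.bs) ↔ (j.1.fc = j'.1.fc ∧ j.1.bs = j'.1.bs) := by
  refine ⟨fun ⟨e1, e2⟩ => ?_, fun k => a.src h b k.1 k.2⟩
  obtain ⟨t, a1, a2, a3, a4⟩ := h.spec a.1
  obtain ⟨t', b1, b2, b3, b4⟩ := h.spec b.1
  obtain rfl : t = t' := by
    obtain ⟨r, c, -⟩ := h.cmp _ i.2
    rcases a3 with ⟨v, k1, k2⟩ | k <;> rcases b3 with ⟨v', k3, k4⟩ | k'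
    · rw [c.one v k1 v' (e1 ▸ k3) (by simp [k2]) (by simp [k4]), k4] at k2
      exact (Option.some_injective _ k2).symm
    · exact absurd (e1 ▸ k1) (k'.1.not_mem k2)
    · exact absurd (e1 ▸ k3) (k.1.not_mem k4)
    · exact Option.some_injective _ (k.2.symm.trans (e2.trans k'.2))
  have e3 : j.1.fc = j'.1.fc := by rw [a4, b4, e1]
  exact ⟨e3, bs_eq a2 b2 (by rw [a.1.2.1, b.1.2.1, e]) (by rw [e3])⟩

open Classical in
theorem qq_Rk (hT : T.Ok s N) (h : M.Adm q) {a : Finset W → Option S → ℝ} (ha : ∀ A o, 0 < a A o)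
    {ρ : ℝ} (hρ : 0 ≤ ρ) (κ : Option W) (w : q → ℝ)
    (hw : ∀ i j : q, M.Rel i.1 j.1 → w j ≠ 0 → a i.1.fc i.1.bs ≤ ρ * a j.1.fc j.1.bs) :
    qq (blk (sG T cl S m a) q) (Matrix.of (fun i j => if M.Rk q κ i j then (1 : ℝ) else 0) *ᵥ w) ≤
      ρ * qq (blk (sG T cl S m a) q) w := by
  let b : Finset W → Option S → ℝ := fun A o =>
    if x : ∃ i : q, ∃ j, M.Rk q κ i j ∧ j.1.fc = A ∧ j.1.bs = o then a x.choose.1.fc x.choose.1.bs
    else 1
  have hb : ∀ i j, M.Rk q κ i j → b j.1.fc j.1.bs = a i.1.fc i.1.bs := fun i j x => by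
    have y : ∃ i : q, ∃ j', M.Rk q κ i j' ∧ j'.1.fc = j.1.fc ∧ j'.1.bs = j.1.bs :=
      ⟨i, j, x, rfl, rfl⟩
    obtain ⟨j', y1, y2, y3⟩ := y.choose_spec
    have := y1.src h x y2 y3
    simp only [b, dif_pos y, this.1, this.2]
  have ho : ∀ b, Ort (blk (sG T cl S m b) q) fun j => ∃ i, M.Rk q κ i j :=
    fun b j j' ⟨i, x⟩ y => by_contra fun e => y (by
      have e0 := right_ne_zero_of_mul e
      have e1 := Gam_ne e0
      have e2 : T.lv j'.1.cd = T.lv i.1.cd := by_contra fun k => e0 (by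
        simp only [Gam, of_apply]
        rw [x.1.2.1, hT.blk _ _ (Ne.symm k), ite_self])
      let l : Lb T cl S m := ⟨(j'.1.cd, i.1.fc, i.1.bs), j'.1.2.1, i.1.2.2.1, e2 ▸ i.1.2.2.2⟩
      obtain ⟨⟨k1, -, t, k2, k3, k4⟩, k5⟩ := x
      exact ⟨⟨l, h.cq _ i.2 l Subset.rfl (Or.inr rfl)⟩,
        ⟨k1, rfl, t, k2, e1.1 ▸ k3, e1.2 ▸ k4⟩, k5⟩)
  have e1 : Matrix.of (fun i j => if M.Rk q κ i j then (1 : ℝ) else 0) *ᵥ w =
      Matrix.of (fun i j => if M.Rk q κ i j then (1 : ℝ) else 0) *ᵥ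
        fun j => if ∃ i, M.Rk q κ i j then w j else 0 := funext fun i => sum_congr rfl fun j _ => by
    by_cases k : M.Rk q κ i j
    · exact congrArg (_ * ·) (if_pos ⟨i, k⟩).symm
    · simp [k]
  rw [e1]
  refine (qq_rel (posDef_blk (pd_sG (a := b) hT.pd fun A o => by
      simp only [b]; split_ifs; exacts [ha _ _, one_pos]) q) (M.Rk q κ) (fun i i' j x y => ?_)
    (fun i i' j j' x y => ?_) (ho b) _).trans (le_trans ?_ (mul_le_mul_of_nonneg_left
      (qq_cut (posDef_blk (pd_sG hT.pd ha) q) (ho a) w) hρ))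
  · have := x.src h y rfl rfl
    exact Subtype.ext (lb_ext (x.1.2.1.symm.trans y.1.2.1) this.1 this.2)
  · simp only [blk, submatrix_apply, sG, Gam, of_apply, hb i j x]
    rw [x.1.2.1, y.1.2.1]
    by_cases e : T.lv i.1.cd = T.lv i'.1.cd
    · simp only [x.iff h y e]
      congr
    · simp only [hT.blk _ _ e, ite_self]
  · rw [← qq_smul_mat, show ρ • blk (sG T cl S m a) q =
      blk (sG T cl S m fun A o => ρ * a A o) q by ext; simp [blk, sG, mul_assoc]]
    refine qq_blk_mono hT.pd _ fun l k => ?_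
    obtain ⟨⟨i, x⟩, y⟩ := ite_ne_right_iff.1 k
    rw [hb i l x]
    exact hw i l x.1 y

/-- the partners inside `q` -/
def Nq (M : Mov cl S) (q : Finset (Lb T cl S m)) : Matrix q q ℤ :=
  (M.N T m).submatrix Subtype.val Subtype.val

theorem qq_Nw (hT : T.Ok s N) (h : M.Adm q) {a : Finset W → Option S → ℝ} (ha : ∀ A o, 0 < a A o)
    {ρ : ℝ} (hρ : 0 ≤ ρ) (w : q → ℝ)
    (hw : ∀ i j : q, M.Rel i.1 j.1 → w j ≠ 0 → a i.1.fc i.1.bs ≤ ρ * a j.1.fc j.1.bs) :
    qq (blk (sG T cl S m a) q) (mR (M.Nq q) *ᵥ w) ≤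
      (Fintype.card W + 1) ^ 2 * (ρ * qq (blk (sG T cl S m a) q) w) := by
  classical
  have e : mR (M.Nq q) *ᵥ w = ∑ κ : Option W, (κ.elim 1 fun _ => -1 : ℝ) •
      (Matrix.of (fun i j => if M.Rk q κ i j then (1 : ℝ) else 0) *ᵥ w) := by
    simp only [← smul_mulVec, ← sum_mulVec]
    congr 1
    ext i j
    simp only [Matrix.sum_apply, Matrix.smul_apply, of_apply, mR, Nq, map_apply, submatrix_apply,
      Mov.N, smul_eq_mul]
    by_cases k : M.Rel i.1 j.1
    · obtain ⟨t, c, -⟩ := h.cmp _ i.2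
      have inj : ∀ κ κ' : Option W, κ.toFinset = κ'.toFinset → κ = κ' := fun κ κ' e =>
        Option.ext fun a => by rw [← Option.mem_def, ← Option.mem_def, ← Option.mem_toFinset, e,
          Option.mem_toFinset]
      rcases c.cases with a | ⟨v, a, b⟩
      · have e : i.1.fc \ M.fx i.1.fc = (none : Option W).toFinset := by rw [a.fx]; simp
        rw [sum_eq_single none (fun κ _ hk => by
          rw [if_neg fun x : M.Rk q κ i j => hk (inj _ _ (x.2.symm.trans e)), mul_zero]) (by simp),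
          if_pos k, if_pos a, if_pos (show M.Rk q none i j from ⟨k, e⟩)]
        simp
      · have e : i.1.fc \ M.fx i.1.fc = (some v).toFinset := by
          conv_lhs => arg 1; rw [b]
          rw [insert_sdiff_of_notMem _ (fix_fx.not_mem a)]; simp
        rw [sum_eq_single (some v) (fun κ _ hk => by
          rw [if_neg fun x : M.Rk q κ i j => hk (inj _ _ (x.2.symm.trans e)), mul_zero]) (by simp),
          if_pos k, if_neg (not_fix a (b ▸ mem_insert_self _ _)),
          if_pos (show M.Rk q (some v) i j from ⟨k, e⟩)]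
        simp
    · simp [k, Rk]
  rw [e]
  refine (qq_sum_le (posDef_blk (pd_sG hT.pd ha) q).posSemidef _ _).trans ?_
  rw [sq, mul_assoc, card_univ, Fintype.card_option]
  push_cast
  refine mul_le_mul_of_nonneg_left ((sum_le_card_nsmul _ _ (ρ * qq (blk (sG T cl S m a) q) w)
    fun κ _ => ?_).trans (le_of_eq ?_)) (by positivity)
  · rw [qq_smul]
    refine le_trans (le_of_eq ?_) (qq_Rk hT h ha hρ κ w hw)
    cases κ <;> simp
  · rw [card_univ, Fintype.card_option, nsmul_eq_mul]; push_cast; rfl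

theorem qq_Nq (hT : T.Ok s N) (h : M.Adm q) (w : q → ℝ) :
    qq (blk (Gam T cl S m) q) (mR (M.Nq q) *ᵥ w) ≤
      (Fintype.card W + 1) ^ 2 * qq (blk (Gam T cl S m) q) w := by
  simpa only [qq_blk_const, one_mul] using qq_Nw hT h (a := fun _ _ => 1) (fun _ _ => one_pos)
    zero_le_one w fun _ _ _ _ => by simp

theorem rf_Nq [DecidablePred fun l : q => M.P l.1] :
    rf (fun l : q => M.P l.1) (M.Nq q) = (M.RM T m).submatrix Subtype.val Subtype.val := by
  ext i j
  simp only [RM, rf, Nq, Matrix.add_apply, submatrix_apply, diagonal_apply, Subtype.ext_iff]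
  congr

theorem RM_off (h : M.Adm q) (i : q) {l : Lb T cl S m} (hl : l ∉ q) : M.RM T m i l = 0 := by
  simp only [RM, rf, Matrix.add_apply]
  rw [diagonal_apply_ne _ fun e : i.1 = l => hl (e ▸ i.2), zero_add]
  exact by_contra fun k => hl (h.par _ i.2 _ (N_ne k))

/-- labels without base and without the vertices of `st` have partners of the same kind -/
theorem keep_rel (h : M.Adm q) {st : W → Prop} (hs : ∀ t, ¬ st (M.u t)) {l : Lb T cl S m}
    (hl : l ∈ q) {l' : Lb T cl S m} (k : M.Rel l l') (a : l.bs = none ∧ ∀ v ∈ l.fc, ¬ st v) :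
    l'.bs = none ∧ ∀ v ∈ l'.fc, ¬ st v := by
  obtain ⟨t, c, -⟩ := h.cmp _ hl
  obtain ⟨t', -, a2, a3, a4⟩ := h.spec (i := ⟨l, hl⟩) k
  constructor
  · refine a2.resolve_right fun e => ?_
    have h1 := l'.card_lt e
    have h2 := c.card
    rw [card_insert_of_notMem (fix_fx.not_mem (M.lu t)), l.card_eq a.1] at h2
    rw [a4, card_insert_of_notMem (fix_fx.not_mem (M.lu t')), k.2.1] at h1
    exact absurd h2 (not_le.2 h1)
  · rw [a4]
    intro v hv
    rcases mem_insert.1 hv with rfl | e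
    exacts [hs _, a.2 v (fx_sub e)]

end Mov

/-- the reflection step -/
theorem refl (hT : T.Ok s N) (hZ : Z.Ok) (hf : M.Free Z) (h : M.Adm q)
    {Kp : Finset W → Option S → Prop}
    (hK : ∀ l ∈ q, ∀ l', M.Rel l l' → Kp l.fc l.bs → Kp l'.fc l'.bs)
    {q1 : Finset (Lb T cl S m)} (h1 : ∀ l, l ∈ q1 ↔ l ∈ q ∧ ∀ t, M.u t ∉ l.fc) (hd : m ≤ d + 1)
    (hL : T.tw.LF d n Λ η) (hη : η ≤ 1)
    (hn : Fintype.card W + Fintype.card S + Fintype.card S ≤ n) (hΛ : 0 < Λ)
    {a a2 : Finset W → Option S → ℝ} (ha : ∀ A o, 0 < a A o) (ha2 : ∀ A o, 0 < a2 A o)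
    {am e : ℝ} (h0 : 0 ≤ am) (he0 : 0 ≤ e) (he : e ≤ 1 / 6)
    (k1 : ∀ l ∈ q, Kp l.fc l.bs → a2 l.fc l.bs = a l.fc l.bs)
    (k2 : ∀ l ∈ q, ¬ Kp l.fc l.bs → 4 * am * (1 + (Fintype.card W + 1) ^ 2) ≤ a2 l.fc l.bs)
    (k3 : ∀ l ∈ q, ¬ Kp l.fc l.bs → a l.fc l.bs ≤ am)
    (k4 : ∀ l ∈ q, ∀ l', M.Rel l l' → Kp l'.fc l'.bs →
      a l.fc l.bs * (Fintype.card W + 1) ^ 2 ≤ e ^ 2 * a l'.fc l'.bs)
    (k5 : ∀ l ∈ q, a2 l.fc l.bs ≤ Λ / (4 * Fintype.card S + 4)) {c : Lb T cl S m → ℝ}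
    (hc : ∀ l ∈ q, Kp l.fc l.bs → M.P l → c l = 0) {F : (Lb T cl S m → ℤ) → ℂ} {B β : ℝ}
    (hF : ∀ z, ‖F z‖ ≤ B) (dF : Dp q1 F)
    (hβ : ∀ c2 : Lb T cl S m → ℝ, (∀ l ∈ q, Kp l.fc l.bs → c2 l = c l) →
      ‖Ev (cub Z cl m a2 c2) q fun z => F (M.RM T m *ᵥ z)‖ ≤ β) :
    ‖Ev (cub Z cl m a c) q1 F‖ ≤ β + B * (3 * √η + 4 * η + 24 * e * q.card) := by
  classical
  have hΓ := posDef_blk (pd_Gam hT.pd cl S m) q
  have hA := posDef_blk (pd_sG (cl := cl) (m := m) hT.pd ha) q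
  set K : ℝ := (Fintype.card W + 1) ^ 2 with hKd
  have hK0 : 0 ≤ K := by positivity
  have le2 : ∀ l ∈ q, a l.fc l.bs ≤ a2 l.fc l.bs := fun l hl => by
    by_cases k : Kp l.fc l.bs
    · exact (k1 l hl k).ge
    · nlinarith [k2 l hl k, mul_nonneg h0 hK0, k3 l hl k]
  have h2 := del_cub (c := c) M.u hT hZ h.cq hd hL hη hn ha hΛ
    (fun l hl => (le2 l hl).trans (k5 l hl)) h1 hF dF
  let P : q → Prop := fun l => M.P l.1
  let X : q → Prop := fun l => ¬ Kp l.1.fc l.1.bs
  have hN : ∀ i j : q, M.Nq q i j ≠ 0 → ¬ P i ∧ P j := fun i j k => (Mov.N_ne k).P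
  have hM : ∀ i j : q, M.Nq q i j ≠ 0 → X j → X i := fun i j k x y =>
    x (hK _ i.2 _ (Mov.N_ne k) y)
  have oP : ∀ b, Ort (blk (sG T cl S m b) q) P := fun b =>
    ort_sG b q fun l l' k _ ⟨t, x⟩ => ⟨t, k ▸ x⟩
  have oX : ∀ b, Ort (blk (sG T cl S m b) q) X := fun b =>
    ort_sG b q fun l l' k k' x => by simpa only [X, ← k, ← k'] using x
  have am0 : ∀ v : q → ℝ, (∀ l, v l ≠ 0 → X l) →
      qq (blk (sG T cl S m a) q) v ≤ am * qq (blk (Gam T cl S m) q) v := fun v hv => by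
    rw [← qq_blk_const]; exact qq_blk_mono hT.pd v fun l k => k3 l l.2 (hv l k)
  have amN : ∀ w : q → ℝ, (∀ l, ¬ X l → w l = 0) → qq (blk (sG T cl S m a) q)
      (mR (M.Nq q) *ᵥ w) ≤ am * K * qq (blk (Gam T cl S m) q) w := fun w hw => by
    rw [mul_assoc]
    refine (am0 _ fun l k => ?_).trans (mul_le_mul_of_nonneg_left (M.qq_Nq hT h w) h0)
    obtain ⟨j, -, k⟩ := exists_ne_zero_of_sum_ne_zero k
    exact hM l j (fun x => left_ne_zero_of_mul k (by simp [mR, x]))
      (by_contra fun x => right_ne_zero_of_mul k (hw j x))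
  have eR : mR (rf P (M.Nq q)) = (mR (M.RM T m)).submatrix Subtype.val Subtype.val := by
    rw [Mov.rf_Nq]; rfl
  have eZ : ∀ (z : q → ℤ) (i : q), (rf P (M.Nq q) *ᵥ z) i = (M.RM T m *ᵥ put q z 0) i :=
    fun z i => by
      rw [Mov.rf_Nq, ← sub_mulVec' _ q _ i fun l hl => by rw [put_neg _ _ hl]; exact mul_zero _]
      simp only [put_coe]
  have h3 := Ex_refl (M := X) (p := fun z => pz Z q z + mR (rf P (M.Nq q)) *ᵥ fun i : q => c i)
    (p' := pq (cub Z cl m a c) q) (tri_add (tri_pz hT hZ q) _) hN hM (fun z => by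
      rw [mulVec_add, mulVec_mulVec, ← mR_mul, rf_mul hN, mR_one, one_mulVec, pq_cub]
      refine congrArg (· + fun i : q => c i) (funext fun i => ?_)
      obtain ⟨t, c1, c2⟩ := h.cmp _ i.2
      rw [pz_eq hT hZ h.cq (y := mR (M.RM T m) *ᵥ toR (put q z 0))
        (fun j => by rw [eZ, ← toR_mulVec]; rfl) i, Mov.pr_R hZ hf c1 c2, eR,
        ← sub_mulVec' _ q _ i fun l hl => by simp [mR, Mov.RM_off h i hl]]
      rfl) hA (posDef_blk (pd_sG (cl := cl) (m := m) hT.pd ha2) q) (oP a) (oX a) (oX a2)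
    (by
      ext i j
      simp only [bk, blk, submatrix_apply, sG, of_apply, k1 _ i.1.2 (not_not.1 i.2)]) he0 he
    (fun v => by
      have hK1 : 0 < K := by positivity
      rw [col_mul]
      refine (M.qq_Nw hT h ha (ρ := e ^ 2 / K) (by positivity) _ fun i j x y => ?_).trans ?_
      · rw [div_mul_eq_mul_div, le_div_iff₀ hK1]
        exact k4 _ i.2 _ x (not_not.1 (ite_ne_right_iff.1 y).1)
      rw [← mul_assoc, mul_div_cancel₀ _ hK1.ne']
      exact mul_le_mul_of_nonneg_left (qq_cut hA (D := fun l => ¬ X l) (ort_sG a q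
        fun l l' k k' x => by simpa only [X, ← k, ← k'] using x) v) (sq_nonneg e))
    (fun v hv => by
      have e1 : (fun l => if X l then v l else 0) = v := funext fun l => by
        split_ifs with k
        exacts [rfl, (hv l k).symm]
      have a1 := am0 (fun l => if P l then -v l else v l) fun l k x => k (by
        simp [hv l (not_not.2 x)])
      have a2 : 4 * am * (1 + K) * qq (blk (Gam T cl S m) q) v ≤ qq (blk (sG T cl S m a2) q) v := by
        rw [← qq_blk_const]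
        exact qq_blk_mono hT.pd v fun l k => k2 l l.2 fun x => k (hv l (not_not.2 x))
      rw [qq_sgn hΓ.1 (P := P) fun i j x y => ort_Gam (D := M.P)
        (fun l l' k _ ⟨t, x⟩ => ⟨t, k ▸ x⟩) i.1 j.1 x y] at a1
      rw [rf_vec, col_mul, e1]
      linarith [qq_add2 hA.posSemidef (fun l => if P l then -v l else v l) (mR (M.Nq q) *ᵥ v),
        amN v hv]) hη
    (fun B hB hle => fine_pz hT hZ h.cq hd hL (by omega) hΛ B _ hB fun v => (hle v).trans (by
      rw [qq_smul_mat, show Λ / (2 * Fintype.card S + 2) = 2 * (Λ / (4 * Fintype.card S + 4)) by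
        field_simp; ring, mul_assoc, ← qq_blk_const]
      exact mul_le_mul_of_nonneg_left (qq_blk_mono hT.pd v fun l _ => k5 l l.2) (by norm_num)))
    (f := fun x => F (put q x 0)) (β := β) (fun _ => hF _) fun c' hc' => by
      have := hβ (put q ((mR (rf P (M.Nq q)) *ᵥ fun i : q => c i) + c') 0) fun l hl k => by
        rw [put_pos _ _ hl, Pi.add_apply, hc' _ (not_not.2 k), add_zero, rf_vec, Pi.add_apply,
          show (mR (M.Nq q) *ᵥ fun i : q => c i) ⟨l, hl⟩ = 0 from sum_eq_zero fun j _ => ?_,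
          add_zero]
        · split_ifs with x
          · rw [hc l hl k x, neg_zero]
          · rfl
        · by_cases x : M.Nq q ⟨l, hl⟩ j = 0
          · simp [mR, x]
          · exact mul_eq_zero_of_right _ (hc j j.2 (hK l hl _ (Mov.N_ne x) k) (hN _ _ x).2)
      rw [Ev_eq_Ex, pq_cub] at this
      simp only [put_coe] at this
      refine le_trans (le_of_eq ?_) this
      congr 2
      · funext z; exact add_assoc _ _ _
      · funext z
        refine dF _ _ fun i hi => ?_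
        rw [put_pos _ _ ((h1 i).1 hi).1, eZ]
  rw [Fintype.card_coe] at h3
  rw [Ev_eq_Ex _ q] at h2
  have h4 := norm_sub_norm_le (Ev (cub Z cl m a c) q1 F)
    (Ex (blk (sG T cl S m a) q) (pq (cub Z cl m a c) q) fun x => F (put q x 0))
  rw [norm_sub_rev] at h4
  change ‖Ex (blk (sG T cl S m a) q) _ _ - _‖ ≤ _ at h2
  linarith

/-- vertices without image carry no lower order terms -/
theorem at_pbo_insert {V : Type} [DecidableEq V] (Z₀ : Sys T V Unit) {j : W → Option V} {u : W}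
    (hu : j u = none) (o : Option S) (B : Finset W) (b : T.ι) :
    (pbo Z₀ j S).fam.at' o (insert u B) b = (pbo Z₀ j S).fam.at' o B b := by
  simp only [Fam.at', pbo, fsb, MvPolynomial.map_map]
  congr 2
  refine MvPolynomial.ringHom_ext (fun r => by simp [sb_C, evA]) fun x => ?_
  cases x with
  | none => simp [sb_none, evA]
  | some w =>
    simp only [RingHom.comp_apply, sb_some, map_sum, evA, MvPolynomial.eval_X, Option.elim]
    refine sum_congr rfl fun v hv => if_congr (mem_insert.trans (or_iff_right ?_)) rfl rfl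
    rintro rfl
    rw [mem_filter, hu] at hv
    cases hv.2

theorem free_pbo {V : Type} [DecidableEq V] (Z₀ : Sys T V Unit) {j : W → Option V}
    (hu : ∀ t, j (M.u t) = none) : M.Free (pbo Z₀ j S) := fun t B b =>
  at_pbo_insert Z₀ (hu t) _ B b

open Classical in
/-- the old value of a label without base -/
theorem RM_none {t : S} {l l' : Lb T cl S m} (h : M.Cmp t l.fc) (hl : l.bs = none) {v : W}
    (hv : v ∈ l.fc) (h1 : M.lf v = some t) (h2 : M.u t ∉ l.fc) (h3 : l'.cd = l.cd)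
    (h4 : l'.fc = insert (M.u t) (M.fx l.fc)) (h5 : l'.bs = none) (z : Lb T cl S m → ℤ) :
    (M.RM T m *ᵥ z) l = z l - z l' := by
  have := Mov.R_apply h (Or.inl hl) z
  rw [Mov.map_int, if_neg h2, if_neg (Mov.not_fix h1 hv), ← h3, ← h4,
    tot_lab z (Or.inl h5)] at this
  rw [this]; ring

theorem RM_fix {t : S} {l : Lb T cl S m} (h : M.Fix l.fc) (hl : l.bs = none)
    (z : Lb T cl S m → ℤ) : (M.RM T m *ᵥ z) l = z l := by
  classical
  have := Mov.R_apply (s := t) ⟨l.2.2.1, fun v hv => Or.inl (h v hv),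
    fun v hv _ _ k => absurd (h v hv) k⟩ (Or.inl hl) z
  rw [Mov.map_int, if_neg (h.not_mem (M.lu t)), tot_big _ _ (by
    rw [h.fx, card_insert_of_notMem (h.not_mem (M.lu t)), l.card_eq hl]; omega)] at this
  rw [this]; ring

end

end Vale.Agent.P057EN
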