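import Vale.Agent.P057DP.Pl2
import Vale.Agent.P057SB.Nrs
import Vale.Agent.P057EN.Ref

/-!
Substitutions of the form vertex minus shift; rules for forms.
-/

set_option linter.unusedSectionVars false

open Matrix Finset
open Vale.Agent.P267.H775 Vale.Agent.P057G Vale.Agent.P057PC Vale.Agent.P057TP
open Vale.Agent.P057GH Vale.Agent.P057DP
open Vale.Agent.P057SB (subc bs_none sm_cm)

namespace Vale.Agent.P057EN

noncomputable section

section col

variable {C W₁ W₂ R : Type} {T : Tow} {m : ℕ} {cl₁ : W₁ → C} {cl₂ : W₂ → C} [Fintype W₂]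
  [DecidableEq W₂] [CommRing R] {M : W₂ → W₁ → ℤ}

theorem prod_ind {l l' : Lb T cl₂ Empty m} (h : l.cd = l'.cd) :
    (∏ x ∈ l.fc, if x ∈ l'.fc then 1 else 0 : ℤ) = if l = l' then 1 else 0 := by
  split_ifs with e
  · exact prod_eq_one fun x hx => if_pos (e ▸ hx)
  · by_contra k
    refine e (lb_ext h (eq_of_subset_of_card_le (fun x hx => by_contra fun n =>
      k (prod_eq_zero hx (if_neg n))) ?_) ((bs_none l).trans (bs_none l').symm))
    rw [l.card_eq (bs_none l), l'.card_eq (bs_none l'), h]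

theorem sub_one {k : Lb T cl₁ Empty m} {l₁ : Lb T cl₂ Empty m} (h : l₁.cd = k.cd)
    (hM : ∀ x, ∑ v ∈ k.fc, M x v = if x ∈ l₁.fc then 1 else 0) (z : Lb T cl₂ Empty m → R) :
    sub M z k = z l₁ := by
  rw [P057SB.sub_def, sum_eq_single l₁ (fun l _ e => ?_) (by simp), if_pos h]
  · simp [P057SB.cf, hM, prod_ind (l := l₁) rfl]
  · split_ifs with a
    · simp [P057SB.cf, hM, prod_ind (a.trans h.symm), e]
    · rfl

theorem sub_two {k : Lb T cl₁ Empty m} {l₁ l₂ : Lb T cl₂ Empty m} (h₁ : l₁.cd = k.cd)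
    (h₂ : l₂.cd = k.cd) {v u : W₂} (hu : u ∉ l₁.fc) (hc : cl₂ v = cl₂ u)
    (e : l₂.fc = insert u (l₁.fc.erase v))
    (hM : ∀ x, ∑ w ∈ k.fc, M x w = (if x ∈ l₁.fc then 1 else 0) - if x = u then 1 else 0)
    (z : Lb T cl₂ Empty m → R) : sub M z k = z l₁ - z l₂ := by
  have key : ∀ l : Lb T cl₂ Empty m, l.cd = k.cd →
      P057SB.cf M l.fc k.fc = (if l = l₁ then 1 else 0) - if l = l₂ then 1 else 0 := fun l a => by
    simp only [P057SB.cf, hM]
    by_cases b : u ∈ l.fc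
    · rw [if_neg fun c : l = l₁ => hu (c ▸ b), ← prod_ind (a.trans h₂.symm), zero_sub,
        ← neg_one_mul, ← mul_prod_erase _ _ b, ← mul_prod_erase _ _ b, if_neg hu, if_pos rfl, e,
        if_pos (mem_insert_self _ _), one_mul, zero_sub]
      refine congrArg _ (prod_congr rfl fun x hx => ?_)
      obtain ⟨c, d⟩ := mem_erase.1 hx
      have : x ≠ v := fun n => c (l.2.2.1 d b (n ▸ hc))
      simp [c, this]
    · rw [if_neg fun c : l = l₂ => b (c ▸ e ▸ mem_insert_self _ _), ← prod_ind (a.trans h₁.symm),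
        sub_zero]
      exact prod_congr rfl fun x hx => by rw [if_neg fun c : x = u => b (c ▸ hx), sub_zero]
  rw [P057SB.sub_def, sum_congr rfl (g := fun l => (if l = l₁ then z l else 0) - if l = l₂ then z l else 0)
    fun l _ => ?_, sum_sub_distrib, sum_ite_eq', sum_ite_eq', if_pos (mem_univ _),
    if_pos (mem_univ _)]
  by_cases a : l.cd = k.cd
  · rw [if_pos a, key l a]; split_ifs <;> simp
  · rw [if_neg a, if_neg fun c : l = l₁ => a (c ▸ h₁), if_neg fun c : l = l₂ => a (c ▸ h₂), sub_zero]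

end col

variable {C W X X₁ X₂ X₃ R : Type} {T : Tow} {cl : W → C} {m : ℕ} [CommRing R]
  [Fintype X] [DecidableEq X] [Fintype X₁] [DecidableEq X₁] [Fintype X₂] [DecidableEq X₂]
  [Fintype X₃] [DecidableEq X₃] {O : Ov W X} {O₁ : Ov W X₁} {O₂ : Ov W X₂} {O₃ : Ov W X₃}

open Classical in
/-- the vertex `α v` minus the shift `β v` -/
def mb (α β : X₁ → X₂) (D : X₁ → Prop) (x : X₂) (v : X₁) : ℤ :=
  (if x = α v then 1 else 0) - if D v ∧ x = β v then 1 else 0

variable {α β α' β' : X₁ → X₂} {D D' : X₁ → Prop}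

theorem mb_congr (h1 : ∀ v, α v = α' v) (h2 : ∀ v, D v ↔ D' v) (h3 : ∀ v, D v → β v = β' v) :
    mb α β D = mb α' β' D' := by
  funext x v
  have : D v ∧ x = β v ↔ D' v ∧ x = β' v := by
    rw [← h2]; exact and_congr_right fun a => by rw [h3 v a]
  simp only [mb, h1]
  congr 1
  by_cases a : D v ∧ x = β v
  · rw [if_pos a, if_pos (this.1 a)]
  · rw [if_neg a, if_neg (mt this.2 a)]

theorem mb_ne {x : X₂} {v : X₁} (h : mb α β D x v ≠ 0) : x = α v ∨ D v ∧ x = β v := by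
  by_contra k
  rw [not_or] at k
  exact h (by simp only [mb, if_neg k.1, if_neg k.2, sub_zero])

theorem sub_lt {g : X₁ → X₂} (h : ∀ x, O₂.π (g x) = O₁.π x) (hg : g.Injective) (M : X₃ → X₂ → ℤ)
    (z : LT T cl m O₃ → R) : (sub (ex M) z : LT T cl m O₂ → R) ∘ lt h () =
      sub (ex fun x v => M x (g v)) z := by
  funext k
  refine sum_congr rfl fun l _ => if_congr Iff.rfl ?_ rfl
  congr 2
  refine prod_congr rfl fun x _ => ?_
  rw [lf_fc, sum_image (hg.sumMap fun _ _ _ => rfl).injOn]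
  refine sum_congr rfl fun v _ => ?_
  cases x <;> cases v <;> rfl

variable [Fintype W] [DecidableEq W]

theorem sm_mb {P₁ : X₁ → Prop} {P₂ : X₂ → Prop} (h1 : ∀ v, O₂.π (α v) = O₁.π v)
    (h2 : ∀ v, O₂.jk (α v) = O₁.jk v)
    (h3 : ∀ v, D v → cl (O₂.π (β v)) = cl (O₁.π v) ∧ O₂.jk (β v) = false)
    (h4 : ∀ v, P₁ v → P₂ (α v)) (h5 : ∀ v, P₁ v → D v → P₂ (β v)) :
    Sm cl O₂ O₁ (mb α β D) P₂ P₁ := by
  refine ⟨fun x v h => ?_, fun x v => ?_, fun v _ w => ?_, fun x v h a => ?_⟩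
  · rcases mb_ne h with rfl | ⟨a, rfl⟩
    exacts [by rw [h1], (h3 v a).1]
  · unfold mb; split_ifs <;> simp
  · rw [sum_eq_single (α v) (fun x _ e => ?_) (by simp), h1, h2]
    · refine ite_congr rfl (fun a => ?_) fun _ => rfl
      rw [mb, if_pos rfl, if_neg, sub_zero]
      rintro ⟨b, c⟩
      have := (h3 v b).2
      rw [← c, h2, a.1] at this
      cases this
    · refine ite_eq_right_iff.2 fun a => by_contra fun n => ?_
      obtain ⟨b, rfl⟩ := (mb_ne n).resolve_left e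
      rw [(h3 v b).2] at a
      cases a.1
  · rcases mb_ne h with rfl | ⟨b, rfl⟩
    exacts [h4 v a, h5 v a b]

theorem mb_lt {g : X₂ → X₃} (h : ∀ x, O₃.π (g x) = O₂.π x) (hg : g.Injective) {P₁ : X₁ → Prop}
    {P₂ : X₂ → Prop} (hM : Sm cl O₂ O₁ (mb α β D) P₂ P₁) (z : LT T cl m O₃ → R) :
    (sub (ex (mb α β D)) (z ∘ lt h () : LT T cl m O₂ → R) : LT T cl m O₁ → R) =
      sub (ex (mb (g ∘ α) (g ∘ β) D)) z := by
  have e := ((subc T _ _ _ m (O₂.cl cl Unit) (O₃.cl cl Unit) R).2 _ (hc_map h fun _ => ())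
    (hg.sumMap fun _ _ _ => rfl) z)
  refine (congrArg _ e).trans (((subc T _ _ _ m (O₁.cl cl Unit) (O₂.cl cl Unit) R).1 _
    (O₃.cl cl Unit) _ _ (sm_cm hM) (fun x v => ⟨fun a => ?_, by split_ifs <;> simp⟩) z).trans ?_)
  · obtain rfl : Sum.map g (fun _ => ()) v = x := by simpa using a
    cases v with
    | inl v => exact congrArg (fun w => some (cl w)) (h v)
    | inr v => rfl
  · congr 1
    funext y v
    rw [Fintype.sum_sum_type]
    cases y <;> cases v <;> simp [ex, mb, mul_sub, ite_and, eq_comm]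

section fo

variable {P P' : X → Prop} {Θ Θ' : (LT T cl m O → ℝ) → ℝ}

theorem fo_lt {g : X₁ → X₂} (h : ∀ x, O₂.π (g x) = O₁.π x) {P₁ : X₁ → Prop} {P₂ : X₂ → Prop}
    (hP : ∀ x, P₁ x → P₂ (g x)) {Θ : (LT T cl m O₁ → ℝ) → ℝ} (hΘ : Fo cl m O₁ P₁ Θ) :
    Fo cl m O₂ P₂ fun x => Θ (x ∘ lt h ()) := by
  refine ⟨dp_lt hP hΘ.dp, fun y => ?_⟩
  have e : ∀ x, mix (st T cl m O₂ fun _ => True) x y ∘ lt h () =
      mix (st T cl m O₁ fun _ => True) (x ∘ lt h ()) (y ∘ lt h ()) := fun x => funext fun l => by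
    simp only [mix, Function.comp_apply, mem_st, inr_lf, implies_true, and_true, Unique.exists_iff]
  simp only [e]
  exact ⟨fun a b => (hΘ.lin _).map_add _ _, fun c a => (hΘ.lin _).map_smul c _⟩

theorem fo_mono (h : Fo cl m O P Θ) (hP : ∀ x, P x → P' x) : Fo cl m O P' Θ :=
  ⟨h.dp.mono fun _ a => mem_bs.2 fun x b => hP x (mem_bs.1 a x b), h.lin⟩

theorem fo_lin (a b : ℝ) (h : Fo cl m O P Θ) (h' : Fo cl m O P Θ') :
    Fo cl m O P fun x => a * Θ x + b * Θ' x :=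
  ⟨h.dp.map₂ h'.dp fun u v => a * u + b * v, fun y =>
    ⟨fun u v => by rw [(h.lin y).map_add, (h'.lin y).map_add]; ring,
      fun c u => by rw [(h.lin y).map_smul, (h'.lin y).map_smul]; simp only [smul_eq_mul]; ring⟩⟩

theorem fo_add (h : Fo cl m O P Θ) (h' : Fo cl m O P Θ') : Fo cl m O P fun x => Θ x + Θ' x := by
  simpa only [one_mul] using fo_lin 1 1 h h'

theorem fo_sub (h : Fo cl m O P Θ) (h' : Fo cl m O P Θ') : Fo cl m O P fun x => Θ x - Θ' x := by
  simpa only [one_mul, neg_mul, ← sub_eq_add_neg] using fo_lin 1 (-1) h h'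

theorem fo_mul (a : ℝ) (h : Fo cl m O P Θ) : Fo cl m O P fun x => a * Θ x := by
  simpa only [zero_mul, add_zero] using fo_lin a 0 h h

theorem fo_sum {ι : Type} (t : Finset ι) {Θ : ι → (LT T cl m O → ℝ) → ℝ}
    (h : ∀ i ∈ t, Fo cl m O P (Θ i)) : Fo cl m O P fun x => ∑ i ∈ t, Θ i x :=
  ⟨fun z z' e => sum_congr rfl fun i hi => (h i hi).dp z z' e, fun y =>
    ⟨fun u v => by
      rw [← sum_add_distrib]; exact sum_congr rfl fun i hi => ((h i hi).lin y).map_add u v,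
    fun c u => by
      rw [smul_sum]; exact sum_congr rfl fun i hi => ((h i hi).lin y).map_smul c u⟩⟩

end fo

end

end Vale.Agent.P057EN
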