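import Vale.Agent.P057EN.Wid
import Vale.Agent.P057DP.Cub

/-!
Sums over block systems as iterated sums and as products.
-/

set_option linter.unusedSectionVars false

open Matrix Finset Filter Topology
open Vale.Agent.P267.H775 Vale.Agent.P057G Vale.Agent.P057PC Vale.Agent.P057DP Vale.Agent.P057RH

namespace Vale.Agent.P057EN

noncomputable section

theorem hs_piC {I α : Type} [Fintype I] [DecidableEq I] {p : I → α → ℂ} (h : ∀ i, Summable (p i)) :
    HasSum (fun x : I → α => ∏ i, p i (x i)) (∏ i, ∑' a, p i a) := by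
  classical
  have t : Tendsto (fun s : Finset α => Fintype.piFinset fun _ : I => s) atTop atTop :=
    tendsto_atTop.2 fun t => (eventually_ge_atTop (t.biUnion fun a => univ.image a)).mono
      fun s hs a ha => Fintype.mem_piFinset.2 fun i =>
        hs (mem_biUnion.2 ⟨a, ha, mem_image_of_mem _ (mem_univ i)⟩)
  have t2 : Tendsto (fun s : Finset α => ∑ x ∈ Fintype.piFinset fun _ : I => s, ∏ i, p i (x i))
      atTop (𝓝 (∏ i, ∑' a, p i a)) := by
    simp only [← prod_univ_sum]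
    exact tendsto_finsetProd _ fun i _ => (h i).hasSum
  have t3 : Tendsto (fun s : Finset α => ∑ x ∈ Fintype.piFinset fun _ : I => s, ∏ i, ‖p i (x i)‖)
      atTop (𝓝 (∏ i, ∑' a, ‖p i a‖)) := by
    simp only [← prod_univ_sum (f := fun i a => ‖p i a‖)]
    exact tendsto_finsetProd _ fun i _ => (h i).norm.hasSum
  have q0 : ∀ x : I → α, 0 ≤ ∏ i, ‖p i (x i)‖ := fun x => prod_nonneg fun i _ => norm_nonneg _
  have hs : Summable fun x : I → α => ∏ i, p i (x i) := Summable.of_norm (by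
    simp only [norm_prod]
    exact summable_of_sum_le q0 fun s => ge_of_tendsto t3 ((tendsto_atTop.1 t s).mono
      fun s' hs' => sum_le_sum_of_subset_of_nonneg hs' fun x _ _ => q0 x))
  exact tendsto_nhds_unique (Tendsto.comp hs.hasSum t) t2 ▸ hs.hasSum

variable {L K J : Type} [Fintype L] [DecidableEq L] [Fintype K] [DecidableEq K] [Fintype J]
  [DecidableEq J]

theorem tri_inr {lv : L ⊕ K → ℕ} {p : (L ⊕ K → ℤ) → L ⊕ K → ℝ} (hp : Tri lv p) (x : L → ℤ) :
    Tri (lv ∘ Sum.inr) fun y i => p (Sum.elim x y) (Sum.inr i) := fun _ _ _ h =>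
  hp _ _ _ fun j hj => by
    cases j with
    | inl j => rfl
    | inr j => exact h j hj

/-- the second block is summed first -/
theorem Ex_sum {lv : L ⊕ K → ℕ} {p : (L ⊕ K → ℤ) → L ⊕ K → ℝ} (hp : Tri lv p)
    {A : Matrix L L ℝ} {B : Matrix K K ℝ} (hA : A.PosDef) (hB : B.PosDef)
    {p1 : (L → ℤ) → L → ℝ} (h1 : ∀ x y i, p (Sum.elim x y) (Sum.inl i) = p1 x i)
    {f : (L ⊕ K → ℤ) → ℂ} {C : ℝ} (hf : ∀ z, ‖f z‖ ≤ C) :
    Ex (fromBlocks A 0 0 B) p f = Ex A p1 fun x =>
      Ex B (fun y i => p (Sum.elim x y) (Sum.inr i)) fun y => f (Sum.elim x y) := by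
  let e := (Equiv.sumArrowEquivProdArrow L K ℤ).symm
  have h2 := e.summable_iff.2 (summable_Ex hp (posDef_blocks hA hB) hf)
  rw [Ex, ← e.tsum_eq]
  refine h2.tsum_prod.trans (tsum_congr fun x => ?_)
  refine Eq.trans (tsum_congr fun y => ?_) tsum_mul_left
  change (ng _ (toR (Sum.elim x y) - p (Sum.elim x y)) : ℂ) * f (Sum.elim x y) = _
  rw [ng_blocks hA, Complex.ofReal_mul, mul_assoc]
  congr 3
  funext i
  exact congrArg (_ - ·) (h1 x y i)

theorem qq_bd (B : Matrix L L ℝ) (v : L × J → ℝ) :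
    qq (blockDiagonal fun _ => B) v = ∑ n, qq B fun b => v (b, n) := by
  simp only [qq, dotProduct, mulVec, Fintype.sum_prod_type_right, blockDiagonal_apply,
    ite_mul, zero_mul, sum_ite_irrel, sum_const_zero, sum_ite_eq, mem_univ, if_true]

theorem posDef_bd {B : Matrix L L ℝ} (hB : B.PosDef) :
    (blockDiagonal fun _ : J => B).PosDef := by
  refine PosDef.of_dotProduct_mulVec_pos ?_ fun x hx => ?_
  · rw [IsHermitian, blockDiagonal_conjTranspose, hB.1]
  · change 0 < qq _ x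
    obtain ⟨⟨b, n⟩, k⟩ := Function.ne_iff.1 hx
    rw [qq_bd]
    exact sum_pos' (fun _ _ => qq_nonneg hB.posSemidef _)
      ⟨n, mem_univ _, hB.dotProduct_mulVec_pos fun e => k (congrFun e b)⟩

/-- independent blocks -/
theorem Ex_pi {lv : L → ℕ} {p : J → (L → ℤ) → L → ℝ} (hp : ∀ n, Tri lv (p n)) {B : Matrix L L ℝ}
    (hB : B.PosDef) {f : J → (L → ℤ) → ℂ} {C : ℝ} (hf : ∀ n z, ‖f n z‖ ≤ C) :
    (Ex (blockDiagonal fun _ => B) (fun z a => p a.2 (fun b => z (b, a.2)) a.1)
      fun z => ∏ n, f n fun b => z (b, n)) = ∏ n, Ex B (p n) (f n) := by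
  have h1 : ∀ v : L × J → ℝ, ng (blockDiagonal fun _ => B) v = ∏ n, ng B fun b => v (b, n) :=
    fun v => by
      simp only [ng, gs, vol, qq_bd, det_blockDiagonal, prod_div_distrib, mul_sum,
        ← sum_neg_distrib, Real.exp_sum, prod_inv_distrib]
      rw [Real.sqrt_prod _ fun _ _ => hB.det_pos.le]
  have h2 := hs_piC fun n => summable_Ex (hp n) hB (hf n)
  simp only [Ex]
  rw [← h2.tsum_eq, ← ((Equiv.prodComm L J).arrowCongr (Equiv.refl ℤ)).trans
    (Equiv.curry J L ℤ) |>.tsum_eq]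
  refine tsum_congr fun z => ?_
  rw [h1, Complex.ofReal_prod, ← prod_mul_distrib]
  rfl

theorem Ev_univ {V : Type} (S : MS V L) (f : (L → ℤ) → ℂ) :
    Ev S univ f = Ex S.G (fun z => S.p (toR z)) f := by
  have e : ∀ z : L → ℤ, put univ (z ∘ Equiv.subtypeUnivEquiv mem_univ) 0 = z := fun z =>
    funext fun i => put_pos _ _ (mem_univ i)
  rw [Ev_eq_Ex]
  exact Ex_equiv (Equiv.subtypeUnivEquiv mem_univ) (fun _ _ => rfl)
    (fun z i => by rw [pq, e]; rfl) fun z => by rw [e]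

theorem conj_sec {e : K → L} {S : Matrix K L ℤ}
    (hS : ∀ k k', S k (e k') = (1 : Matrix K K ℤ) k k') (A : Matrix K K ℝ) (i : L) (k' : K) :
    ((P057ST.mR S)ᵀ * A * P057ST.mR S) i (e k') = ∑ k, (S k i : ℝ) * A k k' := by
  rw [mul_apply, sum_eq_single k' (fun k _ hk => by simp [P057ST.mR, hS, hk]) (by simp)]
  simp [P057ST.mR, hS, mul_apply]

end

end Vale.Agent.P057EN
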