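import Vale.Agent.P057EN.Sem
import Vale.Agent.P057ST.Cmp

/-!
Reflections of labels: change of the variables, comparison of Gram matrices, mixture.
-/

set_option linter.unusedSectionVars false

open Matrix Finset
open Vale.Agent.P267.H775 Vale.Agent.P057G Vale.Agent.P057PC Vale.Agent.P057ST

namespace Vale.Agent.P057EN

noncomputable section

variable {L : Type*} [Fintype L] [DecidableEq L]

theorem qq_bk (G : Matrix L L ℝ) (P : L → Prop) [DecidablePred P] {v : L → ℝ}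
    (hv : ∀ l, ¬ P l → v l = 0) : qq (bk G P) (rs P v) = qq G v := by
  have e : ∀ g : L → ℝ, (∀ l, ¬ P l → g l = 0) → ∑ l : {l // P l}, g l = ∑ l, g l := fun g hg => by
    rw [← Fintype.sum_subtype_add_sum_subtype P g, add_eq_left.2]
    exact sum_eq_zero fun l _ => hg l l.2
  unfold qq
  simp only [dotProduct, mulVec, bk, rs, submatrix_apply]
  rw [← e (fun i => v i * ∑ j, G i j * v j) fun l hl => by rw [hv l hl, zero_mul]]
  refine sum_congr rfl fun i _ => ?_
  rw [e (fun j => G i j * v j) fun l hl => by rw [hv l hl, mul_zero]]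

theorem posDef_half {G H : Matrix L L ℝ} (hG : G.PosDef) (hH : H.IsHermitian)
    (h : ∀ v, 2 * qq G v ≤ qq H v) : (H - G).PosDef := by
  refine PosDef.of_dotProduct_mulVec_pos (hH.sub hG.1) fun x hx => ?_
  have h1 := hG.dotProduct_mulVec_pos hx
  have h2 := h x
  simp only [qq, star_trivial, sub_mulVec, dotProduct_sub] at h1 h2 ⊢
  linarith

theorem qq_near {G : Matrix L L ℝ} (hG : G.PosSemidef) {x y : L → ℝ} {e : ℝ} (h0 : 0 ≤ e)
    (h1 : e ≤ 1) (h : qq G y ≤ e ^ 2 * qq G x) :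
    (1 - 3 * e) * qq G x ≤ qq G (x + y) ∧ qq G (x + y) ≤ (1 + 3 * e) * qq G x := by
  have h2 := bb_sq_le hG x y
  have hx := qq_nonneg hG x
  have hy := qq_nonneg hG y
  have h3 : |bb G x y| ≤ e * qq G x :=
    abs_le_of_sq_le_sq' (by nlinarith) (by positivity) |> abs_le.2
  rw [abs_le] at h3
  have h4 : e ^ 2 * qq G x ≤ e * qq G x := mul_le_mul_of_nonneg_right (by nlinarith) hx
  have h5 := mul_nonneg h0 hx
  rw [qq_add hG.1]
  constructor <;> nlinarith

/-- minus one on `P`, plus the matrix `N` -/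
def rf (P : L → Prop) [DecidablePred P] (N : Matrix L L ℤ) : Matrix L L ℤ :=
  diagonal (fun l => if P l then -1 else 1) + N

/-- the columns in `M` -/
def col (M : L → Prop) [DecidablePred M] (N : Matrix L L ℤ) : Matrix L L ℤ :=
  Matrix.of fun i j => if M j then N i j else 0

variable {P M : L → Prop} [DecidablePred P] [DecidablePred M] {N N' : Matrix L L ℤ}

theorem mul_rf (hN : ∀ i j, N i j ≠ 0 → ¬ P i ∧ P j) (hN' : ∀ i j, N' i j ≠ 0 → ¬ P i ∧ P j) :
    N * rf P N' = -N := by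
  ext i j
  rw [rf, mul_add, Matrix.add_apply, mul_diagonal, mul_apply, sum_eq_zero, add_zero, neg_apply]
  · by_cases h : N i j = 0
    · simp [h]
    · simp [(hN i j h).2]
  · intro k _
    by_contra h
    exact (hN' k j (right_ne_zero_of_mul h)).1 (hN i k (left_ne_zero_of_mul h)).2

theorem rf_mul (hN : ∀ i j, N i j ≠ 0 → ¬ P i ∧ P j) : rf P N * rf P N = 1 := by
  nth_rw 1 [rf]
  rw [add_mul, mul_rf hN hN, rf, mul_add, diagonal_mul_diagonal]
  ext i j
  simp only [Matrix.add_apply, diagonal_mul, neg_apply]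
  by_cases h : N i j = 0
  · rw [h, mul_zero, add_zero, neg_zero, add_zero, diagonal_apply, one_apply]
    split_ifs <;> rfl
  · have h1 := hN i j h
    have : i ≠ j := fun e => h1.1 (e ▸ h1.2)
    rw [diagonal_apply_ne _ this, one_apply_ne this, if_neg h1.1]; ring

theorem col_ne {i j : L} (h : col M N i j ≠ 0) : N i j ≠ 0 ∧ M j := by
  by_cases k : M j <;> simp_all [col]

theorem rf_col (P : L → Prop) [DecidablePred P] (M : L → Prop) [DecidablePred M]
    (N : Matrix L L ℤ) : rf P N = rf P (col M N) + col (fun l => ¬ M l) N := by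
  ext i j
  simp only [rf, col, Matrix.add_apply, of_apply]
  split_ifs <;> ring

theorem mR_add (S U : Matrix L L ℤ) : mR (S + U) = mR S + mR U := by
  ext i j; simp [mR]

theorem mR_neg (S : Matrix L L ℤ) : mR (-S) = -mR S := by
  ext i j; simp [mR]

theorem posDef_unimod {S U : Matrix L L ℤ} (h : U * S = 1) {A : Matrix L L ℝ} (hA : A.PosDef) :
    ((mR S)ᵀ * A * mR S).PosDef :=
  posDef_conj hA (mR S) fun v w e => by
    have := congrArg (mR U *ᵥ ·) e
    simpa only [mulVec_mulVec, ← mR_mul, h, mR_one, one_mulVec] using this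

theorem rf_off {i : L} (hi : ¬ M i) (k : L) :
    mR (rf P (col M N)) k i = if k = i then (if P i then -1 else 1) else 0 := by
  simp only [mR, rf, col, map_apply, Matrix.add_apply, of_apply, if_neg hi, add_zero,
    diagonal_apply]
  split_ifs with a b c <;> simp_all

theorem conj_off (A : Matrix L L ℝ) (i : L) {j : L} (hj : ¬ M j) :
    ((mR (rf P (col M N)))ᵀ * A * mR (rf P (col M N))) i j =
      (∑ k, mR (rf P (col M N)) k i * A k j) * if P j then -1 else 1 := by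
  rw [mul_apply, sum_eq_single j (fun l _ hl => by rw [rf_off hj, if_neg hl, mul_zero])
    (by simp), rf_off hj, if_pos rfl, mul_apply]
  rfl

theorem ort_conj (hM : ∀ i j, N i j ≠ 0 → M j → M i) {A : Matrix L L ℝ} (oA : Ort A M) :
    Ort ((mR (rf P (col M N)))ᵀ * A * mR (rf P (col M N))) M := fun i j hi hj => by
  rw [conj_off A i hj, sum_eq_zero, zero_mul]
  intro k _
  by_cases hk : mR (rf P (col M N)) k i = 0
  · rw [hk, zero_mul]
  · rw [oA k j ?_ hj, mul_zero]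
    by_cases e : k = i
    · exact e ▸ hi
    · refine hM k i (fun e2 => hk ?_) hi
      simp [mR, rf, col, e2, diagonal_apply_ne _ e]

theorem bk_conj {A : Matrix L L ℝ} (hA : A.IsHermitian) (oP : Ort A P) :
    (bk ((mR (rf P (col M N)))ᵀ * A * mR (rf P (col M N))) fun l => ¬ M l) =
      bk A fun l => ¬ M l := by
  ext i j
  simp only [bk, submatrix_apply]
  rw [conj_off A _ j.2, sum_eq_single i.1
    (fun l _ hl => by rw [rf_off i.2, if_neg hl, zero_mul]) (by simp), rf_off i.2, if_pos rfl]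
  have hs : A j i = A i j := by simpa using hA.apply i j
  by_cases a : P i <;> by_cases b : P j
  · simp [a, b]
  · simp [oP _ _ a b]
  · simp [← hs, oP _ _ b a]
  · simp [a, b]

/-- comparison with a close Gram matrix, then a mixture on the block `M` -/
theorem Ex_near_mix {lv : L → ℕ} {p : (L → ℤ) → L → ℝ} (hp : Tri lv p) {A B H : Matrix L L ℝ}
    (hA : A.PosDef) (hB : B.PosDef) (hH : H.PosDef) (oB : Ort B M) (oH : Ort H M)
    (hb : (bk H fun l => ¬ M l) = bk B fun l => ¬ M l) {e η β : ℝ} (h0 : 0 ≤ e) (h1 : e ≤ 1 / 2)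
    (hl : ∀ v, (1 - e) * qq B v ≤ qq A v) (hu : ∀ v, qq A v ≤ (1 + e) * qq B v)
    (hbig : ∀ v, (∀ l, ¬ M l → v l = 0) → 2 * qq B v ≤ qq H v)
    (hη : η ≤ 1) (good : ∀ B : Matrix L L ℝ, B.PosDef → (∀ v, qq B v ≤ 2 * qq H v) →
      |ms B p - 1| ≤ η) {f : (L → ℤ) → ℂ} {C : ℝ} (hf : ∀ z, ‖f z‖ ≤ C)
    (h : ∀ c : L → ℝ, (∀ l, ¬ M l → c l = 0) → ‖Ex H (fun z => p z + c) f‖ ≤ β) :
    ‖Ex A p f‖ ≤ β + C * (4 * η + 8 * e * Fintype.card L) := by
  have b3 : ∀ x, 2 * qq (bk B M) x ≤ qq (bk H M) x := fun x => by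
    have hx : ∀ l, ¬ M l → glue (X := fun _ => ℝ) M x (fun _ => 0) l = 0 := fun l hl =>
      glue_neg (X := fun _ => ℝ) x _ hl
    rw [← rs_glue_pos M x fun _ => 0, qq_bk _ _ hx, qq_bk _ _ hx]
    exact hbig _ hx
  have l2 : ∀ v, qq B v ≤ qq H v := fun v => by
    rw [qq_split hB.1 oB, qq_split hH.1 oH, hb]
    have := b3 (rs M v)
    have := qq_nonneg (posDef_bk hB M).posSemidef (rs M v)
    linarith
  have l3 : ∀ v, (1 + e) * qq B v ≤ 2 * qq H v := fun v =>
    mul_le_mul (by linarith) (l2 v) (qq_nonneg hB.posSemidef v) (by norm_num)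
  have g1 := good _ hA fun v => (hu v).trans (l3 v)
  have g2 := good _ hB fun v => by linarith [l2 v, qq_nonneg hB.posSemidef v]
  have g3 := good _ (hB.smul (by linarith : 0 < 1 + e)) fun v => by
    rw [qq_smul_mat]; exact l3 v
  have k1 := l1_gram hp hB hA h0 h1 hl hu hη (by linarith [(abs_le.1 g2).2])
    (by linarith [(abs_le.1 g1).2]) g3
  have k2 := Ex_cmp hp hB hA hf
  have k3 := Ex_pmix hp hB hH oB oH hb (posDef_half (posDef_bk hB M) (posDef_bk hH M).1 b3) hf h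
  have hC : 0 ≤ C := (norm_nonneg _).trans (hf 0)
  exact (norm_le_insert (Ex B p f) (Ex A p f)).trans
    (add_le_add k3 (k2.trans (mul_le_mul_of_nonneg_left k1 hC)))

/-- the reflection step: the labels outside `M` keep their Gram matrix and their centres -/
theorem Ex_refl {lv : L → ℕ} {p p' : (L → ℤ) → L → ℝ} (hp : Tri lv p)
    (hN : ∀ i j, N i j ≠ 0 → ¬ P i ∧ P j) (hM : ∀ i j, N i j ≠ 0 → M j → M i)
    (hp' : ∀ z, p' (rf P N *ᵥ z) = mR (rf P N) *ᵥ p z) {A H : Matrix L L ℝ} (hA : A.PosDef)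
    (hH : H.PosDef) (oP : Ort A P) (oA : Ort A M) (oH : Ort H M)
    (hb : (bk H fun l => ¬ M l) = bk A fun l => ¬ M l) {e η β : ℝ} (h0 : 0 ≤ e) (h1 : e ≤ 1 / 6)
    (ha : ∀ v, qq A (mR (col (fun l => ¬ M l) N) *ᵥ v) ≤ e ^ 2 * qq A v)
    (hbig : ∀ v, (∀ l, ¬ M l → v l = 0) → 2 * qq A (mR (rf P (col M N)) *ᵥ v) ≤ qq H v)
    (hη : η ≤ 1) (good : ∀ B : Matrix L L ℝ, B.PosDef → (∀ v, qq B v ≤ 2 * qq H v) →
      |ms B p - 1| ≤ η) {f : (L → ℤ) → ℂ} {C : ℝ} (hf : ∀ z, ‖f z‖ ≤ C)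
    (h : ∀ c : L → ℝ, (∀ l, ¬ M l → c l = 0) →
      ‖Ex H (fun z => p z + c) fun z => f (rf P N *ᵥ z)‖ ≤ β) :
    ‖Ex A p' f‖ ≤ β + C * (4 * η + 24 * e * Fintype.card L) := by
  have hNb : ∀ i j, col M N i j ≠ 0 → ¬ P i ∧ P j := fun i j k => hN i j (col_ne k).1
  have hNa : ∀ i j, col (fun l => ¬ M l) N i j ≠ 0 → ¬ P i ∧ P j :=
    fun i j k => hN i j (col_ne k).1
  have n1 : ∀ v, (1 - 3 * e) * qq ((mR (rf P (col M N)))ᵀ * A * mR (rf P (col M N))) v ≤
      qq ((mR (rf P N))ᵀ * A * mR (rf P N)) v ∧ qq ((mR (rf P N))ᵀ * A * mR (rf P N)) v ≤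
      (1 + 3 * e) * qq ((mR (rf P (col M N)))ᵀ * A * mR (rf P (col M N))) v := fun v => by
    rw [qq_conj, qq_conj, rf_col P M N, mR_add, add_mulVec]
    refine qq_near hA.posSemidef h0 (by linarith) ?_
    have := ha (mR (rf P (col M N)) *ᵥ v)
    rwa [mulVec_mulVec, ← mR_mul, mul_rf hNa hNb, mR_neg, neg_mulVec, qq_neg] at this
  rw [← Ex_unimod (rf_mul hN) A hp' f]
  refine (Ex_near_mix hp (posDef_unimod (rf_mul hN) hA) (posDef_unimod (rf_mul hNb) hA) hH
    (ort_conj hM oA) oH (hb.trans (bk_conj hA.1 oP).symm) (e := 3 * e) (by linarith) (by linarith)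
    (fun v => (n1 v).1) (fun v => (n1 v).2) (fun v hv => by rw [qq_conj]; exact hbig v hv) hη good
    (fun z => hf _) h).trans (le_of_eq ?_)
  ring

end

end Vale.Agent.P057EN
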