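import Vale.Agent.P057EN.Top
import Vale.Agent.P057EN.Rfl

/-!
Change of the base points: every base `s` moves by the vertex `u s`.
-/

set_option linter.unusedSectionVars false

open Matrix Finset MvPolynomial
open Vale.Agent.P267.H775 Vale.Agent.P057G Vale.Agent.P057PC Vale.Agent.P057TP Vale.Agent.P057ST

namespace Vale.Agent.P057EN

noncomputable section

variable {C W S R : Type} [Fintype W] [DecidableEq W] [Fintype S] {T : Tow} {cl : W → C} {m : ℕ}

/-- movable vertices: `lf v = some s` if `v` moves with the base `s` -/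
structure Mov (cl : W → C) (S : Type) where
  u : S → W
  lf : W → Option S
  lu : ∀ s, lf (u s) = some s
  cu : ∀ s v, lf v = none → cl v ≠ cl (u s)

namespace Mov

variable (M : Mov cl S)

/-- faces without movable vertices -/
def Fix (A : Finset W) : Prop := ∀ v ∈ A, M.lf v = none

open Classical in
/-- the part of a face that does not move -/
def fx (A : Finset W) : Finset W := A.filter fun v => M.lf v = none

/-- faces with at most one movable vertex, which belongs to `s` -/
structure Cmp (s : S) (A : Finset W) : Prop where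
  inj : Set.InjOn cl A
  own : ∀ v ∈ A, M.lf v = none ∨ M.lf v = some s
  one : ∀ v ∈ A, ∀ v' ∈ A, M.lf v ≠ none → M.lf v' ≠ none → v = v'

/-- labels through one of the vertices `u s` -/
def P (l : Lb T cl S m) : Prop := ∃ s, M.u s ∈ l.fc

/-- the partner of a label -/
def Rel (l l' : Lb T cl S m) : Prop :=
  ¬ M.P l ∧ l'.cd = l.cd ∧ ∃ s, ((∃ v ∈ l.fc, M.lf v = some s) ∨ (M.Fix l.fc ∧ l.bs = some s)) ∧
    l'.fc = insert (M.u s) (M.fx l.fc) ∧ (l'.bs = none ∨ l'.bs = some s)

open Classical in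
/-- the matrix of the partners -/
def N (T : Tow) (m : ℕ) : Matrix (Lb T cl S m) (Lb T cl S m) ℤ :=
  Matrix.of fun l l' => if M.Rel l l' then (if M.Fix l.fc then 1 else -1) else 0

open Classical in
/-- new labels to old labels -/
def RM (T : Tow) (m : ℕ) : Matrix (Lb T cl S m) (Lb T cl S m) ℤ := rf M.P (M.N T m)

open Classical in
/-- the new face of an old point -/
def ρ (s : S) (B : Finset W) : Finset W :=
  if M.u s ∈ B then B.erase (M.u s) else if M.Fix B then insert (M.u s) B else B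

variable {M} {s : S} {A B : Finset W}

theorem mem_fx {v : W} : v ∈ M.fx A ↔ v ∈ A ∧ M.lf v = none := by
  classical
  simp [fx]

theorem fx_sub : M.fx A ⊆ A := fun _ h => (mem_fx.1 h).1

theorem fix_fx : M.Fix (M.fx A) := fun _ h => (mem_fx.1 h).2

theorem Fix.fx (h : M.Fix A) : M.fx A = A :=
  Subset.antisymm fx_sub fun v hv => mem_fx.2 ⟨hv, h v hv⟩

theorem Fix.mono (h : M.Fix A) (hB : B ⊆ A) : M.Fix B := fun v hv => h v (hB hv)

theorem Fix.not_mem (h : M.Fix A) {v : W} (hv : M.lf v = some s) : v ∉ A := fun k => by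
  rw [h v k] at hv; cases hv

theorem Fix.fx_insert (h : M.Fix A) {v : W} (hv : M.lf v = some s) : M.fx (insert v A) = A := by
  ext w
  rw [mem_fx, mem_insert]
  refine ⟨fun k => k.1.resolve_left fun e => ?_, fun k => ⟨Or.inr k, h w k⟩⟩
  rw [e, hv] at k; cases k.2

theorem not_fix {v : W} (hv : M.lf v = some s) (h : v ∈ A) : ¬ M.Fix A := fun k => k.not_mem hv h

theorem Cmp.mono (h : M.Cmp s A) (hB : B ⊆ A) : M.Cmp s B :=
  ⟨h.inj.mono (coe_subset.2 hB), fun v hv => h.own v (hB hv),
    fun v hv v' hv' => h.one v (hB hv) v' (hB hv')⟩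

theorem Cmp.cases (h : M.Cmp s A) : M.Fix A ∨ ∃ v, M.lf v = some s ∧ A = insert v (M.fx A) := by
  by_cases k : M.Fix A
  · exact Or.inl k
  · unfold Fix at k
    push Not at k
    obtain ⟨v, hv, k⟩ := k
    refine Or.inr ⟨v, (h.own v hv).resolve_left k, Subset.antisymm (fun w hw => ?_)
      (insert_subset hv fx_sub)⟩
    by_cases e : M.lf w = none
    · exact mem_insert_of_mem (mem_fx.2 ⟨hw, e⟩)
    · exact mem_insert.2 (Or.inl (h.one w hw v hv e k))

theorem Cmp.u_eq (h : M.Cmp s A) {s' : S} (k : M.u s' ∈ A) : s' = s := by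
  have := h.own _ k
  rw [M.lu] at this
  simpa using this

theorem inj_insert (hA : Set.InjOn cl A) (h : M.Fix A) (s : S) :
    Set.InjOn cl (insert (M.u s) A : Finset W) := by
  rw [coe_insert]
  refine (Set.injOn_insert (h.not_mem (M.lu s))).2 ⟨hA, ?_⟩
  rintro ⟨v, hv, e⟩
  exact M.cu s v (h v hv) e

theorem Cmp.inj_rho (h : M.Cmp s B) : Set.InjOn cl (M.ρ s B) := by
  unfold ρ
  split_ifs with a b
  exacts [h.inj.mono (coe_subset.2 (erase_subset _ _)), inj_insert h.inj b s, h.inj]

theorem Cmp.card (h : M.Cmp s A) : A.card ≤ (insert (M.u s) (M.fx A)).card := by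
  rw [card_insert_of_notMem (fix_fx.not_mem (M.lu s))]
  rcases h.cases with k | ⟨v, -, k⟩
  · rw [k.fx]; omega
  · conv_lhs => rw [k]
    exact card_insert_le _ _

theorem N_ne {l l' : Lb T cl S m} (h : M.N T m l l' ≠ 0) : M.Rel l l' := by
  by_contra k
  exact h (if_neg k)

theorem Rel.P {l l' : Lb T cl S m} (h : M.Rel l l') : ¬ M.P l ∧ M.P l' := by
  obtain ⟨h1, -, s, -, h2, -⟩ := h
  exact ⟨h1, s, h2 ▸ mem_insert_self _ _⟩

open Classical in
theorem R_apply [CommRing R] {l : Lb T cl S m} (h : M.Cmp s l.fc)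
    (hl : l.bs = none ∨ l.bs = some s) (x : Lb T cl S m → R) :
    ((M.RM T m).map (Int.cast : ℤ → R) *ᵥ x) l = if M.u s ∈ l.fc then -x l else
      x l + (if M.Fix l.fc then 1 else -1) * tot x s l.cd (insert (M.u s) (M.fx l.fc)) := by
  have hP : M.P l ↔ M.u s ∈ l.fc := ⟨fun ⟨s', k⟩ => h.u_eq k ▸ k, fun k => ⟨s, k⟩⟩
  simp only [Mov.RM, rf, mulVec, dotProduct, map_apply, Matrix.add_apply, Int.cast_add, add_mul,
    sum_add_distrib]
  rw [sum_eq_single l (fun l' _ e => by rw [diagonal_apply_ne _ e.symm]; simp) (by simp),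
    diagonal_apply_eq]
  by_cases a : M.P l
  · rw [if_pos a, if_pos (hP.1 a),
      sum_eq_zero fun l' _ => by rw [N, of_apply, if_neg fun e => e.1 a]; simp]; simp
  have b : M.u s ∉ l.fc := fun k => a (hP.2 k)
  rw [if_neg a, if_neg b]
  by_cases c : M.Fix l.fc
  · rw [if_pos c, Int.cast_one, one_mul, one_mul]
    congr 1
    rcases hl with e | e
    · rw [tot_big _ _ (by
        rw [c.fx, card_insert_of_notMem b, l.card_eq e]; omega)]
      refine sum_eq_zero fun l' _ => ?_
      rw [N, of_apply, if_neg, Int.cast_zero, zero_mul]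
      rintro ⟨-, -, s', ⟨v, k1, k2⟩ | k, -⟩
      · exact c.not_mem k2 k1
      · rw [e] at k; cases k.2
    · refine sum_congr rfl fun l' _ => ?_
      rw [N, of_apply, if_pos c]
      by_cases k : M.Rel l l'
      · obtain ⟨-, k0, s', ⟨v, k1, k2⟩ | k1, k2⟩ := id k
        · exact absurd k1 (c.not_mem k2)
        · obtain rfl : s' = s := Option.some_injective _ (k1.2.symm.trans e)
          rw [if_pos k, if_pos ⟨k0, k2⟩]; simp
      · rw [if_neg k, if_neg fun k1 => k ⟨a, k1.1, s, Or.inr ⟨c, e⟩, k1.2⟩]; simp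
  · rw [if_neg c, Int.cast_one, one_mul, tot, mul_sum]
    congr 1
    refine sum_congr rfl fun l' _ => ?_
    rw [N, of_apply, if_neg c]
    by_cases k : M.Rel l l'
    · obtain ⟨-, k0, s', ⟨v, k1, k2⟩ | k1, k3⟩ := id k
      · obtain rfl : s' = s := by
          have := h.own v k1
          rw [k2] at this
          simpa using this
        rw [if_pos k, if_pos ⟨k0, k3⟩]; simp
      · exact absurd k1.1 c
    · obtain ⟨v, k1, k2⟩ := h.cases.resolve_left c
      rw [if_neg k, if_neg fun k3 => k ⟨a, k3.1, s, Or.inl ⟨v, k2 ▸ mem_insert_self _ _, k1⟩, k3.2⟩]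
      simp

open Classical in
theorem tot_R [CommRing R] (h : M.Cmp s A) (x : Lb T cl S m → R) (a : T.ι) :
    tot ((M.RM T m).map (Int.cast : ℤ → R) *ᵥ x) s a A = if M.u s ∈ A then -tot x s a A else
      tot x s a A + (if M.Fix A then 1 else -1) * tot x s a (insert (M.u s) (M.fx A)) := by
  by_cases h1 : m ≤ T.lv a
  · simp only [tot_high _ _ _ h1]; simp
  by_cases h2 : T.lv a < A.card
  · simp only [tot_big _ _ h2, tot_big _ _ (h2.trans_le h.card)]; simp
  obtain ⟨l, rfl, rfl, h3⟩ := exists_lab (T := T) (cl := cl) s (not_le.1 h1) h.inj (not_lt.1 h2)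
  rw [tot_lab _ h3, tot_lab _ h3, R_apply h h3]

/-- old points are new points -/
theorem pt_R [CommRing R] (h : M.Cmp s B) (x : Lb T cl S m → R) :
    pt ((M.RM T m).map (Int.cast : ℤ → R) *ᵥ x) (some s) B = pt x (some s) (M.ρ s B) := by
  classical
  funext a
  have e1 : ∀ {B}, M.Cmp s B → M.Fix B → ∑ A ∈ B.powerset,
      tot ((M.RM T m).map (Int.cast : ℤ → R) *ᵥ x) s a A =
      ∑ A ∈ B.powerset, tot x s a A + ∑ A ∈ B.powerset, tot x s a (insert (M.u s) A) :=
    fun {B} h k => by
      rw [← sum_add_distrib]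
      refine sum_congr rfl fun A hA => ?_
      have k2 := k.mono (mem_powerset.1 hA)
      rw [tot_R (h.mono (mem_powerset.1 hA)), if_neg (k2.not_mem (M.lu s)), if_pos k2, k2.fx,
        one_mul]
  rw [pt_tot, pt_tot, ρ]
  rcases h.cases with k | ⟨v, k1, k2⟩
  · rw [if_neg (k.not_mem (M.lu s)), if_pos k, sum_powerset_insert (k.not_mem (M.lu s)), e1 h k]
  have f := fix_fx (M := M) (A := B)
  have hv := f.not_mem k1
  have hs : ∀ A ∈ (M.fx B).powerset, M.Cmp s (insert v A) := fun A hA =>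
    h.mono ((insert_subset_insert v (mem_powerset.1 hA)).trans k2.ge)
  have hB : v ∈ B := k2 ▸ mem_insert_self _ _
  by_cases e : v = M.u s
  · subst e
    rw [if_pos hB]
    conv_lhs => rw [k2, sum_powerset_insert hv, e1 (h.mono fx_sub) f]
    conv_rhs => rw [k2, erase_insert hv]
    rw [add_assoc, ← sum_add_distrib, sum_eq_zero (s := (M.fx B).powerset)
      (f := fun A => _ + _), add_zero]
    intro A hA
    rw [tot_R (hs A hA), if_pos (mem_insert_self _ _), add_neg_cancel]
  · have hu : M.u s ∉ B := fun k => e (h.one v hB _ k (by simp [k1]) (by simp [M.lu]))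
    rw [if_neg hu, if_neg (not_fix k1 hB)]
    conv_lhs => rw [k2, sum_powerset_insert hv, e1 (h.mono fx_sub) f]
    conv_rhs => rw [k2, sum_powerset_insert hv]
    rw [add_assoc, ← sum_add_distrib]
    congr 1
    refine sum_congr rfl fun A hA => ?_
    have k3 := f.mono (mem_powerset.1 hA)
    rw [tot_R (hs A hA), if_neg fun k => hu (k2 ▸ insert_subset_insert v (mem_powerset.1 hA) k),
      if_neg (not_fix k1 (mem_insert_self _ _)), k3.fx_insert k1]
    ring

/-- the vertices `u s` carry no lower order terms -/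
def Free (M : Mov cl S) (Z : Sys T W S) : Prop :=
  ∀ s B a, Z.fam.at' (some s) (insert (M.u s) B) a = Z.fam.at' (some s) B a

theorem Free.rho {Z : Sys T W S} (h : M.Free Z) (s : S) (B : Finset W) (a : T.ι) :
    Z.fam.at' (some s) (M.ρ s B) a = Z.fam.at' (some s) B a := by
  unfold ρ
  split_ifs with k1 k2
  · rw [← h, insert_erase k1]
  · exact h s B a
  · rfl

/-- the relabelling commutes with the centres -/
theorem pr_R {Z : Sys T W S} (hZ : Z.Ok) (hf : M.Free Z) {l : Lb T cl S m} (h : M.Cmp s l.fc)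
    (hl : l.bs = none ∨ l.bs = some s) (x : Lb T cl S m → ℝ) :
    Z.pr cl m (mR (M.RM T m) *ᵥ x) l = (mR (M.RM T m) *ᵥ Z.pr cl m x) l := by
  refine (pr_map hZ hZ hl (M.ρ s) (fun B hB => (h.mono hB).inj_rho)
    (fun B hB => pt_R (h.mono hB) x) fun B _ => (hf.rho s B _).symm).trans ?_
  rw [← tot_lab (mR (M.RM T m) *ᵥ Z.pr cl m x) hl, ← dlt_tot]
  exact dlt_congr fun B hB => (congrFun (pt_R (h.mono hB) _) _).symm

theorem map_int {ι : Type} (U : Matrix ι ι ℤ) : U.map (Int.cast : ℤ → ℤ) = U := by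
  ext i j; simp

theorem pt_Rz (h : M.Cmp s B) (z : Lb T cl S m → ℤ) :
    pt (M.RM T m *ᵥ z) (some s) B = pt z (some s) (M.ρ s B) := by
  rw [← pt_R h z, map_int]

theorem R_mul : M.RM T m * M.RM T m = 1 := by
  classical
  exact rf_mul fun _ _ h => (N_ne h).P

end Mov

end

end Vale.Agent.P057EN
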