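import Vale.Agent.P057EN.Par
import Vale.Agent.P057DP.Flp

/-!
The product of the star systems of all leaves, and its form after the shift.
-/

set_option linter.unusedSectionVars false

open Matrix Finset
open Vale.Agent.P267.H775 Vale.Agent.P057G Vale.Agent.P057PC
open Vale.Agent.P057TP hiding ind
open Vale.Agent.P057GH Vale.Agent.P057DP
open Vale.Agent.P057T1 (ind ind_pos ind_neg ind_nonneg ind_le abs_ind)
open Vale.Agent.P057SB (toR_sub nrs)

namespace Vale.Agent.P057EN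

noncomputable section

variable {C W E κ : Type} [DecidableEq C] [Fintype W] [DecidableEq W] [Fintype E]
  [DecidableEq E] [Fintype κ] [DecidableEq κ] {T : Tow} {m s : ℕ} {N : ℝ} {πE : E → W}
  {cl : W → C} {b : C} {Z : Sys T W Unit} (x : Sx T cl m κ) {am : ℝ}

variable (πE b) in
open Classical in
def a1 (σ : XC E W → ℝ) (F : Finset (XC E W ⊕ KB cl b κ)) (o : Option (SB cl b)) : ℝ :=
  if Kp F o then sc σ F else x.a (img (Sum.elim (fun v => some (Sum.inl ((Oc πE).π v)))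
    fun k => k.map fun k => Sum.inr k.2) F) (o.map fun _ => ())

variable (πE b) in
def c1 : LK T cl m (Oc πE) (KB cl b κ) (SB cl b) → ℝ :=
  Function.extend (fun p : SB cl b × _ => et πE p.1 p.2) (fun p => x.c p.2) 0

def fs : (LK T cl m (Ov.one W) (κ × Bool) Unit → ℤ) → ℂ :=
  Fs x.Ce x.g x.θ (ι := id) (fun _ => rfl) id ()

theorem img_et (t : SB cl b) (F : Finset (W ⊕ κ × Bool)) :
    img (Sum.elim (fun v => some (Sum.inl ((Oc πE).π v))) fun k => k.map fun k => Sum.inr k.2)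
      (F.image (Sum.map (gt cl b t.1) fun j => (some (t, j) : KB cl b κ))) = F := by
  rw [img_image]
  ext v
  rw [mem_img]
  refine ⟨fun ⟨w, a, e⟩ => ?_, fun a => ⟨v, a, by cases v <;> rfl⟩⟩
  obtain rfl : w = v := by cases w <;> exact Option.some_injective _ e
  exact a

theorem c1_et (t : SB cl b) (k : LK T cl m (Ov.one W) (κ × Bool) Unit) :
    c1 πE b x (et πE t k) = x.c k := by
  refine Function.FactorsThrough.extend_apply (fun p p' e => congrArg x.c ?_) _ (t, k)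
  refine lb_ext (congrArg Lb.cd e :) ((img_et (πE := πE) p.1 _).symm.trans
    ((congrArg (fun l => img _ l.fc) e).trans (img_et p'.1 _))) ?_
  have : p.2.bs.map (fun _ => p.1) = p'.2.bs.map fun _ => p'.1 := congrArg Lb.bs e
  revert this
  cases p.2.bs <;> cases p'.2.bs <;> simp

variable {x}

theorem c1_kp (hx : x.Ok am) {l : LK T cl m (Oc πE) (KB cl b κ) (SB cl b)} (h : Kp l.fc l.bs) :
    c1 πE b x l = 0 := by
  by_cases k : ∃ p : SB cl b × _, et πE p.1 p.2 = l
  · obtain ⟨p, rfl⟩ := k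
    exact (c1_et x _ _).trans (hx.c0 _ (kp_lf.1 h))
  · exact Function.extend_apply' _ _ _ k

theorem a1_pos (hx : x.Ok am) {σ : XC E W → ℝ} (hσ : ∀ v, 0 < σ v) (F : Finset _) (o : Option _) :
    0 < a1 πE b x σ F o := by
  unfold a1
  split_ifs
  exacts [sc_pos hσ _, (hx.bd _ _).1]

theorem ee_sum' {ι : Type} (t : Finset ι) (u : ι → ℝ) : ∏ i ∈ t, ee (u i) = ee (∑ i ∈ t, u i) := by
  classical
  induction t using Finset.induction_on with
  | empty => simp [ee_zero]
  | insert a t ha ih => rw [sum_insert ha, prod_insert ha, ee_add, ih]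

theorem norm_prod_le {ι : Type} {t : Finset ι} {f : ι → ℂ} (h : ∀ i ∈ t, ‖f i‖ ≤ 1) :
    ‖∏ i ∈ t, f i‖ ≤ 1 := by
  rw [norm_prod]; exact prod_le_one (fun _ _ => norm_nonneg _) h

theorem norm_g (hx : x.Ok am) (a : κ) (A : Finset W) (u : T.ι → ℤ) : ‖(x.g a A u : ℂ)‖ ≤ 1 := by
  rw [Complex.norm_real]; exact hx.g1 _ _ _

theorem norm_fs (hx : x.Ok am) (z : _ → ℤ) : ‖fs x z‖ ≤ 1 := by
  rw [fs, Fs, norm_mul, norm_ee, mul_one]
  exact norm_prod_le fun _ _ => norm_prod_le fun _ _ => norm_g hx _ _ _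

theorem low (hT : T.Ok s N) (hZ : Z.Ok) (hx : x.Ok am) {σ : XC E W → ℝ} (hσ : ∀ v, 0 < σ v)
    {Ec : (LT T cl m (Oc πE) → ℤ) → Prop} (dE : Dp (b0 T cl m _ Unit Empty (Pc cl b)) Ec) {ε : ℝ}
    (hε : 0 ≤ ε) (hp : ∀ z, Ec z → ∀ t : SB cl b,
      x.Pop Z ε (z ∘ lt (h_lw πE cl b t) () ∘ ri πE)) :
    ∃ G : (LK T cl m (Oc πE) (KB cl b κ) (SB cl b) → ℤ) → ℂ,
      (∀ z, ‖G z‖ ≤ ind (Ec (z ∘ lt (g := id) (fun _ => rfl) none))) ∧
      Dp (b0 T cl m _ _ _ (Pc cl b)) G ∧
      ε ^ Fintype.card (SB cl b) * dn cl m Z (Oc πE) σ (Pc cl b) Ec ≤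
        ‖Ev ((Oc πE).ms cl m Z _ _ (a1 πE b x σ) (c1 πE b x))
          (b0 T cl m (Oc πE) _ _ (Pc cl b) ∪ univ.biUnion (rt κ T m πE))
          fun z => G z * ∏ t, fs x (z ∘ et πE t)‖ := by
  classical
  set S1 := (Oc πE).ms cl m Z _ _ (a1 πE b x σ) (c1 πE b x)
  have lo : Lo S1 := lo_ms hT hZ (a1_pos hx hσ) _
  have em : ∀ t : SB cl b, Emb ((Ov.one W).ms cl m Z _ _ x.a x.c) S1 (et πE t)
      (b0 T cl m (Ov.one W) (κ × Bool) Unit fun _ => True)ᶜ := fun t =>
    emb_lf (gt_inj _) (ke_inj t) (fun _ _ _ => rfl) (jk_gt _) (fun l hl => by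
      refine (if_neg (not_kp (mem_image_of_mem (et πE t) hl)).1).trans ?_
      rw [img_et, Option.map_map]
      exact congrArg _ (Option.map_id_apply)) fun l _ => c1_et x t l
  have e0 : Emb (tst cl m Z (Oc πE) σ 1) S1 (lt (g := id) (fun _ => rfl) none)
      (b0 T cl m _ Unit Empty (Pc cl b)) :=
    emb_lf Function.injective_id (fun _ _ _ => rfl) (fun u => u.elim) (fun _ => rfl) (fun l hl => by
      rw [if_neg ((mem_b0.1 hl).1.2 ())]
      exact (if_pos ((kp_lf (O₂ := Oc πE) (h := fun _ => rfl)).2 (mem_b0.1 hl).1)).trans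
        (sc_image Function.injective_id (fun _ _ _ => rfl) fun _ _ => rfl))
      fun l hl => c1_kp hx (kp_lf.2 (mem_b0.1 hl).1)
  have cr : ∀ t, Cl S1 _ := fun t : SB cl b => (dc_ms (cq_rt t)).cl lo
  have df : ∀ t : SB cl b, Dp (b0 T cl m (Oc πE) _ _ (Pc cl b) ∪ rt κ T m πE t)
      fun z => fs x (z ∘ et πE t) := fun t z z' h => congrArg _ (funext fun k =>
    h _ ((un_rt t).ge (mem_union_right _ (mem_image_of_mem _ (mem_univ k)))))
  choose B hB using fun t : SB cl b => lo.Fb_bdd (rt κ T m πE t)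
    (f := fun z => fs x (z ∘ et πE t)) fun z => norm_fs hx _
  let φ := fun t => Fb S1 (rt κ T m πE t) fun z => fs x (z ∘ et πE t)
  let G : (LK T cl m (Oc πE) (KB cl b κ) (SB cl b) → ℤ) → ℂ := fun z =>
    ind (Ec (z ∘ lt (g := id) (fun _ => rfl) none)) * ∏ t, (starRingEnd ℂ) (φ t z) / ‖φ t z‖
  have g1 : ∀ z, ‖G z‖ ≤ ind (Ec (z ∘ lt (g := id) (fun _ => rfl) none)) := fun z => by
    rw [norm_mul, Complex.norm_real, Real.norm_of_nonneg (ind_nonneg _)]
    refine mul_le_of_le_one_right (ind_nonneg _) (norm_prod_le fun t _ => ?_)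
    rw [norm_div, Complex.norm_conj, Complex.norm_real, norm_norm]
    exact div_self_le_one _
  have g2 : Dp (b0 T cl m _ _ _ (Pc cl b)) G := fun z z' h => by
    simp only [G, φ, fun t => dp_Fb (cr t) (df t) z z' h]
    exact congrArg (fun p => (ind p : ℂ) * _) (dE.comp (fun l a => lf_b0 (fun _ c => c) a) z z' h)
  refine ⟨G, g1, g2, ?_⟩
  rw [(Ev_prod lo.toTr univ ((dc_ms (cq_b0 _)).cl lo) cr (fun t => disjoint_left.2 fun l a c =>
    (not_kp c).1 (mem_b0.1 a).1) (fun _ _ => rt_disj) (fun _ _ => norm_fs hx _) df).2 G 1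
    (fun z => (g1 z).trans (ind_le _)) g2]
  have e1 : (fun z => G z * ∏ t, φ t z) = fun z =>
      ((ind (Ec (z ∘ lt (g := id) (fun _ => rfl) none)) * ∏ t, ‖φ t z‖ : ℝ) : ℂ) := funext fun z => by
    simp only [G, mul_assoc, ← prod_mul_distrib, Complex.ofReal_mul, Complex.ofReal_prod]
    refine congrArg _ (prod_congr rfl fun t _ => ?_)
    rw [div_mul_eq_mul_div, Complex.conj_mul', sq, mul_self_div_self]
  rw [e1, Ev_Er, Complex.norm_real, dn, ← e0.er, ← Er_mul,
    b0_image Function.injective_id (fun _ _ _ => rfl) (P₂ := Pc cl b) (by simp)]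
  refine le_trans (lo.Er_le ((bd_const _).mul (bd_ind _)) ((bd_ind _).mul ⟨∏ t, B t, fun z => ?_⟩)
    fun z _ => ?_) (le_abs_self _)
  · rw [abs_prod]
    exact prod_le_prod (fun _ _ => abs_nonneg _) fun t _ => (abs_norm _).trans_le (hB t z)
  by_cases k : Ec (z ∘ lt (g := id) (fun _ => rfl) none)
  · rw [ind_pos k, mul_one, one_mul, ← card_univ, ← prod_const]
    refine prod_le_prod (fun _ _ => hε) fun t _ => (hp _ k t (z ∘ et πE t) ?_).trans_eq
      (congrArg _ ((em t).fb (fs x) z).symm)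
    funext l
    refine congrArg z ?_
    refine lb_ext rfl ?_ ?_
    · change image _ (image _ _) = image _ (image _ (image _ (image _ _)))
      simp only [image_image]
      exact image_congr fun v _ => by cases v with | inl => rfl | inr e => exact e.elim
    · change (l.bs.map _).map _ = (((l.bs.map _).map _).map _).map _
      cases l.bs with | none => rfl | some e => exact e.elim
  · rw [ind_neg k, mul_zero, zero_mul]

variable (πE b x) in
/-- the forms after the shift -/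
def Th (k : SB cl b × κ × Bool) (u : LT T cl m (Oc πE) → ℝ) : ℝ :=
  (if k.2.2 then 1 else -1) * x.θ k.2.1
    ((sub (ex (Mr πE cl b)) u : LT T cl m (Oc πE) → ℝ) ∘ lt (h_lw πE cl b k.1) () ∘ ri πE)

theorem fo_Th (hT : T.Ok s N) (hZ : Z.Ok) (hx : x.Ok am) (k : SB cl b × κ × Bool) :
    Fo cl m (Oc πE) (Lt cl b k.1.1) (Th πE b x k) :=
  fo_mul _ ((nrs T s N C W _ _ Z cl m _ _ _ _ _ hT hZ (sm_Mr (P := fun v => ∃ w, gt cl b k.1.1 w = v)
    (fun _ => Or.inl) fun _ a c => Or.inr (congrArg uu (Lt.ld (Or.inl a) c).symm))).2 _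
      (fo_lt (h_lw πE cl b k.1) (P₁ := fun v => ∃ w, Sum.inr w = v)
        (fun _ ⟨w, a⟩ => ⟨w, a ▸ rfl⟩) (fo_lt _ (fun w _ => ⟨w, rfl⟩) (hx.fo k.2.1)))).1

theorem split (hx : x.Ok am) (t₀ : SB cl b) :
    ∃ A B : (LK T cl m (Oc πE) (KB cl b κ) (SB cl b) → ℤ) → ℂ, (∀ z, ‖A z‖ ≤ 1) ∧
      (∀ z, ‖B z‖ ≤ 1) ∧ Dp (aw (Db cl b) (q2 κ T m πE cl b)) A ∧
      Dp (aw (Da cl b) (q2 κ T m πE cl b)) B ∧ ∀ z,
        ∏ t, fs x (((mv _ πE cl b).RM T m *ᵥ z) ∘ et πE t) = A z * (B z *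
          ee (∑ k, Th πE b x k (toR z ∘ lt (g := id) (fun _ => rfl) (some k)))) := by
  classical
  let F : SB cl b → κ × Bool → Finset W → Finset (XC E W ⊕ KB cl b κ) := fun t j c =>
    insert (Sum.inr (some (t, j))) (c.image fun v => Sum.inl (gt cl b t.1 v))
  let V := fun t j c (z : LK T cl m (Oc πE) (KB cl b κ) (SB cl b) → ℤ) =>
    (x.g j.1 c (pt z (some t) ((mv _ πE cl b).ρ t (F t j c))) : ℂ)
  have f1 : ∀ t j c v, Sum.inl v ∈ F t j c → ∃ w, gt cl b t.1 w = v := fun t j c v a => by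
    obtain ⟨w, -, e⟩ := mem_image.1 ((mem_insert.1 a).resolve_left nofun)
    exact ⟨w, Sum.inl_injective e⟩
  have f2 : ∀ t j c t', (mv _ πE cl b).u t' ∉ F t j c := fun t j c v a =>
    (f1 t j c _ a).elim fun w e => npc v.1 (e ▸ pc_gt w)
  have f3 : ∀ t j c (D : XC E W → Prop), (∀ v, Sum.inl v ∈ (mv _ πE cl b).ρ t (F t j c) → ¬ D v) →
      Dp (aw D (q2 κ T m πE cl b)) (V t j c) := fun t j c D h z z' e => by
    refine congrArg (fun u => (x.g j.1 c u : ℂ)) (funext fun a => pt_congr fun l _ a1 a2 => e l ?_)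
    have : l.fc ⊆ insert (Sum.inl (uu t.1)) (F t j c) := a1.trans (by
      unfold Mov.ρ
      split_ifs
      exacts [(erase_subset _ _).trans (subset_insert _ _), Subset.rfl, subset_insert _ _])
    refine mem_aw.2 ⟨mem_q2.2 (Or.inr ⟨t, fun v a => (mem_insert.1 (this a)).elim
      (fun e => Or.inr (Sum.inl_injective e).symm) fun e => Or.inl (f1 t j c v e), fun k a => ?_,
      a2⟩), fun v a => h v (a1 a)⟩
    have := (mem_insert.1 (this a)).resolve_left nofun
    exact ⟨j, (Sum.inr_injective ((mem_insert.1 this).resolve_right (by simp))).symm⟩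
  have n1 : ∀ (p : _ → _ → _ → Prop) z,
      ‖∏ t, ∏ j, ∏ c ∈ x.Ce, if p t j c then V t j c z else 1‖ ≤ 1 := fun p z =>
    norm_prod_le fun _ _ => norm_prod_le fun _ _ => norm_prod_le fun _ _ => by
      split_ifs
      exacts [norm_g hx _ _ _, norm_one.le]
  have d1 : ∀ (p : _ → _ → _ → Prop) (D : XC E W → Prop), (∀ t j c, p t j c → ∀ v,
      Sum.inl v ∈ (mv _ πE cl b).ρ t (F t j c) → ¬ D v) → Dp (aw D (q2 κ T m πE cl b)) fun z =>
      ∏ t, ∏ j, ∏ c ∈ x.Ce, if p t j c then V t j c z else 1 := fun p D h z z' e =>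
    prod_congr rfl fun t _ => prod_congr rfl fun j _ => prod_congr rfl fun c _ =>
      ite_congr rfl (fun a => f3 t j c D (h t j c a) z z' e) fun _ => rfl
  refine ⟨_, _, n1 fun t j c => ¬ (mv _ πE cl b).Fix (F t j c),
    n1 fun t j c => (mv _ πE cl b).Fix (F t j c), d1 _ _ fun t j c a v d => ?_,
    d1 _ _ fun t j c a v d e => ?_, fun z => ?_⟩
  · rintro ⟨w, e, rfl⟩
    rw [Mov.ρ, if_neg (f2 t j c _), if_neg a] at d
    exact f2 t j c ⟨w, e⟩ d
  · rw [Mov.ρ, if_neg (f2 t j c _), if_pos a] at d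
    rcases v with v | v
    · exact e
    · rcases mem_insert.1 d with d | d
      · cases d; cases e.1
      · exact lf_none.1 (a _ d) _ rfl e.2
  simp only [fs, Fs, prod_mul_distrib]
  rw [← mul_assoc, Fintype.sum_prod_type, ee_sum']
  congr 1
  · simp only [← prod_mul_distrib]
    refine prod_congr rfl fun t _ => prod_congr rfl fun j _ => prod_congr rfl fun c hc => ?_
    refine Eq.trans (b := V t j c z) ?_
      (by by_cases h : (mv _ πE cl b).Fix (F t j c) <;> simp [h])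
    refine congrArg (fun u => (x.g j.1 c u : ℂ)) ((funext fun a => pt_lift
      (hc_map (O₁ := Ov.one W) (O₂ := Oc πE) (g := gt cl b t.1) (fun _ => rfl) _) ((gt_inj _).sumMap (ke_inj t)) (fun _ _ _ => rfl) _ _ _ a).trans ?_)
    rw [image_insert, image_image]
    refine Mov.pt_Rz (cmp_mv ?_ fun v a => Lt.ld (Or.inl (f1 t j c v a))) z
    rw [coe_insert]
    refine (Set.injOn_insert (by simp)).2 ⟨?_, by simp [Ov.cl]⟩
    rintro _ a _ a' e
    obtain ⟨v, hv, rfl⟩ := mem_image.1 a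
    obtain ⟨v', hv', rfl⟩ := mem_image.1 a'
    rw [hx.ce c hc hv hv' (Option.some_injective _ e)]
  · refine congrArg ee (sum_congr rfl fun t _ => sum_congr rfl fun j _ => ?_)
    refine congrArg (fun u => _ * x.θ j.1 u) (funext fun l => ?_)
    refine Eq.trans ?_ ((congrArg Int.cast (RM_lt t₀ (some (t, j))
      (l := lt (h_lw πE cl b t) () (ri πE l)) (fun v a => ?_) z)).trans (congrFun (toR_sub _) _))
    · refine congrArg (fun k => ((((mv _ πE cl b).RM T m *ᵥ z) k : ℤ) : ℝ)) ?_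
      refine lb_ext rfl ?_ ?_
      · change image _ (image _ _) = image _ (image _ (image _ _))
        simp only [image_image]
        exact image_congr fun v _ => by cases v <;> rfl
      · change (l.bs.map _).map _ = ((l.bs.map _).map _).map _
        rw [bs_lt l]; rfl
    · obtain ⟨w, a', rfl⟩ := inl_lf.1 a
      obtain ⟨w, -, rfl⟩ := inl_lf.1 a'
      exact pc_gt w

end

end Vale.Agent.P057EN
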