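import Vale.Agent.P057EN.Pa2

/-!
The four corners of a rectangle of shifted chains.
-/

set_option linter.unusedSectionVars false

open Matrix Finset
open Vale.Agent.P267.H775 Vale.Agent.P057G Vale.Agent.P057PC
open Vale.Agent.P057TP hiding ind
open Vale.Agent.P057GH Vale.Agent.P057DP
open Vale.Agent.P057T1 (ind ind_pos ind_neg ind_nonneg ind_le abs_ind)
open Vale.Agent.P057SB (toR_sub nrs)

namespace Vale.Agent.P057EN

noncomputable section

variable {C W E κ : Type} [DecidableEq C] [Fintype W] [DecidableEq W] [Fintype E]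
  [DecidableEq E] [Fintype κ] [DecidableEq κ] {T : Tow} {m s : ℕ} {N : ℝ} {πE : E → W}
  {cl : W → C} {b : C} {Z : Sys T W Unit} {x : Sx T cl m κ} {am ω : ℝ}

def hp : Fin 4 → Fin 3 × Bool := ![(0, false), (0, true), (2, false), (2, true)]

/-- the vertices of the parallelogram in the doubled chain -/
def gp : E ⊕ W × Fin 4 → XC E W × Bool :=
  Sum.elim (fun e => (Sum.inl e, false)) fun v => (Sum.inr (v.1, Sum.inl (hp v.2).1), (hp v.2).2)

theorem h_gp (πE : E → W) (v : E ⊕ W × Fin 4) : (Oc πE).dbl.π (gp v) = (Op πE).π v := by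
  cases v <;> rfl

theorem gp_inj : (gp : E ⊕ W × Fin 4 → _).Injective := by
  have : hp.Injective := by decide
  rintro (e | ⟨v, i⟩) (e' | ⟨v', i'⟩) h <;> simp [gp] at h ⊢
  exacts [h, ⟨h.1.1, this (Prod.ext h.1.2 h.2)⟩]

theorem og_inj : (og : E ⊕ W → XC E W).Injective :=
  Function.injective_id.sumMap fun _ _ e => congrArg Prod.fst e

variable (cl b) in
def PP : XC E W × Bool → Prop := P2 (P1 cl b) fun v => Da cl b v ∨ Db cl b v

variable (πE cl b) in
def DD (v : XC E W × Bool) : Prop := Cb πE cl b v.1 ∧ ¬ ∃ y, Pp cl b y ∧ gp y = v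

theorem cb_ab {v : XC E W} (h : Da cl b v ∨ Db cl b v) : Cb πE cl b v := by
  rcases h with h | ⟨w, h, rfl⟩
  · cases v with
    | inl e => exact h.elim
    | inr v => exact h.2
  · exact h

theorem pp_iff (v : XC E W × Bool) :
    PP cl b v ∧ ¬ DD πE cl b v ↔ ∃ y, Pp cl b y ∧ gp y = v := by
  constructor
  · rintro ⟨⟨h1, h2⟩, h3⟩
    by_contra n
    have h4 : ¬ Cb πE cl b v.1 := fun a => h3 ⟨a, n⟩
    obtain ⟨v, i⟩ := v
    obtain rfl : i = false := h2.resolve_right (mt cb_ab h4)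
    have h5 := h1.resolve_right fun a => h4 (cb_ab (Or.inr a))
    rcases v with e | ⟨v, i | l⟩
    · exact n ⟨Sum.inl e, trivial, rfl⟩
    · obtain rfl : i = 0 := Or.resolve_right h5 fun a => h4 a.2
      exact n ⟨Sum.inr (v, 0), Or.inl rfl, rfl⟩
    · exact h4 h5.1
  · rintro ⟨y, h, rfl⟩
    refine ⟨?_, fun a => a.2 ⟨y, h, rfl⟩⟩
    rcases y with e | ⟨v, i⟩
    · exact ⟨Or.inl trivial, Or.inl rfl⟩
    fin_cases i
    · exact ⟨Or.inl (Or.inl rfl), Or.inl rfl⟩
    · exact ⟨Or.inl (Or.inl rfl), Or.inr (Or.inl ⟨rfl, Or.resolve_left h (by simp)⟩)⟩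
    · exact ⟨Or.inr ⟨v, Or.resolve_left h (by simp), rfl⟩, Or.inl rfl⟩
    · exact ⟨Or.inr ⟨v, Or.resolve_left h (by simp), rfl⟩,
        Or.inr (Or.inr ⟨v, Or.resolve_left h (by simp), rfl⟩)⟩

theorem Mq_eq (i d : Fin 4) : Mq πE cl b i d =
    mb (fun v => v.map id fun w => (w, if cl w = b then i else 0))
      (fun v => Sum.inr ((px πE).π v, d)) fun v => cl ((px πE).π v) = b := by
  funext u v
  unfold Mq mb
  congr!

theorem sm_Mq {i d : Fin 4} (hi : i < 2) (hd : ¬ d < 2) :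
    Sm cl (Op πE) (px πE) (Mq πE cl b i d) (Pp cl b) fun _ => True := by
  rw [Mq_eq]
  refine sm_mb (fun v => by cases v <;> rfl) (fun v => ?_) (fun v _ => ⟨rfl, decide_eq_false hd⟩)
    (fun v _ => ?_) fun v _ a => Or.inr a
  · cases v with
    | inl e => rfl
    | inr w => exact decide_eq_true (by change ite _ _ _ < _; split_ifs; exacts [hi, by decide])
  · cases v with
    | inl e => trivial
    | inr w => exact (em _).symm.imp_left fun a => if_neg a

theorem cn_gp {R : Type} [CommRing R] (i j : Bool) (u : LT T cl m (Oc πE).dbl → R) :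
    (sub (ex (Mr πE cl b)) (u ∘ lt (g := cn (Da cl b) (Db cl b) i j) (fun _ => rfl) () :
      LT T cl m (Oc πE) → R) : LT T cl m (Oc πE) → R) ∘ lt (h_og πE) () =
      sub (ex (Mq πE cl b (if i then 1 else 0) (if j then 3 else 2))) (u ∘ lt (h_gp πE) ()) := by
  have h := sm_Mq (πE := πE) (cl := cl) (b := b) (i := if i then 1 else 0) (d := if j then 3 else 2)
    (by cases i <;> decide) (by cases j <;> decide)
  rw [Mq_eq] at h ⊢
  rw [mb_lt _ gp_inj h]
  refine (congrArg (· ∘ lt (h_og πE) ()) (mb_lt (O₃ := (Oc πE).dbl)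
    (g := cn (Da cl b) (Db cl b) i j) (fun _ => rfl) (fun _ _ e => congrArg Prod.fst e) (sm_Mr (b := b) (P := fun _ => True) (P' := fun _ => True)
      (fun _ => id) fun _ _ _ => trivial) u)).trans ((sub_lt _ og_inj _ u).trans ?_)
  refine congrArg (fun M => sub (ex M) u) (Eq.trans (b := mb (cn _ _ i j ∘ og)
    (fun v => cn _ _ i j (uu (ld πE cl b (og v)))) (Cb πE cl b ∘ og)) rfl
    (mb_congr (fun v => ?_) (fun v => ?_) fun v a => ?_))
  · cases v with
    | inl e => simp [cn, og, gp, Da, Db, uu]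
    | inr w => by_cases a : cl w = b <;> cases i <;> simp [cn, og, gp, Da, Db, uu, a, hp]
  · cases v <;> rfl
  · have : ld πE cl b (og v) = (px πE).π v := by cases v <;> rfl
    have a' : cl ((px πE).π v) = b := h_og πE v ▸ a
    cases j <;> simp [cn, gp, Da, Db, uu, this, a', hp]

theorem fo_alq (hT : T.Ok s N) (hZ : Z.Ok) {θ : (LT T cl m (Ov.one W) → ℝ) → ℝ}
    (h : Fo cl m _ (fun _ => True) θ) : Fo cl m (Op πE) (Pp cl b) (alq πE b θ) := by
  have k := fun i d hi hd => ((nrs T s N C W _ _ Z cl m _ _ _ _ _ hT hZ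
    (sm_Mq (πE := πE) (cl := cl) (b := b) (i := i) (d := d) hi hd)).2 _
    (fo_lt (O₁ := Ov.one W) (g := Sum.inr) (fun _ => rfl) (fun _ _ => trivial) h)).1
  exact fo_add (fo_sub (fo_sub (k 0 2 (by decide) (by decide)) (k 0 3 (by decide) (by decide)))
    (k 1 2 (by decide) (by decide))) (k 1 3 (by decide) (by decide))

variable (πE b x) in
/-- the form of the chain -/
def xi (Ψ : κ → (LT T cl m (Oc πE) → ℝ) → ℝ) (a : κ) (u : LT T cl m (Oc πE) → ℝ) : ℝ :=
  x.θ a (u ∘ lt (h_og πE) () ∘ ri πE) -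
    ∑ l ∈ univ.filter (cl · = b), x.θ a (u ∘ lt (h_lw πE cl b l) () ∘ ri πE) - Ψ a u

variable {Ψ : κ → (LT T cl m (Oc πE) → ℝ) → ℝ}

theorem pc_og (v : E ⊕ W) : Pc cl b (og v) := by
  cases v
  exacts [trivial, Or.inl rfl]

theorem pc_lw {l : W} (h : cl l = b) (v : E ⊕ W) : Pc cl b (lw cl b l v) := by
  cases v
  exacts [trivial, pc_gt (t := ⟨l, h⟩) _]

theorem fo_xi (hx : x.Ok am)
    (hΨ : ∀ a, Fo cl m (Oc πE) (fun v => Pc cl b v ∧ ¬ Da cl b v) (Ψ a)) (a : κ) :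
    Fo cl m (Oc πE) (Pc cl b) (xi πE b x Ψ a) :=
  have k := fo_lt (O₁ := Ov.one W) (O₂ := px πE) (g := Sum.inr) (P₂ := fun _ => True)
    (fun _ => rfl) (fun _ _ => trivial) (hx.fo a)
  fo_sub (fo_sub (fo_lt (h_og πE) (fun v _ => pc_og v) k) (fo_sum _ fun l hl =>
    fo_lt (h_lw πE cl b l) (fun v _ => pc_lw (mem_filter.1 hl).2 v) k))
    (fo_mono (hΨ a) fun _ => And.left)

theorem sm1 : Sm cl (Oc πE) (Oc πE) (Mr πE cl b) (P1 cl b) (Pc cl b) :=
  sm_Mr (fun _ => Or.inl) fun _ _ a => Or.inr ⟨_, cl_ld a, rfl⟩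

theorem corner (hT : T.Ok s N) (hZ : Z.Ok) (hω : 0 < ω) (hx : x.Ok am)
    (hΨ : ∀ a, Fo cl m (Oc πE) (fun v => Pc cl b v ∧ ¬ Da cl b v) (Ψ a)) {K₀ K₁ : ℝ} (h0 : 0 ≤ K₀)
    {z : LT T cl m (Oc πE).dbl → ℤ} (a : κ)
    (h1 : ∀ i j, NR cl m Z (Oc πE) ω (Pc cl b) (xi πE b x Ψ a) K₀ (toR (sub (ex (Mr πE cl b))
      (z ∘ lt (g := cn (Da cl b) (Db cl b) i j) (fun _ => rfl) () : LT T cl m (Oc πE) → ℤ))))
    (h2 : ∀ k, NR cl m Z (Oc πE).dbl ω (PP cl b) (al4 (Da cl b) (Db cl b) (Th πE b x k)) K₁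
      (toR z)) : NR cl m Z (Oc πE).dbl ω (PP cl b) (fun u => alq πE b (x.θ a) (u ∘ lt (h_gp πE) ()))
      (4 * (2 ^ (Fintype.card (XC E W) + Fintype.card (XC E W)) * K₀) +
        Fintype.card (SB cl b) * K₁) (toR z) := by
  classical
  have n1 := (nrs T s N C W _ _ Z cl m _ _ _ _ _ hT hZ sm1).2 _ (fo_xi hx hΨ a)
  have c := fun i j => NR.up (P' := PP cl b) hT hZ hω (by positivity)
    (fun _ ⟨y, p, e⟩ => e ▸ ⟨p, by
      unfold cn
      split_ifs with d d'
      exacts [Or.inr (Or.inl d), Or.inr (Or.inr d'), Or.inl rfl]⟩)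
    (dp_lt (fun v p => ⟨v, p, rfl⟩) n1.1.dp)
    ((nr_emb (O₂ := (Oc πE).dbl) (g := cn (Da cl b) (Db cl b) i j) (y := toR z) (fun _ => rfl)
      (fun _ _ e => congrArg Prod.fst e) (fun _ => rfl)
      (P₂ := fun v => ∃ y, P1 cl b y ∧ cn _ _ i j y = v) fun _ => Iff.rfl).2
      (n1.2 ω K₀ _ hω h0 ((toR_sub _).subst (h1 i j))))
  have d := ((nrs T s N C W _ _ Z cl m _ _ _ _ _ hT hZ (sm_Mr (b := b)
    (P' := fun v => ¬ Da cl b v) (fun _ => And.right) fun _ _ _ e => nomatch e.1)).2 _ (hΨ a)).1.dp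
  refine (NL.congr (NL.add (NL.add (NL.sub (NL.sub (c false false) (c true false)) (c false true))
    (c true true)) (NL.sum univ fun t _ => h2 (t, a, true))) fun u => ?_).mono
    (le_of_eq (by rw [card_univ]; ring))
  generalize mix _ u _ = u
  have e : ∀ j, _ = _ := fun j => d (u ∘ lt (g := cn (Da cl b) (Db cl b) false j) (fun _ => rfl) ())
    (u ∘ lt (g := cn (Da cl b) (Db cl b) true j) (fun _ => rfl) ()) fun l hl =>
      congrArg u (lf_congr (fun v p => by simp only [cn, if_neg (mem_bs.1 hl v p)])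
        (fun _ _ => rfl) fun _ _ => rfl)
  simp only [xi, al4, Th, alq, if_true, one_mul, sum_add_distrib, sum_sub_distrib,
    ← Function.comp_assoc _ (lt (h_og πE) ()), cn_gp,
    sum_subtype (p := (cl · = b)) (univ.filter (cl · = b)) (by simp)] at e ⊢
  rw [e, e]
  simp only [Bool.false_eq_true, if_false]
  ring

end

end Vale.Agent.P057EN
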