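import Vale.Agent.P057EN.Mb

/-!
The leaves of a chain and their shifts.
-/

set_option linter.unusedSectionVars false

open Matrix Finset
open Vale.Agent.P267.H775 Vale.Agent.P057G Vale.Agent.P057PC Vale.Agent.P057TP
open Vale.Agent.P057GH Vale.Agent.P057DP

namespace Vale.Agent.P057EN

noncomputable section

abbrev XC (E W : Type) : Type := E ⊕ W × (Fin 3 ⊕ W)

abbrev SB {C W : Type} (cl : W → C) (b : C) : Type := {l : W // cl l = b}

abbrev KB {C W : Type} (cl : W → C) (b : C) (κ : Type) : Type := Option (SB cl b × κ × Bool)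

variable {C W E κ K R : Type} [DecidableEq C] [Fintype W] [DecidableEq W] [Fintype E]
  [DecidableEq E] [Fintype κ] [DecidableEq κ] [Fintype K] [DecidableEq K] {T : Tow} {m : ℕ}
  (πE : E → W) (cl : W → C) (b : C)

/-- the shift of a vertex -/
def uu (v : W) : XC E W := Sum.inr (v, Sum.inl 2)

/-- the leaf of a vertex -/
def ld (x : XC E W) : W :=
  x.elim πE fun x => x.2.elim (fun _ => x.1) fun l => if cl l = b then l else x.1

def Cb (x : XC E W) : Prop := cl ((Oc πE).π x) = b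

def Db (x : XC E W) : Prop := ∃ v, cl v = b ∧ uu v = x

def P1 (x : XC E W) : Prop := Pc cl b x ∨ Db cl b x

def Mr : XC E W → XC E W → ℤ := mb id (fun x => uu (ld πE cl b x)) (Cb πE cl b)

def gt (t v : W) : XC E W := lw cl b t (Sum.inr v)

def Lt (t : W) (x : XC E W) : Prop := (∃ v, gt cl b t v = x) ∨ uu t = x

variable {πE cl b} {x : XC E W} {t : SB cl b}

theorem cl_ld (h : Cb πE cl b x) : cl (ld πE cl b x) = b := by
  rcases x with e | ⟨v, i | l⟩
  exacts [h, h, by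
    change cl (ite _ _ _) = b
    split_ifs with a
    exacts [a, h]]

theorem gt_pos {t v : W} (h : cl v = b) (e : v ≠ t) :
    (gt cl b t v : XC E W) = Sum.inr (v, Sum.inr t) := by simp [gt, lw, h, e]

theorem gt_neg {t v : W} (h : ¬ (cl v = b ∧ v ≠ t)) :
    (gt cl b t v : XC E W) = Sum.inr (v, Sum.inl 0) := by simp only [gt, lw, Sum.map_inr, if_neg h]

theorem gt_inj (t : W) : (gt cl b t : W → XC E W).Injective :=
  fun _ _ e => congrArg Prod.fst (Sum.inr_injective e)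

theorem pc_gt (v : W) : Pc cl b (gt cl b t v : XC E W) := by
  by_cases h : cl v = b ∧ v ≠ t
  · rw [gt_pos h.1 h.2]; exact ⟨h.1, t.2, h.2⟩
  · rw [gt_neg h]; exact Or.inl rfl

theorem jk_gt (t v : W) : (Oc πE).jk (gt cl b t v) = true := by
  by_cases h : cl v = b ∧ v ≠ t
  · rw [gt_pos h.1 h.2]; rfl
  · rw [gt_neg h]; rfl

theorem npc (v : W) : ¬ Pc cl b (uu v : XC E W) := by simp [Pc, uu]

theorem Lt.p1 (h : Lt cl b t.1 x) : P1 cl b x := by
  rcases h with ⟨v, rfl⟩ | rfl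
  exacts [Or.inl (pc_gt v), Or.inr ⟨t, t.2, rfl⟩]

theorem Lt.ld (h : Lt cl b t.1 x) (k : Cb πE cl b x) : ld πE cl b x = t := by
  rcases h with ⟨v, rfl⟩ | rfl
  · by_cases e : v = t
    · rw [gt_neg fun a => a.2 e]; exact e
    · rw [gt_pos (v := v) k e]; exact if_pos t.2
  · rfl

theorem sm_Mr {P P' : XC E W → Prop} (h : ∀ x, P x → P' x)
    (h' : ∀ x, P x → Cb πE cl b x → P' (uu (ld πE cl b x))) :
    Sm cl (Oc πE) (Oc πE) (Mr πE cl b) P' P :=
  sm_mb (fun _ => rfl) (fun _ => rfl) (fun _ a => ⟨(cl_ld a).trans a.symm, rfl⟩) h h'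

variable (πE cl b K) in
open Classical in
/-- the vertices of the class `b` move with their leaves -/
def mv : Mov ((Oc πE).cl cl K) (SB cl b) where
  u t := Sum.inl (uu t.1)
  lf := Sum.elim (fun x => if h : Cb πE cl b x then some ⟨ld πE cl b x, cl_ld h⟩ else none)
    fun _ => none
  lu t := dif_pos t.2
  cu t v h e := by
    cases v with
    | inl x =>
      have : Cb πE cl b x := (Option.some_injective _ e).trans t.2
      simp [this] at h
    | inr k => cases e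

theorem lf_some {v : XC E W ⊕ K} :
    (mv K πE cl b).lf v = some t ↔ ∃ x, v = Sum.inl x ∧ Cb πE cl b x ∧ ld πE cl b x = t := by
  cases v <;> simp [mv, Subtype.ext_iff]

theorem lf_none {v : XC E W ⊕ K} :
    (mv K πE cl b).lf v = none ↔ ∀ x, v = Sum.inl x → ¬ Cb πE cl b x := by
  cases v <;> simp [mv]

theorem lf_ne {v : XC E W ⊕ K} (h : (mv K πE cl b).lf v ≠ none) :
    ∃ x, v = Sum.inl x ∧ Cb πE cl b x :=
  by_contra fun k => h (lf_none.2 fun x e c => k ⟨x, e, c⟩)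

variable {A : Finset (XC E W ⊕ K)}

theorem cb_eq (hA : Set.InjOn ((Oc πE).cl cl K) A) {x' : XC E W} (h : Sum.inl x ∈ A)
    (h' : Sum.inl x' ∈ A) (k : Cb πE cl b x) (k' : Cb πE cl b x') : x = x' :=
  Sum.inl_injective (hA h h' (congrArg some (k.trans k'.symm)))

theorem cmp_mv (hA : Set.InjOn ((Oc πE).cl cl K) A)
    (h : ∀ x, Sum.inl x ∈ A → Cb πE cl b x → ld πE cl b x = t) : (mv K πE cl b).Cmp t A := by
  refine ⟨hA, fun v hv => or_iff_not_imp_left.2 fun a => ?_, fun v hv v' hv' a a' => ?_⟩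
  · obtain ⟨x, rfl, c⟩ := lf_ne a
    exact lf_some.2 ⟨x, rfl, c, h x hv c⟩
  · obtain ⟨x, rfl, c⟩ := lf_ne a
    obtain ⟨x', rfl, c'⟩ := lf_ne a'
    rw [cb_eq hA hv hv' c c']

theorem cmp_ex (t₀ : SB cl b) (hA : Set.InjOn ((Oc πE).cl cl K) A) :
    ∃ t, (mv K πE cl b).Cmp t A := by
  by_cases h : ∃ x, Sum.inl x ∈ A ∧ Cb πE cl b x
  · obtain ⟨x, a, c⟩ := h
    exact ⟨⟨_, cl_ld c⟩, cmp_mv hA fun y a' c' => congrArg _ (cb_eq hA a' a c' c)⟩
  · exact ⟨t₀, cmp_mv hA fun y a c => (h ⟨y, a, c⟩).elim⟩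

theorem fx_mv (hA : Set.InjOn ((Oc πE).cl cl K) A) (h : Sum.inl x ∈ A) (k : Cb πE cl b x) :
    (mv K πE cl b).fx A = A.erase (Sum.inl x) := by
  ext v
  rw [Mov.mem_fx, mem_erase, lf_none, and_comm]
  exact and_congr_left fun a => ⟨fun c e => c x e k, fun c y e d => c (e.trans
    (congrArg _ (cb_eq hA (e ▸ a) h d k)))⟩

/-- old labels without base as substitutions -/
theorem RM_lt (t₀ : SB cl b) (k : K) {l : LT T cl m (Oc πE)}
    (hl : ∀ x, Sum.inl x ∈ l.fc → Pc cl b x) (z : LK T cl m (Oc πE) K (SB cl b) → ℤ) :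
    ((mv K πE cl b).RM T m *ᵥ z) (lt (g := id) (fun _ => rfl) k l) =
      sub (ex (Mr πE cl b)) (z ∘ lt (g := id) (fun _ => rfl) k) l := by
  have c1 : ∀ v, (∀ x, v = Sum.inl x → ¬ Cb πE cl b x) → ∀ y,
      ex (Mr πE cl b) y v = if y = v then 1 else 0 := by
    rintro (v | v) h (y | y) <;> simp [ex, Mr, mb]
    exact fun a => (h v rfl a).elim
  have b1 : ∀ l : LT T cl m (Oc πE), (lt (g := id) (O₂ := Oc πE) (S₂ := SB cl b) (fun _ => rfl) k
    l).bs = none := fun l => by rw [lf_bs, bs_lt]; rfl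
  have m1 : ∀ (l : LT T cl m (Oc πE)) x, Sum.inl x ∈ (lt (g := id) (O₂ := Oc πE) (S₂ := SB cl b)
    (fun _ => rfl) k l).fc ↔ Sum.inl x ∈ l.fc := fun l x => by simp [inl_lf]
  by_cases h : ∃ x, Sum.inl x ∈ l.fc ∧ Cb πE cl b x
  · obtain ⟨x, a, c⟩ := h
    let t : SB cl b := ⟨_, cl_ld c⟩
    have hu : Sum.inl (uu t.1) ∉ l.fc := fun n => npc _ (hl _ n)
    have f1 := fx_mv l.2.2.1 a c
    let l₂ : LT T cl m (Oc πE) := ⟨(l.cd, insert (Sum.inl (uu t.1)) (l.fc.erase (Sum.inl x)), none),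
      l.2.1, f1 ▸ Mov.inj_insert (l.2.2.1.mono (coe_subset.2 Mov.fx_sub)) Mov.fix_fx t, by
        change card _ = _
        rw [card_insert_of_notMem fun n => hu (mem_of_mem_erase n), card_erase_add_one a]
        exact l.card_eq (bs_lt l)⟩
    rw [sub_two (l₁ := l) (l₂ := l₂) (v := Sum.inl x) rfl rfl hu (congrArg some (c.trans t.2.symm))
      rfl fun y => ?_]
    · have i1 := (lt (g := id) (O₂ := Oc πE) (S₂ := SB cl b) (fun _ => rfl) k l).2.2.1
      refine RM_none (t := t) (l' := lt (g := id) (fun _ => rfl) k l₂)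
        (cmp_mv i1 fun y a' c' => ?_) (b1 l) ((m1 l x).2 a)
        (lf_some.2 ⟨x, rfl, c, rfl⟩) (mt (m1 l _).1 hu) rfl ?_ (b1 l₂) z
      · rw [cb_eq l.2.2.1 ((m1 l y).1 a') a c' c]
      · refine Eq.trans ?_ (congrArg _ (fx_mv i1 ((m1 l x).2 a) c)).symm
        exact (image_insert _ _ _).trans (congrArg _ (image_erase
          (Function.injective_id.sumMap fun _ _ _ => rfl) _ _))
    · rw [← sum_ite_eq l.fc y fun _ => (1 : ℤ), ← add_sum_erase _ _ a, ← add_sum_erase _ _ a,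
        sum_congr rfl fun v hv => c1 v (lf_none.1 (Mov.mem_fx.1 (f1 ▸ hv)).2) y]
      cases y <;> simp [ex, Mr, mb, c, t]
      ring
  · rw [sub_one (l₁ := l) rfl fun y => ?_]
    · exact RM_fix (t := t₀) (fun v hv => lf_none.2 fun y e c => h ⟨y, (m1 l y).1 (e ▸ hv), c⟩)
        (b1 l) z
    · rw [← sum_ite_eq l.fc y fun _ => (1 : ℤ)]
      exact sum_congr rfl fun v hv => c1 v (fun x e c => h ⟨x, e ▸ hv, c⟩) y

/-- the star system of a leaf -/
def et (πE : E → W) (t : SB cl b) :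
    LK T cl m (Ov.one W) (κ × Bool) Unit → LK T cl m (Oc πE) (KB cl b κ) (SB cl b) :=
  lf (g := gt cl b t.1) (fun _ => rfl) (fun j => some (t, j)) fun _ => t

def Lq (t : SB cl b) (l : LK T cl m (Oc πE) (KB cl b κ) (SB cl b)) : Prop :=
  (∀ x, Sum.inl x ∈ l.fc → Lt cl b t.1 x) ∧ (∀ k, Sum.inr k ∈ l.fc → ∃ j, some (t, j) = k) ∧
    (l.bs = none ∨ l.bs = some t)

variable (T m πE κ) in
def rt (t : SB cl b) : Finset (LK T cl m (Oc πE) (KB cl b κ) (SB cl b)) :=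
  (b0 T cl m (Ov.one W) (κ × Bool) Unit fun _ => True)ᶜ.image (et πE t)

variable (T m πE cl b κ) in
open Classical in
def q2 : Finset (LK T cl m (Oc πE) (KB cl b κ) (SB cl b)) :=
  univ.filter fun l => l ∈ b0 T cl m (Oc πE) _ _ (P1 cl b) ∨ ∃ t, Lq t l

variable {l l' : LK T cl m (Oc πE) (KB cl b κ) (SB cl b)}

theorem mem_q2 : l ∈ q2 κ T m πE cl b ↔ l ∈ b0 T cl m (Oc πE) _ _ (P1 cl b) ∨ ∃ t, Lq t l := by
  simp only [q2, mem_filter, mem_univ, true_and]

theorem Lq.sub (h : Lq t l) (h1 : l'.fc ⊆ l.fc) (h2 : l'.bs = none ∨ l'.bs = l.bs) : Lq t l' :=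
  ⟨fun x a => h.1 x (h1 a), fun k a => h.2.1 k (h1 a), h2.elim Or.inl fun e => e ▸ h.2.2⟩

theorem cq_q2 : Cq (q2 κ T m πE cl b) := fun l hl l' h1 h2 =>
  mem_q2.2 ((mem_q2.1 hl).imp (fun a => cq_b0 _ l a l' h1 h2) fun ⟨t, a⟩ => ⟨t, a.sub h1 h2⟩)

theorem p1_q2 (h : l ∈ q2 κ T m πE cl b) (x : XC E W) (a : Sum.inl x ∈ l.fc) : P1 cl b x :=
  (mem_q2.1 h).elim (fun c => (mem_b0.1 c).2 x a) fun ⟨_, c⟩ => (c.1 x a).p1

theorem ke_inj (t : SB cl b) : (fun j : κ × Bool => (some (t, j) : KB cl b κ)).Injective :=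
  fun _ _ e => congrArg Prod.snd (Option.some_injective _ e)

theorem lq_et (k : LK T cl m (Ov.one W) (κ × Bool) Unit) : Lq t (et πE t k) :=
  ⟨fun _ a => Or.inl ((inl_lf.1 a).imp fun _ => And.right),
    fun _ a => ((inr_lf.1 a).imp fun _ => And.right), by
      change k.bs.map _ = _ ∨ k.bs.map _ = _
      cases k.bs <;> simp⟩

theorem pc_et (k : LK T cl m (Ov.one W) (κ × Bool) Unit) (a : Sum.inl x ∈ (et πE t k).fc) :
    Pc cl b x := by
  obtain ⟨v, -, rfl⟩ := inl_lf.1 a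
  exact pc_gt v

theorem un_rt (t : SB cl b) : b0 T cl m (Oc πE) _ _ (Pc cl b) ∪ rt κ T m πE t =
    b0 T cl m (Oc πE) _ _ (Pc cl b) ∪ univ.image (et πE t) := by
  refine Subset.antisymm (union_subset_union_right (image_subset_image (subset_univ _)))
    (union_subset subset_union_left (image_subset_iff.2 fun k _ => ?_))
  by_cases a : k ∈ b0 T cl m (Ov.one W) (κ × Bool) Unit fun _ => True
  · exact mem_union_left _ (lf_b0 (fun v _ => pc_gt v) a)
  · exact mem_union_right _ (mem_image_of_mem _ (mem_compl.2 a))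

theorem cq_rt (t : SB cl b) : Cq (b0 T cl m (Oc πE) _ _ (Pc cl b) ∪ rt κ T m πE t) := by
  rw [un_rt]
  exact fun l hl l' h1 h2 => (mem_union.1 hl).elim
    (fun a => mem_union_left _ (cq_b0 _ l a l' h1 h2)) fun a => mem_union_right _
      (cq_image (gt_inj _) (ke_inj t) (fun _ _ _ => rfl) (fun _ _ _ _ _ => mem_univ _) l a l' h1 h2)

theorem not_kp (h : l ∈ rt κ T m πE t) : ¬ Kp l.fc l.bs ∧ Lq t l := by
  obtain ⟨k, a, rfl⟩ := mem_image.1 h
  exact ⟨fun c => mem_compl.1 a (mem_b0.2 ⟨kp_lf.1 c, fun _ _ => trivial⟩), lq_et k⟩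

theorem rt_disj {t t' : SB cl b} (h : t ≠ t') : Disjoint (rt κ T m πE t) (rt κ T m πE t') := by
  refine disjoint_left.2 fun l a a' => (not_kp a).1 ⟨?_, fun k c => ?_⟩
  · refine (not_kp a).2.2.2.resolve_right fun e => ?_
    rcases (not_kp a').2.2.2 with e' | e' <;> rw [e] at e'
    exacts [Option.some_ne_none _ e', h (Option.some_injective _ e')]
  · obtain ⟨j, rfl⟩ := (not_kp a).2.2.1 k c
    obtain ⟨j', e⟩ := (not_kp a').2.2.1 _ c
    exact h (congrArg Prod.fst (Option.some_injective _ e)).symm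

theorem mem_q1 (l : LK T cl m (Oc πE) (KB cl b κ) (SB cl b)) :
    l ∈ b0 T cl m (Oc πE) _ _ (Pc cl b) ∪ univ.biUnion (rt κ T m πE) ↔
      l ∈ q2 κ T m πE cl b ∧ ∀ t, (mv _ πE cl b).u t ∉ l.fc := by
  rw [mem_union, mem_q2, mem_biUnion]
  constructor
  · rintro (a | ⟨t, -, a⟩)
    · exact ⟨Or.inl (b0_mono (fun _ => Or.inl) a),
        fun t c => npc _ ((mem_b0.1 a).2 _ c)⟩
    · refine ⟨Or.inr ⟨t, (not_kp a).2⟩, fun t' c => ?_⟩
      obtain ⟨k, -, rfl⟩ := mem_image.1 a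
      exact npc _ (pc_et (x := uu t'.1) k c)
  · rintro ⟨a | ⟨t, a⟩, c⟩
    · exact Or.inl (mem_b0.2 ⟨(mem_b0.1 a).1, fun x d => ((mem_b0.1 a).2 x d).resolve_right
        fun ⟨v, e, f⟩ => c ⟨v, e⟩ (by subst f; exact d)⟩)
    · obtain ⟨k, rfl⟩ := lf_range (O₁ := Ov.one W) (g := gt cl b t.1) (t := fun _ : Unit => t)
        (fun _ => rfl) (gt_inj _) (ke_inj t) (fun x d => (a.1 x d).resolve_right
          fun f => c t (by subst f; exact d)) a.2.1 fun u d => ⟨(), by simpa [d, eq_comm] using a.2.2⟩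
      have : et πE t k ∈ _ := (un_rt t).ge (mem_union_right _ (mem_image_of_mem _ (mem_univ k)))
      exact (mem_union.1 this).imp_right fun d => ⟨t, mem_univ _, d⟩

theorem Lq.cmp (h : Lq t l) : (mv _ πE cl b).Cmp t l.fc :=
  cmp_mv l.2.2.1 fun x a c => (h.1 x a).ld c

theorem adm_q2 (t₀ : SB cl b) : (mv _ πE cl b).Adm (q2 κ T m πE cl b) := by
  refine ⟨cq_q2, fun l hl => ?_, fun l hl l' ⟨_, h0, t, h1, h2, h3⟩ => mem_q2.2 ?_⟩
  · rcases mem_q2.1 hl with a | ⟨t, a⟩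
    exacts [(cmp_ex t₀ l.2.2.1).imp fun _ c => ⟨c, Or.inl (mem_b0.1 a).1.1⟩, ⟨t, a.cmp, a.2.2⟩]
  have m1 : ∀ v, v ∈ l'.fc → v = Sum.inl (uu t.1) ∨ v ∈ l.fc := fun v a =>
    (mem_insert.1 (h2 ▸ a)).imp_right fun c => Mov.fx_sub c
  rcases mem_q2.1 hl with a | ⟨t', a⟩
  · obtain ⟨⟨a1, a2⟩, a3⟩ := mem_b0.1 a
    refine Or.inl (mem_b0.2 ⟨⟨h3.resolve_right fun e => ?_,
      fun k c => a2 k ((m1 _ c).resolve_left nofun)⟩, fun x c => (m1 _ c).elim
        (fun e => Or.inr ⟨t, t.2, (Sum.inl_injective e).symm⟩) (a3 x)⟩)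
    obtain ⟨v, c, d⟩ := h1.resolve_right fun c => by rw [a1] at c; cases c.2
    obtain ⟨x, rfl, f, -⟩ := lf_some.1 d
    have := l'.card_lt e
    rw [h2, card_insert_of_notMem (Mov.fix_fx.not_mem (Mov.lu _ t)), fx_mv (A := l.fc) l.2.2.1 c f,
      card_erase_add_one c, l.card_eq a1, h0] at this
    exact lt_irrefl _ this
  · obtain rfl : t = t' := by
      rcases h1 with ⟨v, c, d⟩ | c
      · have := a.cmp.own v c
        rw [d] at this
        simpa using this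
      · simpa [c.2] using a.2.2
    exact Or.inr ⟨t, fun x c => (m1 _ c).elim (fun e => Or.inr (Sum.inl_injective e).symm) (a.1 x),
      fun k c => a.2.1 k ((m1 _ c).resolve_left nofun), h3⟩

end

end Vale.Agent.P057EN
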