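import Vale.Agent.P057EN.Pa3

/-!
From chains to parallelograms.
-/

set_option linter.unusedSectionVars false

open Matrix Finset Real
open Vale.Agent.P267.H775 Vale.Agent.P057G Vale.Agent.P057PC
open Vale.Agent.P057TP hiding ind
open Vale.Agent.P057GH Vale.Agent.P057DP
open Vale.Agent.P057T1 (ind ind_pos ind_neg ind_nonneg ind_le abs_ind)
open Vale.Agent.P057SB (toR_sub nrs)

namespace Vale.Agent.P057EN

noncomputable section

variable {C W E κ : Type} [DecidableEq C] [Fintype W] [DecidableEq W] [Fintype E]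
  [DecidableEq E] [Fintype κ] [DecidableEq κ] {T : Tow} {m s n : ℕ} {N : ℝ} {πE : E → W}
  {cl : W → C} {b : C} {Z : Sys T W Unit} {x : Sx T cl m κ} {am ω L η ν e : ℝ} {σE : E → ℝ}

theorem one_le_sc {X K : Type} {σ : X → ℝ} (h : ∀ v, 1 ≤ σ v) (A : Finset (X ⊕ K)) : 1 ≤ sc σ A :=
  prod_induction _ (1 ≤ ·) (fun _ _ => one_le_mul_of_one_le_of_one_le) le_rfl fun v _ => by
    cases v
    exacts [h _, le_rfl]

theorem rel_le (hx : x.Ok am) (hσ : ∀ v, 1 ≤ (σc σE ν : XC E W → ℝ) v) {J : ℝ} (hJ : 0 ≤ J)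
    (h1 : 1 ≤ am) (h4 : ∀ v, σE v * J ≤ e ^ 2 * ν) (h5 : am * J ≤ e ^ 2 * ν)
    {l l' : LK T cl m (Oc πE) (KB cl b κ) (SB cl b)} (hl : l ∈ q2 κ T m πE cl b)
    (r : (mv _ πE cl b).Rel l l') (k : Kp l'.fc l'.bs) :
    a1 πE b x (σc σE ν) l.fc l.bs * J ≤ e ^ 2 * a1 πE b x (σc σE ν) l'.fc l'.bs := by
  obtain ⟨r0, -, t, r1, r2, -⟩ := r
  have s1 := one_le_sc hσ ((mv _ πE cl b).fx l.fc)
  have e1 : a1 πE b x (σc σE ν) l'.fc l'.bs = ν * sc (σc σE ν) ((mv _ πE cl b).fx l.fc) := by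
    rw [a1, if_pos k, r2, sc, prod_insert (Mov.fix_fx.not_mem (Mov.lu _ t))]
    rfl
  rw [e1, ← mul_assoc, a1]
  split_ifs with a
  · obtain ⟨v, c, d⟩ := r1.resolve_right fun c => by rw [a.1] at c; cases c.2
    obtain ⟨v, rfl, f, -⟩ := lf_some.1 d
    rw [fx_mv (A := l.fc) l.2.2.1 c f] at s1 ⊢
    rw [sc, ← mul_prod_erase _ _ c, mul_right_comm]
    refine mul_le_mul_of_nonneg_right ?_ (zero_le_one.trans s1)
    have p := (p1_q2 hl v c).resolve_right fun ⟨w, i, j⟩ => r0 ⟨⟨w, i⟩, by subst j; exact c⟩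
    have h6 : 1 * J ≤ e ^ 2 * ν := (mul_le_mul_of_nonneg_right h1 hJ).trans h5
    rcases v with v | ⟨v, i | v'⟩
    · exact h4 v
    · exact le_of_eq_of_le (congrArg (· * J) (if_neg fun j => npc v (by subst j; exact p))) h6
    · exact h6
  · refine ((mul_le_mul_of_nonneg_right (hx.bd _ _).2 hJ).trans h5).trans ?_
    exact le_mul_of_one_le_right ((mul_nonneg (by linarith) hJ).trans h5) s1

theorem para0 (hB : BOX) (hW : WIT) (hE : Env s N m Z n L η) (t₀ : SB cl b) (hx : x.Ok am)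
    (hn1 : 4 * (Fintype.card (XC E W × Bool) + 1) ≤ n) (hn2 : 2 * (Fintype.card (XC E W) +
      Fintype.card (KB cl b κ) + Fintype.card (SB cl b)) ≤ n)
    (hσ : Sb s L (σc σE ν : XC E W → ℝ)) {J ρ β ε K₀ K δ D : ℝ}
    (hJ : J = (Fintype.card (XC E W ⊕ KB cl b κ) + 1) ^ 2) (h1 : 1 ≤ am) (he0 : 0 ≤ e)
    (he : e ≤ 1 / 6) (h4 : ∀ v, σE v * J ≤ e ^ 2 * ν) (h5 : am * J ≤ e ^ 2 * ν)
    (h6 : 8 * (4 * am * (1 + J)) ≤ L) (hω : 0 < ω) (hρ : 0 ≤ ρ)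
    (h7 : 8 * (4 * am * (1 + J)) ≤ ρ ^ 2 * ω) (hβ : 0 < β) (hε : 0 ≤ ε) (h0 : 0 ≤ K₀) (hK : 1 ≤ K)
    (h8 : 4 * (2 ^ (Fintype.card (XC E W) + Fintype.card (XC E W)) * K₀) +
      Fintype.card (SB cl b) * (ρ * √(log (2 / β))) ≤ K) (h9 : 36 * K ^ 2 * ω ≤ L)
    {U : (LT T cl m (px πE) → ℤ) → Prop} {Ψ : κ → (LT T cl m (Oc πE) → ℝ) → ℝ}
    (dU : Dp (b0 T cl m (px πE) Unit Empty fun _ => True) U)
    (hU : ∀ z, U z → x.Pop Z ε (z ∘ ri πE))
    (hΨ : ∀ a, Fo cl m (Oc πE) (fun v => Pc cl b v ∧ ¬ Da cl b v) (Ψ a)) (hδ : 0 ≤ δ) (hD : 0 ≤ D)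
    (k1 : 2 * dn cl m Z (Op πE) (σp σE ν) (Pp cl b) (fun z => U (sub (ex (Mq πE cl b 0 2)) z) ∧
      ∀ a, NR cl m Z (Op πE) ω (Pp cl b) (alq πE b (x.θ a)) K (toR z)) + 12 * √η ≤ D ^ 2)
    (k2 : 16 * β + 16 * D + 120 * √η ≤ δ ^ 4) :
    ε ^ Fintype.card (SB cl b) * dn cl m Z (Oc πE) (σc σE ν) (Pc cl b) (fun z =>
      U (z ∘ lt (h_og πE) ()) ∧ (∀ l, cl l = b → U (z ∘ lt (h_lw πE cl b l) ())) ∧
      ∀ a, NR cl m Z (Oc πE) ω (Pc cl b) (xi πE b x Ψ a) K₀ (toR z)) ≤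
      δ + 1 * (3 * √η + 4 * η + 24 * e * (q2 κ T m πE cl b).card) := by
  classical
  have hT := hE.ok
  have hZ := hE.zok
  set Ec : (LT T cl m (Oc πE) → ℤ) → Prop := fun z => _
  have dE : Dp (b0 T cl m _ Unit Empty (Pc cl b)) Ec := fun z z' h => by
    refine congrArg₂ And (dU.comp (fun l a => lf_b0 (fun v _ => pc_og v) a) z z' h) (congrArg₂ And
      (forall_congr fun l => propext (forall_congr' fun c => ?_)) (forall_congr fun a =>
        NR.dp hT hZ (fo_xi hx hΨ a).dp _ _ fun i hi => congrArg Int.cast (h i hi)))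
    exact (dU.comp (fun _ a => lf_b0 (fun v _ => pc_lw c v) a) z z' h).to_iff
  obtain ⟨G, g1, g2, g3⟩ := low hT hZ hx hσ.pos dE hε fun z h t => hU _ (h.2.1 t t.2)
  obtain ⟨A, B, a1', b1, a2, b2, sp⟩ := split (πE := πE) hx t₀
  obtain ⟨d, Λ, l1, l2, l3⟩ := hE.lf
  obtain ⟨l4, l5⟩ := hE.le_div l3 (j := Fintype.card (SB cl b)) (by omega)
  have J0 : 0 ≤ J := hJ ▸ sq_nonneg _
  have m0 : 0 < 4 * am * (1 + J) := by positivity
  have n1 := (nrs T s N C W _ _ Z cl m _ _ _ _ _ hT hZ (sm1 (πE := πE) (b := b))).1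
  have r1 := fun (z : LK T cl m (Oc πE) (KB cl b κ) (SB cl b) → ℤ) l
    (a : l ∈ b0 T cl m (Oc πE) Unit Empty (Pc cl b)) => RM_lt t₀ none (mem_b0.1 a).2 z
  refine g3.trans (refl hT (ok_pbo hZ _ _) (free_pbo Z fun _ => rfl) (adm_q2 t₀) (Kp := Kp)
    (fun l hl l' r k => ?_) mem_q1 l1 l2 hE.η1 (by rw [Fintype.card_sum]; unfold XC at hn2; omega) l4
    (a1_pos hx hσ.pos) (a2 := fun F o => if Kp F o then sc (σc σE ν) F else 4 * am * (1 + J))
    (fun F o => by split_ifs; exacts [sc_pos hσ.pos _, m0]) (zero_le_one.trans h1) he0 he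
    (fun l _ k => (if_pos k).trans (if_pos k).symm) (fun l _ k => hJ ▸ (if_neg k).ge)
    (fun l _ k => (if_neg k).trans_le (hx.bd _ _).2)
    (fun l hl l' r k => hJ ▸ rel_le hx (fun v => (hσ v).1) J0 h1 h4 h5 hl r k)
    (fun l _ => le_trans (by split_ifs; exacts [hσ.sc_le' hT hE.L4 l, by linarith]) l5)
    (fun l _ k _ => c1_kp hx k) (fun z => ?_) (fun z z' h => ?_) fun c2 hc => ?_)
  · have := Mov.keep_rel (adm_q2 t₀) (st := fun v => ∃ k, v = Sum.inr k) (fun _ ⟨_, h⟩ => Sum.inl_ne_inr h) hl r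
      ⟨k.1, fun v hv ⟨j, h⟩ => k.2 j (h ▸ hv)⟩
    exact ⟨this.1, fun j c => this.2 _ c ⟨j, rfl⟩⟩
  · rw [norm_mul]
    exact mul_le_one₀ ((g1 z).trans (ind_le _)) (norm_nonneg _)
      (norm_prod_le fun _ _ => norm_fs hx _)
  · refine congrArg₂ (· * ·) (g2 z z' fun i hi => h i (mem_union_left _ hi))
      (prod_congr rfl fun t _ => congrArg _ (funext fun k => h _ ?_))
    exact union_subset_union_right (subset_biUnion_of_mem _ (mem_univ t))
      ((un_rt t).ge (mem_union_right _ (mem_image_of_mem _ (mem_univ k))))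
  have h2 := hB T s N C W _ _ _ _ Z cl m (Oc πE) (σc σE ν) (P1 cl b) (Da cl b) (Db cl b) b n L η _ ω
    ρ β (fun F o => if Kp F o then sc (σc σE ν) F else 4 * am * (1 + J)) c2 (q2 κ T m πE cl b) none
    some (fun k => Lt cl b k.1.1) (Th πE b x) (fun z => Ec (sub (ex (Mr πE cl b)) z)) A B
    (fun z => G ((mv _ πE cl b).RM T m *ᵥ z)) hE hn2 hσ (fun _ _ k => if_pos k)
    (fun _ _ k => (if_neg k).symm ▸ ⟨m0, le_rfl⟩)
    (fun l a => (hc l (mem_q2.2 (Or.inl a)) (mem_b0.1 a).1).trans (c1_kp hx (mem_b0.1 a).1))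
    h6 hω hρ h7 hβ cq_q2 (fun _ a => mem_q2.2 (Or.inl a)) (fun _ => p1_q2)
    (fun v a ⟨_, _, c⟩ => by subst c; cases a.1) (fun _ => cb_ab) (Option.some_injective _)
    (fo_Th hT hZ hx) (fun _ _ => Lt.p1) (fun k l a => mem_q2.2 (Or.inr ⟨k.1, fun v c => by
      obtain ⟨v, c', rfl⟩ := inl_lf.1 c
      exact (mem_st.1 a).2 v c', fun j c => ⟨k.2, (inr_lf.1 c).choose_spec.2⟩,
      Or.inl (by rw [lf_bs, bs_lt]; rfl)⟩)) a1' b1 a2 b2
    (fun z => (g1 _).trans_eq (congrArg ind (dE _ _ (r1 z)))) (fun z z' h => g2 _ _ fun l a => by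
      rw [← b0_image (O₁ := Oc πE) (K₁ := Unit) (k := fun _ => none) (t := Empty.elim)
        (h := fun _ => rfl) Function.injective_id (fun _ _ _ => rfl) (P₁ := Pc cl b) (by simp)] at a
      obtain ⟨l, a', rfl⟩ := mem_image.1 a
      exact (r1 z l a').trans ((n1 _ (fun u => u l) (fun _ _ c => c l a') _ _ fun i c =>
        h _ (lf_b0 (fun _ => id) c)).trans (r1 z' l a').symm)) (n1 _ _ dE)
  have fo := fun a => fo_alq (πE := πE) (b := b) hT hZ (hx.fo a)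
  have h3 := hW T s N C W _ κ Z cl m (Oc πE).dbl (σc σE ν ∘ Prod.fst) (PP cl b) (DD πE cl b) b n L
    η ω K (fun z => U (sub (ex (Mq πE cl b 0 2)) (z ∘ lt (h_gp πE) ())))
    (fun a u => alq πE b (x.θ a) (u ∘ lt (h_gp πE) ())) hE hn1 (hσ.comp _) (fun _ => And.left) hω hK
    h9 (((nrs T s N C W _ _ Z cl m _ _ _ _ _ hT hZ (sm_Mq (by decide) (by decide))).1 _ _ dU).comp
      fun l a => lf_b0 (fun v c => (pp_iff _).2 ⟨v, c, rfl⟩) a)
    fun a => fo_lt (P₂ := fun v => _ ∧ ¬ _) _ (fun v c => (pp_iff _).2 ⟨v, c, rfl⟩) (fo a)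
  have j1 : ∀ v, (Oc πE).dbl.jk (gp v) = (Op πE).jk v := by
    rintro (v | ⟨v, i⟩)
    · rfl
    · fin_cases i <;> rfl
  simp only [nr_emb (h_gp πE) gp_inj j1 pp_iff] at h3
  rw [← dn_emb (h_gp πE) gp_inj j1 (σ₂ := σc σE ν ∘ Prod.fst) (by
    rintro (v | ⟨v, i⟩) -
    · rfl
    · fin_cases i <;> rfl) pp_iff] at k1
  have h4 := (pow_le_pow_iff_left₀ dn_nonneg hD two_ne_zero).1 (h3.trans k1)
  refine (pow_le_pow_iff_left₀ (norm_nonneg _) hδ four_ne_zero).1 (le_trans (le_of_eq ?_)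
    (h2.trans (le_trans ?_ k2)))
  · simp only [sp, mul_left_comm (G _)]
    rfl
  · refine add_le_add_left (add_le_add_right (mul_le_mul_of_nonneg_left (le_trans (dn_mono hT hZ
      (hσ.comp _).pos fun z k => ⟨?_, fun a => NL.mono (corner hT hZ hω hx hΨ h0 a
        (fun i j => (k.1 i j).2.2 a) k.2) h8⟩) h4) (by norm_num)) _) _
    exact (cn_gp false false z).subst (k.1 false false).1

theorem me {k p r : ℝ} (h : k + p ≤ r) : k * exp p ≤ exp r :=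
  (mul_le_mul_of_nonneg_right ((le_add_of_nonneg_right zero_le_one).trans (add_one_le_exp k))
    (exp_pos p).le).trans (by rw [← exp_add]; exact exp_le_exp.2 h)

theorem me' {k p r : ℝ} (j : ℝ) (hj : 0 < j) (h : k * j + p ≤ r) : k * exp p ≤ exp r / j := by
  rw [le_div_iff₀ hj, mul_right_comm]; exact me h

theorem num1 {y A : ℝ} (y1 : (s : ℝ) + 20 ≤ y) (yA : y ≤ A) : 20 ≤ y ∧ 20 * y ≤ y ^ 2 ∧
    20 * y ^ 2 ≤ y ^ 3 ∧ 20 * y ^ 3 ≤ y ^ 4 ∧ 20 * y ^ 4 ≤ y ^ 5 ∧ 20 * y ^ 5 ≤ y ^ (s + 20) ∧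
    y ^ (s + 20) ≤ A ^ (s + 20) ∧ 400 * A ≤ A ^ (s + 20) ∧ 20 * (s * A) ≤ A ^ (s + 20) := by
  have s0 : (0 : ℝ) ≤ s := Nat.cast_nonneg s
  have p : ∀ {u : ℝ} (k : ℕ), 20 ≤ u → 20 * u ^ k ≤ u ^ (k + 1) := fun k a => by
    rw [pow_succ']; exact mul_le_mul_of_nonneg_right a (pow_nonneg (by linarith) _)
  have y2 : 20 ≤ y := by linarith
  have q1 : 20 * A ≤ A ^ 2 := by simpa using p (u := A) 1 (by linarith)
  have q2 : 20 * A ^ 2 ≤ A ^ 3 := p 2 (by linarith)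
  have q3 : A ^ 3 ≤ A ^ (s + 20) := pow_le_pow_right₀ (by linarith) (by omega)
  have q4 : s * A ≤ A ^ 2 := by nlinarith
  exact ⟨y2, by simpa using p 1 y2, p 2 y2, p 3 y2, p 4 y2,
    (p 5 y2).trans (pow_le_pow_right₀ (by linarith) (by omega)),
    pow_le_pow_left₀ (by linarith) yA _, by linarith, by linarith⟩

theorem cards {y A : ℝ} (h : En s N (s + 20) m Z y A) (hE : (Fintype.card E : ℝ) ≤ y)
    (hκ : (Fintype.card κ : ℝ) ≤ y) : (Fintype.card (SB cl b) : ℝ) ≤ y ∧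
    (Fintype.card (XC E W) : ℝ) ≤ 2 * y ^ 2 ∧ (Fintype.card (KB cl b κ) : ℝ) ≤ 3 * y ^ 2 ∧
    ((Fintype.card (XC E W ⊕ KB cl b κ) : ℝ) + 1) ^ 2 ≤ exp (y ^ 3) ∧
    ((q2 κ T m πE cl b).card : ℝ) ≤ exp (2 * y ^ 4) := by
  have y1 : (s : ℝ) + 20 ≤ y := by exact_mod_cast h.cy
  obtain ⟨y2, p1, p2, p3, -⟩ := num1 y1 h.yA
  have y0 : 0 ≤ y := by linarith
  have cW := h.cW
  have cS : (Fintype.card (SB cl b) : ℝ) ≤ y :=
    le_trans (Nat.cast_le.2 (Fintype.card_subtype_le _)) cW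
  have w0 : (0 : ℝ) ≤ Fintype.card W := Nat.cast_nonneg _
  have cX : (Fintype.card (XC E W) : ℝ) ≤ 2 * y ^ 2 := by
    simp only [Fintype.card_sum, Fintype.card_prod, Fintype.card_fin]
    push_cast
    nlinarith
  have cK : (Fintype.card (KB cl b κ) : ℝ) ≤ 3 * y ^ 2 := by
    simp only [Fintype.card_option, Fintype.card_prod, Fintype.card_bool]
    push_cast
    nlinarith [mul_le_mul cS hκ (Nat.cast_nonneg _) y0]
  refine ⟨cS, cX, cK, (pow_le_pow_left₀ (by positivity) (add_one_le_exp _) 2).trans ?_, ?_⟩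
  · rw [← exp_nat_mul, Fintype.card_sum, exp_le_exp]
    push_cast
    linarith
  have e2 := add_one_le_exp (y ^ 3)
  refine (Nat.cast_le.2 (card_le_univ _)).trans ((card_lk (H := exp (y ^ 3)) h.ok
    (fun e => (h.dm e).trans (exp_le_exp.2 (by linarith))) (by unfold XC at cX; linarith)).trans ?_)
  refine (mul_le_mul (me (r := 2 * y ^ 3) (by linarith)) (pow_le_pow_left₀ (by positivity)
    (show _ ≤ 2 * exp (y ^ 3) by linarith) _) (by positivity) (exp_pos _).le).trans ?_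
  refine (mul_le_mul_of_nonneg_left (pow_le_pow_left₀ (by positivity)
    (me (r := 2 * y ^ 3) (by linarith)) _) (exp_pos _).le).trans ?_
  rw [← exp_nat_mul, ← exp_add, exp_le_exp]
  push_cast
  nlinarith [mul_le_mul_of_nonneg_right y1 (show 0 ≤ y ^ 3 by positivity)]

theorem num2 {y A J : ℝ} (y1 : (s : ℝ) + 20 ≤ y) (yA : y ≤ A) (hω : 1 ≤ ω) (hA : ω ≤ exp A)
    (cJ : J ≤ exp (y ^ 3)) : 8 * (4 * (exp y * ω) * (1 + J)) ≤ exp (y ^ 3) ^ 2 * ω ∧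
    exp (y ^ 3) ^ 2 * ω ≤ exp (A ^ (s + 20) / 2) ∧
    36 * exp (y ^ 4) ^ 2 * ω ≤ exp (A ^ (s + 20) / 2) ∧
    (∀ u, 0 ≤ u → u * J ≤ exp (-y ^ 5) ^ 2 * (exp (y ^ (s + 20) - y) * u)) ∧
    ∀ (i : ℕ) (j : ℝ), (i : ℝ) ≤ 2 * y ^ 2 → j ≤ y → 4 * (2 ^ (i + i) * exp y) +
      j * (exp (y ^ 3) * √(log (2 / exp (-y ^ 3)))) ≤ exp (y ^ 4) := by
  obtain ⟨y2, p1, p2, p3, p4, p5, p6, p7, -⟩ := num1 y1 yA
  refine ⟨?_, (mul_le_mul_of_nonneg_left hA (sq_nonneg _)).trans ?_,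
    (mul_le_mul_of_nonneg_left hA (by positivity)).trans ?_, fun u a => ?_, fun i j a c => ?_⟩
  · have := one_le_exp (x := y ^ 3) (by positivity)
    calc _ ≤ 64 * exp y * exp (y ^ 3) * ω := by
          nlinarith [mul_le_mul_of_nonneg_left (add_le_add this cJ)
            (show 0 ≤ exp y * ω by positivity)]
      _ ≤ _ := by
        rw [sq]
        exact mul_le_mul_of_nonneg_right (mul_le_mul_of_nonneg_right (me (by linarith))
          (exp_pos _).le) (by linarith)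
  · rw [← exp_nat_mul, ← exp_add, exp_le_exp]; push_cast; linarith
  · rw [← exp_nat_mul, mul_assoc, ← exp_add]
    exact me (by push_cast; linarith)
  · rw [← mul_assoc, ← exp_nat_mul, ← exp_add, mul_comm]
    exact mul_le_mul_of_nonneg_right (cJ.trans (exp_le_exp.2 (by push_cast; linarith))) a
  have b1 : (2 : ℝ) ^ (i + i) ≤ exp (4 * y ^ 2) := by
    refine (pow_le_pow_left₀ (by norm_num) (show _ ≤ exp 1 by linarith [add_one_le_exp 1])
      _).trans ?_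
    rw [← exp_nat_mul, exp_le_exp]
    push_cast
    linarith
  have b2 : √(log (2 / exp (-y ^ 3))) ≤ exp (y ^ 3) := by
    rw [sqrt_le_left (exp_pos _).le, log_le_iff_le_exp (by positivity), exp_neg, div_inv_eq_mul]
    exact me (by nlinarith [add_one_le_exp (y ^ 3)])
  have b3 := mul_le_mul c (mul_le_mul_of_nonneg_left b2 (exp_pos (y ^ 3)).le) (by positivity)
    (by linarith)
  have b4 := mul_le_mul_of_nonneg_right b1 (exp_pos y).le
  rw [← exp_add] at b3 b4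
  linarith [me' (k := 4) (p := 4 * y ^ 2 + y) (r := y ^ 4) 2 two_pos (by linarith),
    me' (k := y) (p := y ^ 3 + y ^ 3) (r := y ^ 4) 2 two_pos (by linarith)]

theorem num3 {y A : ℝ} (y1 : (s : ℝ) + 20 ≤ y) (yA : y ≤ A) :
    2 * exp (-y ^ (s + 20)) + 12 * √(exp (-A ^ (s + 20))) ≤ exp (-y ^ 3) ^ 2 ∧
    16 * exp (-y ^ 3) + 16 * exp (-y ^ 3) + 120 * √(exp (-A ^ (s + 20))) ≤
      exp (-(3 * y ^ 2)) ^ 4 ∧ ∀ (i : ℕ) (j : ℝ), (i : ℝ) ≤ y → j ≤ exp (2 * y ^ 4) →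
      exp (-(3 * y ^ 2)) + 1 * (3 * √(exp (-A ^ (s + 20))) + 4 * exp (-A ^ (s + 20)) +
        24 * exp (-y ^ 5) * j) < exp (-y) ^ i * exp (-y) := by
  obtain ⟨y2, p1, p2, p3, p4, p5, p6, -⟩ := num1 y1 yA
  simp only [← exp_half, ← exp_nat_mul]
  push_cast
  refine ⟨?_, ?_, fun i j a c => ?_⟩
  · linarith [me' (k := 2) (p := -y ^ (s + 20)) (r := 2 * -y ^ 3) 2 two_pos (by linarith),
      me' (k := 12) (p := -A ^ (s + 20) / 2) (r := 2 * -y ^ 3) 2 two_pos (by linarith)]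
  · linarith [me' (k := 16) (p := -y ^ 3) (r := 4 * -(3 * y ^ 2)) 3 (by norm_num) (by linarith),
      me' (k := 120) (p := -A ^ (s + 20) / 2) (r := 4 * -(3 * y ^ 2)) 3 (by norm_num) (by linarith)]
  have h3 : exp (-(2 * y ^ 2)) ≤ exp (i * -y) * exp (-y) := by
    rw [← exp_add, exp_le_exp]
    nlinarith [mul_le_mul_of_nonneg_right a (show 0 ≤ y by linarith)]
  have h5 := mul_le_mul_of_nonneg_left c (show 0 ≤ 24 * exp (-y ^ 5) by positivity)
  rw [mul_assoc 24 _ (exp _), ← exp_add] at h5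
  linarith [me' (k := 1) (p := -(3 * y ^ 2)) (r := -(2 * y ^ 2)) 5 (by norm_num) (by linarith),
    me' (k := 3) (p := -A ^ (s + 20) / 2) (r := -(2 * y ^ 2)) 5 (by norm_num) (by linarith),
    me' (k := 4) (p := -A ^ (s + 20)) (r := -(2 * y ^ 2)) 5 (by norm_num) (by linarith),
    me' (k := 24) (p := -y ^ 5 + 2 * y ^ 4) (r := -(2 * y ^ 2)) 5 (by norm_num) (by linarith),
    exp_pos (-(2 * y ^ 2))]

theorem para (hB : BOX) (hW : WIT) (s : ℕ) : PARA s := by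
  refine ⟨s + 20, by omega, fun T N C W E κ _ _ _ _ _ _ _ Z cl m πE σE b y A ω ν x U Ψ h ⟨v, hv⟩ hE
    hκ hσ hω hν hA hx dU hU hΨ hd => by_contra fun hn => ?_⟩
  have y1 : (s : ℝ) + 20 ≤ y := by exact_mod_cast h.cy
  obtain ⟨y2, p1, p2, p3, p4, p5, p6, -, p8⟩ := num1 y1 h.yA
  obtain ⟨cS, cX, cK, cJ, cq⟩ := cards (πE := πE) (cl := cl) (b := b) h hE hκ
  have e1 : 1 ≤ exp (y ^ (s + 20)) := one_le_exp (by positivity)
  have n1 : ω ≤ ν := (le_mul_of_one_le_left (by linarith) e1).trans hν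
  obtain ⟨a1', a2, a3, a4, a5⟩ := num2 y1 h.yA hω (n1.trans hA) cJ
  obtain ⟨b1, b2, b3⟩ := num3 y1 h.yA
  have s0 := fun u => zero_le_one.trans (hσ u).1
  refine absurd ((mul_le_mul_of_nonneg_left hd (by positivity)).trans (para0 (x := x) (σE := σE)
    (ν := ν) hB hW (h.env (by omega)) ⟨v, hv⟩ hx (Nat.le_floor ?_)
    (Nat.le_floor (by push_cast; linarith)) (fun u => ?_) rfl
    (one_le_mul_of_one_le_of_one_le (one_le_exp (by linarith)) hω) (exp_pos _).le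
    (by simpa using me' (k := 1) (p := -y ^ 5) (r := 0) 6 (by norm_num) (by linarith))
    (fun u => (a4 _ (s0 u)).trans (mul_le_mul_of_nonneg_left (le_trans
      (mul_le_mul_of_nonneg_right (exp_le_exp.2 (by linarith)) (s0 u)) (hσ u).2) (sq_nonneg _)))
    ((a4 _ (by positivity)).trans (mul_le_mul_of_nonneg_left (by
      rwa [← mul_assoc, ← exp_add, sub_add_cancel]) (sq_nonneg _)))
    (a1'.trans a2) (by linarith) (exp_pos _).le a1' (exp_pos _) (exp_pos _).le (exp_pos _).le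
    (one_le_exp (by positivity)) (a5 _ _ cX cS) a3 dU hU hΨ (exp_pos _).le (exp_pos _).le
    (le_trans ?_ b1) b2)) (not_le.2 (b3 _ _ cS cq))
  · rw [Fintype.card_prod, Fintype.card_bool]
    push_cast
    linarith
  · have : 1 ≤ (σc σE ν : XC E W → ℝ) u ∧ σc σE ν u ≤ ν := by
      rcases u with u | ⟨u, i | l⟩
      · exact ⟨(hσ u).1, (le_mul_of_one_le_left (s0 u) e1).trans (hσ u).2⟩
      · change 1 ≤ ite _ _ _ ∧ ite _ _ _ ≤ _
        split_ifs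
        exacts [⟨hω.trans n1, le_rfl⟩, ⟨le_rfl, hω.trans n1⟩]
      · exact ⟨le_rfl, hω.trans n1⟩
    refine ⟨this.1, (mul_le_mul_of_nonneg_left (pow_le_pow_left₀ (zero_le_one.trans this.1)
      (this.2.trans hA) _) (by norm_num)).trans ?_⟩
    rw [← exp_nat_mul]
    exact me (by linarith)
  · refine add_le_add_left (mul_le_mul_of_nonneg_left (le_trans (dn_mono h.ok h.zok (fun u => ?_)
      fun z k => ⟨k.1, fun a => NL.mono (k.2 a) (exp_le_exp.2 (by linarith))⟩) (not_le.1 hn).le)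
      zero_le_two) _
    rcases u with u | u
    · exact one_pos.trans_le (hσ u).1
    · change 0 < ite _ _ _
      split_ifs <;> linarith

end

end Vale.Agent.P057EN
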