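import Vale.Agent.P057EN.Ref

/-!
Refinement of vertices: every vertex splits into a base vertex and live parts.
-/

set_option linter.unusedSectionVars false

open Matrix Finset
open Vale.Agent.P267.H775 Vale.Agent.P057G Vale.Agent.P057PC Vale.Agent.P057TP Vale.Agent.P057ST
open Vale.Agent.P057GH Vale.Agent.P057DP Vale.Agent.P057RH

namespace Vale.Agent.P057EN

noncomputable section

section generic

variable {L : Type*} [Fintype L] [DecidableEq L]

theorem inv_of_tri {N : Matrix L L ℤ} (h : L → ℕ) (hN : ∀ i j, N i j ≠ 0 → h i < h j) :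
    ∃ U, (1 + N) * U = 1 := by
  have h1 : ∀ k i j, (N ^ k) i j ≠ 0 → h i + k ≤ h j := fun k => by
    induction k with
    | zero => exact fun i j e => by rw [by_contra fun x : ¬ i = j => e (one_apply_ne x)]; rfl
    | succ k ih =>
      intro i j e
      rw [pow_succ, mul_apply] at e
      obtain ⟨l, -, e⟩ := exists_ne_zero_of_sum_ne_zero e
      have := ih i l (left_ne_zero_of_mul e)
      have := hN l j (right_ne_zero_of_mul e)
      omega
  have h2 : IsNilpotent N := ⟨univ.sup h + 1, by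
    ext i j
    by_contra e
    have := h1 _ i j e
    have := le_sup (f := h) (mem_univ j)
    omega⟩
  exact h2.isUnit_one_add.exists_right_inv

/-- a small shear -/
theorem Ex_shear {lv : L → ℕ} {p p' : (L → ℤ) → L → ℝ} (hp : Tri lv p) {N U : Matrix L L ℤ}
    (hU : (1 + N) * U = 1) (hp' : ∀ z, p' ((1 + N) *ᵥ z) = mR (1 + N) *ᵥ p z) {A : Matrix L L ℝ}
    (hA : A.PosDef) {e η : ℝ} (h0 : 0 ≤ e) (h1 : e ≤ 1 / 6)
    (ha : ∀ v, qq A (mR N *ᵥ v) ≤ e ^ 2 * qq A v) (hη : η ≤ 1)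
    (good : ∀ B : Matrix L L ℝ, B.PosDef → (∀ v, qq B v ≤ 2 * qq A v) → |ms B p - 1| ≤ η)
    {f : (L → ℤ) → ℂ} {C : ℝ} (hf : ∀ z, ‖f z‖ ≤ C) :
    ‖Ex A p (fun z => f ((1 + N) *ᵥ z)) - Ex A p' f‖ ≤ C * (4 * η + 24 * e * Fintype.card L) := by
  have hB := posDef_unimod (mul_eq_one_comm.1 hU) hA
  have n1 : ∀ v, (1 - 3 * e) * qq A v ≤ qq ((mR (1 + N))ᵀ * A * mR (1 + N)) v ∧
      qq ((mR (1 + N))ᵀ * A * mR (1 + N)) v ≤ (1 + 3 * e) * qq A v := fun v => by
    rw [qq_conj, mR_add, mR_one, add_mulVec, one_mulVec]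
    exact qq_near hA.posSemidef h0 (by linarith) (ha v)
  have l3 : ∀ v, (1 + 3 * e) * qq A v ≤ 2 * qq A v := fun v =>
    mul_le_mul_of_nonneg_right (by linarith) (qq_nonneg hA.posSemidef v)
  have g1 := good _ hA fun v => by linarith [qq_nonneg hA.posSemidef v]
  have g2 := good _ hB fun v => (n1 v).2.trans (l3 v)
  have g3 := good _ (hA.smul (by linarith : 0 < 1 + 3 * e)) fun v => by
    rw [qq_smul_mat]; exact l3 v
  have k1 := l1_gram hp hA hB (e := 3 * e) (by linarith) (by linarith) (fun v => (n1 v).1)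
    (fun v => (n1 v).2) hη (by linarith [(abs_le.1 g1).2]) (by linarith [(abs_le.1 g2).2]) g3
  rw [← Ex_unimod hU A hp' f]
  exact (Ex_cmp hp hA hB fun z => hf _).trans (mul_le_mul_of_nonneg_left
    (k1.trans (le_of_eq (by ring))) ((norm_nonneg _).trans (hf 0)))

end generic

variable {T : Tow} {C W S R : Type} {s m d n : ℕ} {N Λ η : ℝ} [Fintype W] [DecidableEq W]
  [Fintype S] {cl : W → C} {Z : Sys T W S} {q : Finset (Lb T cl S m)} {pa : W → W}

/-- a face with all live parts of its vertices -/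
def sg (pa : W → W) (A : Finset W) : Finset W := univ.filter fun v => v ∈ A ∨ pa v ∈ A

/-- the vertex of `A` to which a vertex belongs -/
def mu (pa : W → W) (A : Finset W) (v : W) : W := if v ∈ A then v else pa v

/-- some vertices of the face are replaced by live parts -/
def Rf (pa : W → W) (l l' : Lb T cl S m) : Prop :=
  l.bs = none ∧ l'.cd = l.cd ∧ l'.bs = none ∧ l'.fc ⊆ sg pa l.fc

open Classical in
/-- new labels to old labels -/
def UM (pa : W → W) (T : Tow) (cl : W → C) (S : Type) (m : ℕ) :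
    Matrix (Lb T cl S m) (Lb T cl S m) ℤ := Matrix.of fun l l' => if Rf pa l l' then 1 else 0

theorem mem_sg {A : Finset W} {v : W} : v ∈ sg pa A ↔ v ∈ A ∨ pa v ∈ A := by simp [sg]

theorem sg_mono {A B : Finset W} (h : A ⊆ B) : sg pa A ⊆ sg pa B := fun _ k =>
  mem_sg.2 ((mem_sg.1 k).imp (@h _) (@h _))

theorem mu_mem {A : Finset W} {v : W} (h : v ∈ sg pa A) : mu pa A v ∈ A := by
  unfold mu
  split_ifs with k
  exacts [k, (mem_sg.1 h).resolve_left k]

variable (hc : ∀ v, cl (pa v) = cl v)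
include hc

theorem cl_mu (A : Finset W) (v : W) : cl (mu pa A v) = cl v := by
  unfold mu
  split_ifs
  exacts [rfl, hc v]

theorem mu_eq {A B : Finset W} (hB : Set.InjOn cl B) (h : A ⊆ B) {v : W} (hv : v ∈ sg pa A) :
    mu pa B v = mu pa A v :=
  hB (mu_mem (sg_mono h hv)) (h (mu_mem hv)) (by rw [cl_mu hc, cl_mu hc])

theorem mu_inj (A : Finset W) {B : Finset W} (hB : Set.InjOn cl B) : Set.InjOn (mu pa A) B :=
  fun v hv w hw e => hB hv hw (by rw [← cl_mu hc A v, e, cl_mu hc])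

theorem sub_sg {A B D : Finset W} (hA : Set.InjOn cl A) (hB : B ⊆ A) :
    D ⊆ sg pa B ↔ D.image (mu pa A) ⊆ B := by
  refine ⟨fun h => image_subset_iff.2 fun v hv => ?_, fun h v hv => ?_⟩
  · rw [mu_eq hc hA hB (h hv)]; exact mu_mem (h hv)
  · have := h (mem_image_of_mem _ hv)
    unfold mu at this
    split_ifs at this
    exacts [mem_sg.2 (Or.inl this), mem_sg.2 (Or.inr this)]

theorem Rf.img {l l' : Lb T cl S m} (h : Rf pa l l') : l'.fc.image (mu pa l.fc) = l.fc :=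
  eq_of_subset_of_card_le (image_subset_iff.2 fun _ hv => mu_mem (h.2.2.2 hv)) (by
    rw [card_image_of_injOn (mu_inj hc _ (B := l'.fc) l'.2.2.1), l.card_eq h.1, l'.card_eq h.2.2.1, h.2.1])

theorem pt_U [CommRing R] (x : Lb T cl S m → R) {B : Finset W} (hB : Set.InjOn cl B) :
    pt ((UM pa T cl S m).map (Int.cast : ℤ → R) *ᵥ x) none B = pt x none (sg pa B) := by
  classical
  funext b
  simp only [pt, mulVec, dotProduct, UM, map_apply, of_apply, or_self]
  have e : ∀ l : Lb T cl S m, (if l.cd = b ∧ l.fc ⊆ B ∧ l.bs = none then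
      ∑ k, ((if Rf pa l k then 1 else 0 : ℤ) : R) * x k else 0) =
      ∑ k, if (l.cd = b ∧ l.fc ⊆ B) ∧ Rf pa l k then x k else 0 := fun l => by
    split_ifs with h
    · exact sum_congr rfl fun k _ => by simp [h.1, h.2.1]
    · exact (sum_eq_zero fun k _ => if_neg fun y => h ⟨y.1.1, y.1.2, y.2.1⟩).symm
  simp only [e]
  rw [sum_comm]
  refine sum_congr rfl fun k _ => ?_
  split_ifs with h
  · have i1 := mu_inj hc B k.2.2.1
    let l : Lb T cl S m := ⟨(k.cd, k.fc.image (mu pa B), none), k.2.1,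
      hB.mono (coe_subset.2 (image_subset_iff.2 fun _ hv => mu_mem (h.2.1 hv))),
      (card_image_of_injOn i1).trans (k.card_eq h.2.2)⟩
    have hl : l.fc ⊆ B := image_subset_iff.2 fun _ hv => mu_mem (h.2.1 hv)
    rw [sum_eq_single l (fun l' _ e => if_neg fun y => e (lb_ext y.2.2.1.symm ?_ y.2.1)) (by simp),
      if_pos ⟨⟨h.1, hl⟩, rfl, rfl, h.2.2, (sub_sg hc hB hl).2 Subset.rfl⟩]
    rw [← y.2.img hc]
    exact image_congr fun v hv => (mu_eq hc hB y.1.2 (y.2.2.2.2 hv)).symm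
  · exact sum_eq_zero fun l _ => if_neg fun y =>
      h ⟨y.2.2.1.trans y.1.1, y.2.2.2.2.trans (sg_mono y.1.2), y.2.2.2.1⟩

omit hc in
theorem at_sg (hj : ∀ v, pa v ≠ v → ∀ B a,
    Z.fam.at' none (insert v B) a = Z.fam.at' none B a) (B : Finset W) (a : T.ι) :
    Z.fam.at' none (sg pa B) a = Z.fam.at' none B a := by
  have h : ∀ D : Finset W, (∀ v ∈ D, pa v ≠ v) →
      Z.fam.at' none (D ∪ B) a = Z.fam.at' none B a := fun D => by
    induction D using Finset.induction_on with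
    | empty => simp
    | insert v D _ ih =>
      intro k
      rw [insert_union, hj v (k v (mem_insert_self _ _)), ih fun w hw => k w (mem_insert_of_mem hw)]
  rw [← h (sg pa B \ B) fun v hv e => ?_, sdiff_union_of_subset fun v hv => mem_sg.2 (Or.inl hv)]
  have := mem_sdiff.1 hv
  exact this.2 (e ▸ (mem_sg.1 this.1).resolve_left this.2)

/-- the refinement commutes with the centres -/
theorem pr_U (hZ : Z.Ok) (hj : ∀ v, pa v ≠ v → ∀ B a,
    Z.fam.at' none (insert v B) a = Z.fam.at' none B a) {l : Lb T cl S m} (hl : l.bs = none)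
    (x : Lb T cl S m → ℝ) :
    Z.pr cl m (mR (UM pa T cl S m) *ᵥ x) l = (mR (UM pa T cl S m) *ᵥ Z.pr cl m x) l := by
  classical
  have e1 : Z.pr cl m (mR (UM pa T cl S m) *ᵥ x) l = dlt (fun B => ∑ D ∈ (sg pa l.fc).powerset,
      if D.image (mu pa l.fc) ⊆ B then Z.fam.alt (pt x) none D l.cd else 0) l.fc := by
    rw [Sys.pr, hl]
    refine dlt_congr fun B hB => ?_
    rw [mR, pt_U hc x (l.2.2.1.mono (coe_subset.2 hB)), ← at_sg hj, ← sum_powerset_dlt
      (fun B => MvPolynomial.eval (pt x none B) (Z.fam.at' none B l.cd)), ← sum_filter]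
    refine sum_congr ?_ fun _ _ => rfl
    ext D
    rw [mem_filter, mem_powerset, mem_powerset]
    exact ⟨fun h => ⟨h.trans (sg_mono hB), (sub_sg hc l.2.2.1 hB).1 h⟩,
      fun h => (sub_sg hc l.2.2.1 hB).2 h.2⟩
  rw [e1, dlt_sum]
  simp only [dlt_ind, mR, UM, mulVec, dotProduct, map_apply, of_apply]
  rw [← sum_fiberwise_of_maps_to (s := univ) (t := univ) (g := fun k : Lb T cl S m => k.fc)
    fun _ _ => mem_univ _, ← sum_subset (subset_univ (sg pa l.fc).powerset) fun D _ hD =>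
      sum_eq_zero fun k hk => by
        rw [if_neg fun y => hD (mem_powerset.2 ((mem_filter.1 hk).2 ▸ y.2.2.2))]; simp]
  refine sum_congr rfl fun D hD => ?_
  have hD' := mem_powerset.1 hD
  by_cases h : ∃ k : Lb T cl S m, k.fc = D ∧ Rf pa l k
  · obtain ⟨k, rfl, h⟩ := h
    rw [if_pos (h.img hc), sum_eq_single k (fun k' a b => ?_) (by simp), if_pos h, ← h.2.1,
      ← h.2.2.1, Int.cast_one, one_mul]
    · rfl
    rw [if_neg fun y => b (lb_ext (y.2.1.trans h.2.1.symm) (mem_filter.1 a).2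
      (y.2.2.1.trans h.2.2.1.symm))]
    simp
  · rw [sum_eq_zero fun k hk => by rw [if_neg fun y => h ⟨k, (mem_filter.1 hk).2, y⟩]; simp]
    split_ifs with e
    · refine hZ.fam.alt_lt x none (lt_of_le_of_ne ?_ fun y => h ?_)
      · rw [← l.card_eq hl, ← e]; exact card_image_le
      · have i1 : Set.InjOn (mu pa l.fc) D :=
          injOn_of_card_image_eq (by rw [e, l.card_eq hl, y])
        exact ⟨⟨(l.cd, D, none), l.2.1, fun v hv w hw k => i1 hv hw
          (l.2.2.1 (mu_mem (hD' hv)) (mu_mem (hD' hw)) (by rw [cl_mu hc, cl_mu hc, k])),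
          y.symm⟩, rfl, hl, rfl, rfl, hD'⟩
    · rfl

theorem Rf.fc_iff {i i' j j' : Lb T cl S m} (a : Rf pa i j) (b : Rf pa i' j')
    (e : j.fc \ i.fc = j'.fc \ i'.fc) : i.fc = i'.fc ↔ j.fc = j'.fc := by
  have key : ∀ {i i' j j' : Lb T cl S m}, Rf pa i j → Rf pa i' j' → j.fc \ i.fc = j'.fc \ i'.fc →
      i.fc = i'.fc → j.fc ⊆ j'.fc := fun {i i' j j'} a b e h w hw => by
    by_cases k : w ∈ i.fc
    · obtain ⟨w', h1, h2⟩ := mem_image.1 ((h.trans (b.img hc).symm) ▸ k)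
      by_cases k' : w' ∈ i'.fc
      · rwa [← h2, mu, if_pos k']
      · have h3 := (mem_sdiff.1 (e ▸ mem_sdiff.2 ⟨h1, k'⟩ : w' ∈ j.fc \ i.fc)).1
        rwa [j.2.2.1 hw h3 (by rw [← h2, cl_mu hc])]
    · exact (mem_sdiff.1 (e ▸ mem_sdiff.2 ⟨hw, k⟩ : w ∈ j'.fc \ i'.fc)).1
  refine ⟨fun h => Subset.antisymm (key a b e h) (key b a e.symm h.symm), fun h => ?_⟩
  rw [← a.img hc, ← b.img hc, h]
  refine image_congr fun v hv => if_congr ?_ rfl rfl
  have := Finset.ext_iff.1 e v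
  simp only [mem_sdiff, h, mem_coe.1 hv, true_and] at this
  exact not_iff_not.1 this

theorem Rf.lt (hp : ∀ v, pa (pa v) = pa v) {i j : Lb T cl S m} (a : Rf pa i j) (e : i ≠ j) :
    (i.fc.filter fun v => pa v ≠ v).card < (j.fc.filter fun v => pa v ≠ v).card := by
  have h1 : ¬ j.fc ⊆ i.fc := fun h => e (lb_ext a.2.1.symm (eq_of_subset_of_card_le h (by
    rw [i.card_eq a.1, j.card_eq a.2.2.1, a.2.1])).symm (a.1.trans a.2.2.1.symm))
  obtain ⟨w, h2, h3⟩ := not_subset.1 h1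
  refine card_lt_card ((ssubset_iff_of_subset fun v hv => ?_).2 ⟨w, mem_filter.2 ⟨h2, fun k =>
    h3 (k ▸ (mem_sg.1 (a.2.2.2 h2)).resolve_left h3)⟩, fun k => h3 (mem_filter.1 k).1⟩)
  obtain ⟨k1, k2⟩ := mem_filter.1 hv
  obtain ⟨u, k3, rfl⟩ := mem_image.1 ((a.img hc).symm ▸ k1)
  unfold mu at k2 ⊢
  split_ifs at k2 ⊢
  exacts [mem_filter.2 ⟨k3, k2⟩, absurd (hp u) k2]

open Classical in
/-- the proper refinements inside `q` -/
def Nr (pa : W → W) (q : Finset (Lb T cl S m)) : Matrix q q ℤ :=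
  Matrix.of fun i j => if Rf pa i.1 j.1 ∧ i ≠ j then 1 else 0

theorem qq_Nr (hT : T.Ok s N) (hq : Cq q) {a : Finset W → Option S → ℝ} (ha : ∀ A o, 0 < a A o)
    {ρ : ℝ} (hρ : 0 ≤ ρ)
    (k1 : ∀ l ∈ q, ∀ l', Rf pa l l' → l ≠ l' → a l.fc none ≤ ρ * a l'.fc none) (w : q → ℝ) :
    qq (blk (sG T cl S m a) q) (mR (Nr pa q) *ᵥ w) ≤
      4 ^ Fintype.card W * ρ * qq (blk (sG T cl S m a) q) w := by
  classical
  have hA := posDef_blk (pd_sG (cl := cl) (m := m) hT.pd ha) q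
  let r : Finset W → q → q → Prop := fun κ i j => (Rf pa i.1 j.1 ∧ i ≠ j) ∧ j.1.fc \ i.1.fc = κ
  have e : mR (Nr pa q) *ᵥ w =
      ∑ κ, Matrix.of (fun i j => if r κ i j then (1 : ℝ) else 0) *ᵥ w := by
    rw [← sum_mulVec]
    congr 1
    ext i j
    by_cases k : Rf pa i.1 j.1 ∧ i ≠ j <;> simp [Matrix.sum_apply, mR, Nr, r, k]
  have h1 : ∀ κ, qq (blk (sG T cl S m a) q)
      (Matrix.of (fun i j => if r κ i j then (1 : ℝ) else 0) *ᵥ w) ≤
      ρ * qq (blk (sG T cl S m a) q) w := fun κ => by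
    let b : Finset W → Option S → ℝ := fun A o => a (A.image fun v => if v ∈ κ then pa v else v) o
    have hb : ∀ i j, r κ i j → b j.1.fc j.1.bs = a i.1.fc none := fun i j h => by
      rw [← h.1.1.img hc, h.1.1.2.2.1]
      refine congrArg (a · none) (image_congr fun v hv => ?_)
      simp [mu, ← h.2, mem_coe.1 hv]
    have ho : ∀ b, Ort (blk (sG T cl S m b) q) fun j => ∃ i, r κ i j := fun b j j' ⟨i, x⟩ y =>
      by_contra fun e => y (by
        have e0 := right_ne_zero_of_mul e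
        have e1 := Gam_ne e0
        have e2 : T.lv j'.1.cd = T.lv i.1.cd := by_contra fun k => e0 (by
          simp only [Gam, of_apply]
          rw [x.1.1.2.1, hT.blk _ _ (Ne.symm k), ite_self])
        let l : Lb T cl S m := ⟨(j'.1.cd, i.1.fc, i.1.bs), j'.1.2.1, i.1.2.2.1, e2 ▸ i.1.2.2.2⟩
        refine ⟨⟨l, hq _ i.2 l Subset.rfl (Or.inr rfl)⟩, ⟨⟨x.1.1.1, rfl, e1.2 ▸ x.1.1.2.2.1,
          e1.1 ▸ x.1.1.2.2.2⟩, fun k => x.1.2 (Subtype.ext (lb_ext x.1.1.2.1.symm ?_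
            (x.1.1.1.trans x.1.1.2.2.1.symm)))⟩, e1.1 ▸ x.2⟩
        rw [e1.1, ← k]; rfl)
    have e1 : Matrix.of (fun i j => if r κ i j then (1 : ℝ) else 0) *ᵥ w =
        Matrix.of (fun i j => if r κ i j then (1 : ℝ) else 0) *ᵥ
          fun j => if ∃ i, r κ i j then w j else 0 := funext fun i => sum_congr rfl fun j _ => by
      by_cases k : r κ i j
      · exact congrArg (_ * ·) (if_pos ⟨i, k⟩).symm
      · simp [k]
    rw [e1]
    refine (qq_rel (posDef_blk (pd_sG (a := b) hT.pd fun _ _ => ha _ _) q) (r κ)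
      (fun i i' j x y => Subtype.ext (lb_ext (x.1.1.2.1.symm.trans y.1.1.2.1)
        ((x.1.1.fc_iff hc y.1.1 (x.2.trans y.2.symm)).2 rfl) (x.1.1.1.trans y.1.1.1.symm)))
      (fun i i' j j' x y => ?_) (ho b) _).trans (le_trans ?_ (mul_le_mul_of_nonneg_left
        (qq_cut hA (ho a) w) hρ))
    · simp only [blk, submatrix_apply, sG, Gam, of_apply, hb i j x, x.1.1.1, y.1.1.1, x.1.1.2.1,
        y.1.1.2.1, y.1.1.2.2.1, x.1.1.fc_iff hc y.1.1 (x.2.trans y.2.symm)]
      simp [x.1.1.2.2.1]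
    · rw [← qq_smul_mat, show ρ • blk (sG T cl S m a) q =
        blk (sG T cl S m fun A o => ρ * a A o) q by ext; simp [blk, sG, mul_assoc]]
      refine qq_blk_mono hT.pd _ fun l k => ?_
      obtain ⟨i, x⟩ := (ite_ne_right_iff.1 k).1
      rw [hb i l x, x.1.1.2.2.1]
      exact k1 _ i.2 _ x.1.1 fun y => x.1.2 (Subtype.ext y)
  rw [e]
  refine (qq_sum_le hA.posSemidef _ _).trans ((mul_le_mul_of_nonneg_left
    (sum_le_card_nsmul _ _ _ fun κ _ => h1 κ) (by positivity)).trans (le_of_eq ?_))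
  rw [card_univ, Fintype.card_finset, nsmul_eq_mul, show (4 : ℝ) = 2 * 2 by norm_num, mul_pow]
  push_cast
  ring

/-- the refinement step -/
theorem refine (hT : T.Ok s N) (hZ : Z.Ok) (hp : ∀ v, pa (pa v) = pa v)
    (hj : ∀ v, pa v ≠ v → ∀ B a, Z.fam.at' none (insert v B) a = Z.fam.at' none B a) (hq : Cq q)
    (h0 : ∀ l ∈ q, l.bs = none) (hr : ∀ l ∈ q, ∀ l', Rf pa l l' → l' ∈ q)
    {q1 : Finset (Lb T cl S m)} (h1 : ∀ l, l ∈ q1 ↔ l ∈ q ∧ ∀ v ∈ l.fc, pa v = v) (hd : m ≤ d + 1)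
    (hL : T.tw.LF d n Λ η) (hη : η ≤ 1)
    (hn : Fintype.card W + Fintype.card W + Fintype.card S ≤ n) (hΛ : 0 < Λ)
    {a : Finset W → Option S → ℝ} (ha : ∀ A o, 0 < a A o) {e : ℝ} (he0 : 0 ≤ e) (he : e ≤ 1 / 6)
    (k1 : ∀ l ∈ q, ∀ l', Rf pa l l' → l ≠ l' →
      4 ^ Fintype.card W * a l.fc none ≤ e ^ 2 * a l'.fc none)
    (k5 : ∀ l ∈ q, a l.fc l.bs ≤ Λ / (4 * Fintype.card S + 4)) {c : Lb T cl S m → ℝ}
    (hc0 : ∀ l ∈ q, l ∉ q1 → c l = 0) {F : (Lb T cl S m → ℤ) → ℂ} {B : ℝ}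
    (hF : ∀ z, ‖F z‖ ≤ B) (dF : Dp q1 F) :
    ‖Ev (cub Z cl m a c) q (fun z => F (UM pa T cl S m *ᵥ z)) - Ev (cub Z cl m a c) q1 F‖ ≤
      B * (3 * √η + 4 * η + 24 * e * q.card) := by
  classical
  have hA := posDef_blk (pd_sG (cl := cl) (m := m) hT.pd ha) q
  have h2 := del_cub (c := c) (Subtype.val : {v // pa v ≠ v} → W) hT hZ hq hd hL hη
    (by have := Fintype.card_subtype_le fun v => pa v ≠ v; omega) ha hΛ k5
    (fun l => (h1 l).trans (and_congr_right fun _ =>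
      ⟨fun k x hx => x.2 (k _ hx), fun k v hv => by_contra fun y => k ⟨v, y⟩ hv⟩)) hF dF
  have hN : ∀ i j, Nr pa q i j ≠ 0 → Rf pa i.1 j.1 ∧ i ≠ j := fun i j k =>
    by_contra fun y => k (if_neg y)
  have hl := fun i j k => (hN i j k).1.lt hc hp fun y => (hN i j k).2 (Subtype.ext y)
  obtain ⟨U, hU⟩ := inv_of_tri (N := Nr pa q) _ hl
  have eU : 1 + Nr pa q = (UM pa T cl S m).submatrix Subtype.val Subtype.val := by
    ext i j
    simp only [Nr, UM, Matrix.add_apply, of_apply, submatrix_apply, one_apply]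
    by_cases k : i = j
    · subst k
      simp [show Rf pa i.1 i.1 from ⟨h0 _ i.2, rfl, h0 _ i.2, fun _ x => mem_sg.2 (Or.inl x)⟩]
    · simp [k]
  have eZ : ∀ (z : q → ℤ) (i : q), ((1 + Nr pa q) *ᵥ z) i = (UM pa T cl S m *ᵥ put q z 0) i :=
    fun z i => by
      rw [eU, ← sub_mulVec' _ q _ i fun l hl => by rw [put_neg _ _ hl]; exact mul_zero _]
      simp only [put_coe]
  have h3 := Ex_shear (p := pq (cub Z cl m a c) q) (p' := pq (cub Z cl m a c) q)
    (tri_add (tri_pz hT hZ q) _) hU (fun z => by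
      have e1 : mR (Nr pa q) *ᵥ (fun i : q => c i) = 0 := funext fun i => sum_eq_zero fun j _ => by
        by_cases x : Nr pa q i j = 0
        · simp [mR, x]
        · refine mul_eq_zero_of_right _ (hc0 j j.2 fun y => ?_)
          have := hl i j x
          rw [filter_false_of_mem (s := j.1.fc) fun v hv => not_not.2 (((h1 _).1 y).2 v hv)] at this
          exact Nat.not_lt_zero _ this
      have e2 : mR (1 + Nr pa q) *ᵥ (fun i : q => c i) = fun i : q => c i := by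
        rw [mR_add, mR_one, add_mulVec, one_mulVec, e1, add_zero]
      rw [pq_cub, mulVec_add, e2]
      refine congrArg (· + fun i : q => c i) (funext fun i => ?_)
      rw [pz_eq hT hZ hq (y := mR (UM pa T cl S m) *ᵥ toR (put q z 0))
        (fun j => by rw [eZ, ← toR_mulVec]; rfl) i, pr_U hc hZ hj (h0 _ i.2), eU,
        ← sub_mulVec' _ q _ i fun l hl => by
          simp [mR, UM, show ¬ Rf pa i.1 l from fun y => hl (hr _ i.2 _ y)]]
      rfl) hA he0 he
    (fun v => (qq_Nr hc hT hq ha (ρ := e ^ 2 / 4 ^ Fintype.card W) (by positivity)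
      (fun l hl l' x y => by
        rw [div_mul_eq_mul_div, le_div_iff₀' (by positivity)]; exact k1 l hl l' x y) v).trans
      (le_of_eq (by field_simp))) hη
    (fun B hB hle => fine_pz hT hZ hq hd hL (by omega) hΛ B _ hB fun v => (hle v).trans (by
      rw [qq_smul_mat, show Λ / (2 * Fintype.card S + 2) = 2 * (Λ / (4 * Fintype.card S + 4)) by
        field_simp; ring, mul_assoc, ← qq_blk_const]
      exact mul_le_mul_of_nonneg_left (qq_blk_mono hT.pd v fun l _ => k5 l l.2) (by norm_num)))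
    (f := fun x => F (put q x 0)) fun _ => hF _
  rw [Fintype.card_coe] at h3
  rw [Ev_eq_Ex _ q] at h2 ⊢
  have e2 : (fun x : q → ℤ => F (UM pa T cl S m *ᵥ put q x 0)) =
      fun x => F (put q ((1 + Nr pa q) *ᵥ x) 0) := funext fun x => dF _ _ fun i hi => by
    rw [put_pos _ _ ((h1 i).1 hi).1, eZ]
  rw [e2]
  refine (norm_sub_le_norm_sub_add_norm_sub _ _ _).trans ((add_le_add h3 h2).trans (le_of_eq ?_))
  ring

end

end Vale.Agent.P057EN
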