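import Vale.Agent.P057PC.Split

/-!
Mixtures on a block of labels; fibre products in copy coordinates.
-/

set_option linter.unusedSectionVars false

open MeasureTheory Matrix Finset Filter
open scoped Real Topology
open Vale.Agent.P267.H775 Vale.Agent.P057G Vale.Agent.P057PC

namespace Vale.Agent.P057EN

noncomputable section

variable {L K : Type*} [Fintype L] [DecidableEq L] [Fintype K] [DecidableEq K]

/-- bounds for all members of a mixture pass to the mixture -/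
theorem Ex_mixE {lv : L → ℕ} {p : (L → ℤ) → L → ℝ} (hp : Tri lv p) {G H : Matrix L L ℝ}
    (hG : G.PosDef) (hH : H.PosDef) {ν : (K → ℝ) → ℝ} (h0 : ∀ c, 0 ≤ ν c)
    (hi : Integrable ν) (h1 : ∫ c, ν c = 1) {E : (K → ℝ) → L → ℝ}
    (hv : ∀ v, Integrable (fun c => ν c * ng H (v - E c)) ∧ ∫ c, ν c * ng H (v - E c) = ng G v)
    {f : (L → ℤ) → ℂ} {C : ℝ} (hf : ∀ z, ‖f z‖ ≤ C) {η : ℝ}
    (h : ∀ c, ‖Ex H (fun z => p z + E c) f‖ ≤ η) : ‖Ex G p f‖ ≤ η := by
  set F : (L → ℤ) → (K → ℝ) → ℂ := fun z c => ((ν c * ng H (toR z - p z - E c) : ℝ) : ℂ) * f z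
    with hF
  have hFs : ∀ c, HasSum (fun z => F z c) ((ν c : ℂ) * Ex H (fun z => p z + E c) f) := fun c => by
    refine ((summable_Ex (tri_add hp (E c)) hH hf).hasSum.mul_left (ν c : ℂ)).congr_fun fun z => ?_
    simp only [hF, ← sub_sub]; push_cast; ring
  have hFi : ∀ z, Integrable (F z) := fun z => (hv (toR z - p z)).1.ofReal.mul_const _
  have hFn : ∀ z, ∫ c, ‖F z c‖ = ng G (toR z - p z) * ‖f z‖ := fun z => by
    rw [← (hv (toR z - p z)).2, ← integral_mul_const]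
    refine integral_congr_ae (Eventually.of_forall fun c => ?_)
    simp only [hF]
    rw [norm_mul, Complex.norm_real, Real.norm_of_nonneg (mul_nonneg (h0 c) (ng_nonneg _ _))]
  have hs : Summable fun z => ∫ c, ‖F z c‖ := by
    simp_rw [hFn]
    exact summable_mul_real (summable_ng hp hG) (fun _ => ng_nonneg _ _) (C := C)
      fun z => by rw [abs_norm]; exact hf z
  have h2 := integral_tsum_of_summable_integral_norm hFi hs
  simp_rw [fun c => (hFs c).tsum_eq] at h2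
  have h3 : Ex G p f = ∫ c, (ν c : ℂ) * Ex H (fun z => p z + E c) f := by
    rw [← h2]
    refine tsum_congr fun z => ?_
    simp only [hF]
    rw [integral_mul_const, integral_complex_ofReal, (hv _).2]
  rw [h3]
  refine (norm_integral_le_of_norm_le (hi.mul_const η) (Eventually.of_forall fun c => ?_)).trans ?_
  · rw [norm_mul, Complex.norm_real, Real.norm_of_nonneg (h0 c)]
    exact mul_le_mul_of_nonneg_left (h c) (h0 c)
  · rw [integral_mul_const, h1, one_mul]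

variable {lv : L → ℕ} {p p2 : (L → ℤ) → L → ℝ} {G H : Matrix L L ℝ} {P : L → Prop}
  [DecidablePred P] {pb : ({l // ¬ P l} → ℤ) → {l // ¬ P l} → ℝ}

/-- a mixture which moves only the centres of the labels in `P` -/
theorem Ex_pmix (hp : Tri lv p) (hG : G.PosDef) (hH : H.PosDef) (oG : Ort G P) (oH : Ort H P)
    (hb : (bk H fun l => ¬ P l) = bk G fun l => ¬ P l) (hR : (bk H P - bk G P).PosDef)
    {f : (L → ℤ) → ℂ} {C : ℝ} (hf : ∀ z, ‖f z‖ ≤ C) {η : ℝ}
    (h : ∀ c : L → ℝ, (∀ l, ¬ P l → c l = 0) → ‖Ex H (fun z => p z + c) f‖ ≤ η) :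
    ‖Ex G p f‖ ≤ η := by
  obtain ⟨ν, h0, -, hi, h1, hv⟩ := ng_mix (posDef_bk hG P) hR
  have e : ∀ (v : L → ℝ) (c : {l // P l} → ℝ), ng H (v - glue (X := fun _ => ℝ) P c fun _ => 0) =
      ng (bk G fun l => ¬ P l) (rs _ v) * ng (bk H P) (rs P v - c) := fun v c => by
    rw [ng_split hH oH, hb]
    congr 2
    · funext l; simp only [rs, Pi.sub_apply, glue_neg (X := fun _ => ℝ) c _ l.2, sub_zero]
    · funext l; simp only [rs, Pi.sub_apply, glue_pos (X := fun _ => ℝ) c _ l.2]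
  refine Ex_mixE hp hG hH h0 hi h1 (E := fun c => glue (X := fun _ => ℝ) P c fun _ => 0)
    (fun v => ?_) hf fun c => h _ fun l hl => glue_neg (X := fun _ => ℝ) c _ hl
  simp only [e, mul_left_comm (ν _)]
  refine ⟨(hv _).1.const_mul _, ?_⟩
  rw [integral_const_mul, (hv _).2, ng_split hG oG]

/-- the second point of a doubled configuration, copy coordinates -/
def zc {α : Type*} (P : L → Prop) [DecidablePred P] (z : L ⊕ {l // P l} → α) : L → α :=
  fun l => if h : P l then z (Sum.inr ⟨l, h⟩) else z (Sum.inl l)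

/-- the centres of a fibre product, copy coordinates -/
def pc (P : L → Prop) [DecidablePred P] (p p2 : (L → ℤ) → L → ℝ) (z : L ⊕ {l // P l} → ℤ) :
    L ⊕ {l // P l} → ℝ :=
  Sum.elim (p (z1 P z)) fun l => p2 (zc P z) l

theorem tri_pc (hp : Tri lv p) (hp2 : Tri lv p2) :
    Tri (Sum.elim lv fun l : {l // P l} => lv l) (pc P p p2) := by
  rintro (i | i) z z' h
  · exact hp i _ _ fun j hj => h (Sum.inl j) hj
  · refine hp2 i _ _ fun j hj => ?_
    unfold zc
    split_ifs with h1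
    exacts [h (Sum.inr ⟨j, h1⟩) hj, h (Sum.inl j) hj]

/-- the fibre product of two systems over a common base -/
theorem Ex_cop (hp : Tri lv p) (hp2 : Tri lv p2) (hG : G.PosDef) (hH : H.PosDef) (ho : Ort G P)
    (hs : Spl P p pb) {f g : (L → ℤ) → ℂ} {C D : ℝ} (hf : ∀ z, ‖f z‖ ≤ C) (hg : ∀ z, ‖g z‖ ≤ D) :
    Ex (fromBlocks G 0 0 (bk H P)) (pc P p p2) (fun z => f (z1 P z) * g (zc P z)) =
      Ex (bk G fun l => ¬ P l) pb fun y => Fx G P p f y * Fx H P p2 g y := by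
  obtain ⟨B, hB⟩ := Fx_bdd hp2 hH P hg
  have hC : 0 ≤ C := (norm_nonneg _).trans (hf 0)
  have hb : ∀ z, ‖f z * Fx H P p2 g (rs _ z)‖ ≤ C * B := fun z => by
    rw [norm_mul]; exact mul_le_mul (hf z) (hB _) (norm_nonneg _) hC
  simp_rw [← Fx_base]
  rw [← Ex_split hp hG ho hs hb]
  have hb2 : ∀ z, ‖f (z1 P z) * g (zc P z)‖ ≤ C * D := fun z => by
    rw [norm_mul]; exact mul_le_mul (hf _) (hg _) (norm_nonneg _) hC
  have h1 := summable_Ex (tri_pc (P := P) hp hp2) (posDef_blocks hG (posDef_bk hH P)) hb2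
  let e := (Equiv.sumArrowEquivProdArrow L {l // P l} ℤ).symm
  have h2 := e.summable_iff.2 h1
  rw [Ex, ← e.tsum_eq]
  refine h2.tsum_prod.trans ?_
  refine tsum_congr fun z => ?_
  beta_reduce
  rw [Fx, Ex, ← tsum_mul_left, ← tsum_mul_left]
  refine tsum_congr fun x => ?_
  have e1 : z1 P (e (z, x)) = z := rfl
  have e2 : zc P (e (z, x)) = glue P x (rs _ z) := by
    funext l
    unfold zc glue
    split_ifs <;> simp [e, rs]
  simp only [Function.comp]
  rw [ng_blocks hG, e1, e2, Complex.ofReal_mul]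
  have e3 : (toR (e (z, x)) - pc P p p2 (e (z, x))) ∘ Sum.inr = toR x - pf P p2 (rs _ z) x := by
    funext l
    simp only [Function.comp, Pi.sub_apply, toR_apply, pc, Sum.elim_inr, e2, pf]
    simp [e]
  have e4 : (toR (e (z, x)) - pc P p p2 (e (z, x))) ∘ Sum.inl = toR z - p z := rfl
  rw [e3, e4]; ring

theorem Fx_conj (G : Matrix L L ℝ) (f : (L → ℤ) → ℂ) (y : {l // ¬ P l} → ℤ) :
    Fx G P p (fun z => (starRingEnd ℂ) (f z)) y = (starRingEnd ℂ) (Fx G P p f y) := by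
  simp only [Fx, Ex, Complex.conj_tsum, map_mul, Complex.conj_ofReal]

/-- the mean square of the fibre sums -/
theorem Ex_sq (hp : Tri lv p) (hG : G.PosDef) (ho : Ort G P) (hs : Spl P p pb)
    {f : (L → ℤ) → ℂ} {C : ℝ} (hf : ∀ z, ‖f z‖ ≤ C) :
    Ex (fromBlocks G 0 0 (bk G P)) (pc P p p) (fun z => (starRingEnd ℂ) (f (z1 P z)) * f (zc P z))
      = ((∑' y, ng (bk G fun l => ¬ P l) (toR y - pb y) * ‖Fx G P p f y‖ ^ 2 : ℝ) : ℂ) := by
  rw [Ex_cop hp hp hG hG ho hs (f := fun z => (starRingEnd ℂ) (f z)) (C := C) (by simpa using hf)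
    hf, ← Ex_real]
  congr 1
  funext y
  rw [Fx_conj, ← Complex.normSq_eq_norm_sq, Complex.normSq_eq_conj_mul_self]

/-- Cauchy-Schwarz over the base, a bounded function of the base is removed -/
theorem Ex_csb (hp : Tri lv p) (hG : G.PosDef) (ho : Ort G P) (hs : Spl P p pb)
    {f : (L → ℤ) → ℂ} {C : ℝ} (hf : ∀ z, ‖f z‖ ≤ C) {g : ({l // ¬ P l} → ℤ) → ℂ} {D : ℝ}
    (hg : ∀ y, ‖g y‖ ≤ D) :
    ‖Ex G p fun z => f z * g (rs _ z)‖ ^ 2 ≤ D ^ 2 * ms (bk G fun l => ¬ P l) pb *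
      ‖Ex (fromBlocks G 0 0 (bk G P)) (pc P p p)
        fun z => (starRingEnd ℂ) (f (z1 P z)) * f (zc P z)‖ := by
  obtain ⟨B, hB⟩ := Fx_bdd hp hG P hf
  have hC : 0 ≤ C := (norm_nonneg _).trans (hf 0)
  have hD : 0 ≤ D := (norm_nonneg _).trans (hg 0)
  have hb : ∀ z, ‖f z * g (rs _ z)‖ ≤ C * D := fun z => by
    rw [norm_mul]; exact mul_le_mul (hf z) (hg _) (norm_nonneg _) hC
  rw [Ex_sq hp hG ho hs hf, Ex_split hp hG ho hs hb, Complex.norm_real]
  have hw := summable_ng (hs.tri hp) (posDef_bk hG fun l => ¬ P l)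
  have hw0 : ∀ y, 0 ≤ ng (bk G fun l => ¬ P l) (toR y - pb y) := fun _ => ng_nonneg _ _
  have s1 := summable_mul_real hw hw0 (f := fun y => ‖Fx G P p f y‖ ^ 2) (C := B ^ 2) fun y => by
    rw [abs_of_nonneg (sq_nonneg _)]; exact pow_le_pow_left₀ (norm_nonneg _) (hB y) 2
  have h1 : ∀ y, ‖Fx G P p (fun z => f z * g (rs _ z)) y‖ ^ 2 ≤ D ^ 2 * ‖Fx G P p f y‖ ^ 2 :=
    fun y => by
      rw [Fx_base, norm_mul, mul_pow, mul_comm]
      exact mul_le_mul_of_nonneg_right (pow_le_pow_left₀ (norm_nonneg _) (hg y) 2) (sq_nonneg _)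
  have s2 := summable_mul_real hw hw0 (f := fun y => ‖Fx G P p (fun z => f z * g (rs _ z)) y‖ ^ 2)
    (C := D ^ 2 * B ^ 2) fun y => by
      rw [abs_of_nonneg (sq_nonneg _)]
      exact (h1 y).trans (mul_le_mul_of_nonneg_left
        (pow_le_pow_left₀ (norm_nonneg _) (hB y) 2) (sq_nonneg _))
  have h2 := norm_tsum_sq_le hw hw0 s2
  simp only [Complex.real_smul] at h2
  refine h2.trans ?_
  rw [mul_comm (D ^ 2), mul_assoc]
  refine mul_le_mul_of_nonneg_left ?_ (ms_nonneg _ _)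
  refine le_trans ?_ (mul_le_mul_of_nonneg_left (le_abs_self _) (sq_nonneg _))
  rw [← tsum_mul_left]
  refine s2.tsum_le_tsum (fun y => ?_) (s1.mul_left _)
  rw [mul_left_comm]
  exact mul_le_mul_of_nonneg_left (h1 y) (hw0 y)

theorem ms_cop (hp : Tri lv p) (hp2 : Tri lv p2) (hG : G.PosDef) (hH : H.PosDef) (ho : Ort G P)
    (hs : Spl P p pb) : ms (fromBlocks G 0 0 (bk H P)) (pc P p p2) =
      ∑' y, ng (bk G fun l => ¬ P l) (toR y - pb y) *
        (ms (bk G P) (pf P p y) * ms (bk H P) (pf P p2 y)) := by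
  have := Ex_cop hp hp2 hG hH ho hs (f := fun _ => 1) (g := fun _ => 1) (C := 1) (D := 1)
    (by simp) (by simp)
  simp only [mul_one, Fx_one, ← Complex.ofReal_mul] at this
  rw [Ex_one, Ex_real] at this
  exact_mod_cast this

theorem ms_split (hp : Tri lv p) (hG : G.PosDef) (ho : Ort G P) (hs : Spl P p pb) :
    ms G p = ∑' y, ng (bk G fun l => ¬ P l) (toR y - pb y) * ms (bk G P) (pf P p y) := by
  have := Ex_split hp hG ho hs (f := fun _ => 1) (C := 1) (by simp)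
  rw [Ex_one, funext (Fx_one G), Ex_real] at this
  exact_mod_cast this

theorem ms_Gd (hp : Tri lv p) (hG : G.PosDef) (ho : Ort G P) (hs : Spl P p pb) :
    ms (Gd G P) (pd P p) = ms (fromBlocks G 0 0 (bk G P)) (pc P p p) := by
  have h1 := Ex_dbl hp hG ho hs (f := fun _ => 1) (g := fun _ => 1) (C := 1) (D := 1) (by simp)
    (by simp)
  have h2 := Ex_cop hp hp hG hG ho hs (f := fun _ => 1) (g := fun _ => 1) (C := 1) (D := 1)
    (by simp) (by simp)
  rw [← h2] at h1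
  simp only [mul_one, Ex_one] at h1
  exact_mod_cast h1

/-- the variance of the fibre masses -/
theorem fib_var (hp : Tri lv p) (hG : G.PosDef) (ho : Ort G P) (hs : Spl P p pb) :
    HasSum (fun y => ng (bk G fun l => ¬ P l) (toR y - pb y) * (ms (bk G P) (pf P p y) - 1) ^ 2)
      (ms (fromBlocks G 0 0 (bk G P)) (pc P p p) - 2 * ms G p + ms (bk G fun l => ¬ P l) pb) := by
  obtain ⟨B, hB⟩ := ms_bdd (posDef_bk hG P)
  have hB' : ∀ y, |ms (bk G P) (pf P p y)| ≤ B := fun y => by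
    rw [abs_of_nonneg (ms_nonneg _ _)]; exact hB _ _ (tri_pf hp P y)
  have hw := summable_ng (hs.tri hp) (posDef_bk hG fun l => ¬ P l)
  have hw0 : ∀ y, 0 ≤ ng (bk G fun l => ¬ P l) (toR y - pb y) := fun _ => ng_nonneg _ _
  have s1 := summable_mul_real hw hw0 hB'
  have s2 := summable_mul_real hw hw0
    (f := fun y => ms (bk G P) (pf P p y) * ms (bk G P) (pf P p y)) (C := B * B) fun y => by
      rw [abs_mul]; exact mul_le_mul (hB' y) (hB' y) (abs_nonneg _) ((abs_nonneg _).trans (hB' y))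
  rw [ms_split hp hG ho hs, ms_cop hp hp hG hG ho hs]
  refine ((s2.hasSum.sub (s1.hasSum.mul_left 2)).add hw.hasSum).congr_fun fun y => ?_
  ring

/-- insertion of a second fibre, with its own Gram matrix and centres -/
theorem Ex_ins (hp : Tri lv p) (hp2 : Tri lv p2) (hG : G.PosDef) (hH : H.PosDef) (ho : Ort G P)
    (oH : Ort H P) (hb : (bk H fun l => ¬ P l) = bk G fun l => ¬ P l) (hs : Spl P p pb)
    (hs2 : Spl P p2 pb) {η : ℝ} (h0 : |ms (bk G fun l => ¬ P l) pb - 1| ≤ η)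
    (h1 : |ms H p2 - 1| ≤ η) (h2 : |ms (fromBlocks H 0 0 (bk H P)) (pc P p2 p2) - 1| ≤ η)
    (h3 : ms (fromBlocks G 0 0 (bk G P)) (pc P p p) ≤ 4) {f : (L → ℤ) → ℂ} {C : ℝ}
    (hf : ∀ z, ‖f z‖ ≤ C) :
    ‖Ex (fromBlocks G 0 0 (bk H P)) (pc P p p2) (fun z => f (z1 P z)) - Ex G p f‖ ≤
      4 * √η * C := by
  have hη : 0 ≤ η := (abs_nonneg _).trans h0
  have hC : 0 ≤ C := (norm_nonneg _).trans (hf 0)
  obtain ⟨B, hB⟩ := Fx_bdd hp hG P hf
  obtain ⟨B1, hB1⟩ := ms_bdd (posDef_bk hG P)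
  obtain ⟨B2, hB2⟩ := ms_bdd (posDef_bk hH P)
  have e1 := Ex_cop hp hp2 hG hH ho hs (g := fun _ => 1) (D := 1) hf (by simp)
  simp only [mul_one, Fx_one] at e1
  have hb2 : ∀ y, ‖Fx G P p f y * (ms (bk H P) (pf P p2 y) : ℂ)‖ ≤ B * B2 := fun y => by
    rw [norm_mul, Complex.norm_real, Real.norm_of_nonneg (ms_nonneg _ _)]
    exact mul_le_mul (hB y) (hB2 _ _ (tri_pf hp2 P y)) (ms_nonneg _ _)
      ((norm_nonneg _).trans (hB y))
  rw [e1, Ex_split hp hG ho hs hf, ← Ex_sub (hs.tri hp) (posDef_bk hG fun l => ¬ P l) hb2 hB]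
  set w := fun y => ng (bk G fun l => ¬ P l) (toR y - pb y) with hwd
  have hw : Summable w := summable_ng (hs.tri hp) (posDef_bk hG fun l => ¬ P l)
  have hw0 : ∀ y, 0 ≤ w y := fun _ => ng_nonneg _ _
  have v2 := fib_var hp2 hH oH hs2
  rw [hb] at v2
  have hB' : ∀ y, |ms (bk G P) (pf P p y)| ≤ B1 := fun y => by
    rw [abs_of_nonneg (ms_nonneg _ _)]; exact hB1 _ _ (tri_pf hp P y)
  have s2 := summable_mul_real hw hw0
    (f := fun y => ms (bk G P) (pf P p y) * ms (bk G P) (pf P p y)) (C := B1 * B1) fun y => by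
      rw [abs_mul]; exact mul_le_mul (hB' y) (hB' y) (abs_nonneg _) ((abs_nonneg _).trans (hB' y))
  obtain ⟨s3, h4⟩ := tsum_cs
    (c := fun y => w y * (ms (bk G P) (pf P p y) * |ms (bk H P) (pf P p2 y) - 1|)) s2 v2.summable
    (fun y => mul_nonneg (hw0 y) (mul_self_nonneg _)) (fun y => mul_nonneg (hw0 y) (sq_nonneg _))
    (fun y => mul_nonneg (hw0 y) (mul_nonneg (ms_nonneg _ _) (abs_nonneg _)))
    fun y => le_of_eq (by rw [mul_pow, mul_pow, sq_abs]; ring)
  rw [v2.tsum_eq, ← ms_cop hp hp hG hG ho hs] at h4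
  have h5 : ∑' y, w y * (ms (bk G P) (pf P p y) * |ms (bk H P) (pf P p2 y) - 1|) ≤ 4 * √η := by
    rw [abs_le] at h0 h1 h2
    refine le_of_sq_le_sq ?_ (by positivity)
    rw [mul_pow, Real.sq_sqrt hη]
    refine h4.trans ((mul_le_mul h3 (by linarith : _ ≤ 4 * η)
      (v2.nonneg fun y => mul_nonneg (hw0 y) (sq_nonneg _)) (by norm_num)).trans (by linarith))
  refine (tsum_of_norm_bounded (s3.hasSum.mul_right C) fun y => ?_).trans
    (mul_le_mul_of_nonneg_right h5 hC)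
  rw [norm_mul, Complex.norm_real, Real.norm_of_nonneg (ng_nonneg _ _), mul_assoc]
  refine mul_le_mul_of_nonneg_left ?_ (ng_nonneg _ _)
  beta_reduce
  rw [← mul_sub_one, norm_mul, ← Complex.ofReal_one, ← Complex.ofReal_sub, Complex.norm_real,
    mul_right_comm]
  refine mul_le_mul_of_nonneg_right ?_ (abs_nonneg _)
  rw [mul_comm]
  exact norm_Ex_le (tri_pf hp P y) (posDef_bk hG P) fun x => hf _

end

end Vale.Agent.P057EN
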