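import Vale.Agent.P057EN.Sta
import Vale.Agent.P057DP.Plan
import Vale.Agent.P057SA.Eg

/-!
The correlations as one expectation on the star system.
-/

set_option linter.unusedSectionVars false

open Matrix Finset Real
open Vale.Agent.P267.H775 Vale.Agent.P057G Vale.Agent.P057PC Vale.Agent.P057TP Vale.Agent.P057ST
open Vale.Agent.P057GH Vale.Agent.P057DP Vale.Agent.P057SG
open Vale.Agent.P057T1 (ind ind_pos ind_neg ind_nonneg abs_ind)

namespace Vale.Agent.P057EN

noncomputable section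

variable {T : Tow} {C U J : Type} {s m : ℕ} {N : ℝ} [Fintype U] [DecidableEq U] [Fintype J]
  [DecidableEq J] {cl : U → C} {Z : Sys T U Unit}

theorem ee_sum {ι : Type} (t : Finset ι) (x : ι → ℝ) : ee (∑ i ∈ t, x i) = ∏ i ∈ t, ee (x i) := by
  classical
  induction t using Finset.induction_on with
  | empty => simp [ee_zero]
  | insert a t ha ih => rw [sum_insert ha, prod_insert ha, ee_add, ih]

theorem cor_neg (F : (Lb T cl Unit m → ℤ) → ℝ) (γ : ℝ) (w : PW T cl m → ℤ) (z : LS T cl m → ℤ)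
    (ψ : LS T cl m → ℝ) : cor Z F γ w z (-ψ) = (starRingEnd ℂ) (cor Z F γ w z ψ) := by
  simp only [cor, Complex.conj_tsum, map_mul, Complex.conj_ofReal, neg_dotProduct, ee_neg]

theorem cor_mul (r : ℝ) (F : (Lb T cl Unit m → ℤ) → ℝ) (γ : ℝ) (w : PW T cl m → ℤ)
    (z : LS T cl m → ℤ) (ψ : LS T cl m → ℝ) :
    cor Z (fun x => r * F x) γ w z ψ = r * cor Z F γ w z ψ := by
  simp only [cor, ch, mul_left_comm _ r, tsum_mul_left, Complex.ofReal_mul, mul_assoc]

theorem dc_eq (y : LT T cl m (Ov.one U) → ℝ) {l : Lb T cl Unit m} (hl : l.Pure)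
    (k : LT T cl m (Ov.one U)) (h1 : k.cd = l.cd)
    (h2 : k.fc.image (Sum.elim some fun _ => none) = P057SY.fo l) : dc y l = y k := by
  have hi : Function.Injective (Sum.elim some fun _ => none : U ⊕ Unit → Option U) := by
    rintro (a | a) (b | b) e <;> simp_all
  classical
  unfold dc
  rw [sum_eq_single k (fun k' _ e => if_neg fun n => e (lb_ext (n.1.trans h1.symm)
    (image_injective hi (n.2.1.trans (by convert h2.symm))) (Subsingleton.elim _ _))) (by simp),
    if_pos ⟨h1, by convert h2, hl⟩]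

theorem dc_pu (x : Lb T (cS cl J) Unit m → ℝ) (j : J) (l : PW T cl m) :
    dc (x ∘ lt (g := id) (O₂ := Ov.one U) (fun _ => rfl) j) l = x (emb J l.1) := by
  rw [dc_eq _ (Or.inl l.2) ⟨(l.1.cd, l.1.fc.image Sum.inl, none), l.1.2.1, inj_fj' l.1.2.2.1,
    (card_image_of_injective _ Sum.inl_injective).trans (l.1.card_eq l.2)⟩ rfl
    (image_image.trans (if_pos l.2).symm)]
  exact congrArg x (lb_ext rfl image_image ((emb_bs _).trans l.2).symm)

theorem dc_li (x : Lb T (cS cl J) Unit m → ℝ) (j : J) (l : LS T cl m) :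
    dc (x ∘ lt (g := id) (O₂ := Ov.one U) (fun _ => rfl) j) l = x (uL j l) := by
  rw [dc_eq _ l.2.1 ⟨(l.1.cd, fj () l.1.fc, none), l.1.2.1, inj_fj () l.1.2.2.1,
    (card_fj () _).trans (l.2.1.resolve_left l.2.2)⟩ rfl
    (((image_insert _ _ _).trans (congrArg _ image_image)).trans (if_neg l.2.2).symm)]
  exact congrArg x (lb_ext rfl ((image_insert _ _ _).trans (congrArg _ image_image)) rfl)

open Classical in
/-- the mean of the squared correlations -/
theorem low_cor (hT : T.Ok s N) (hZ : Z.Ok) {γ : ℝ} (hγ : 0 < γ) {κ : Type} [Fintype κ]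
    {F : κ → (Lb T cl Unit m → ℤ) → ℝ} (hF : ∀ a z, |F a z| ≤ 1)
    (ψ : κ → (PW T cl m → ℤ) → LS T cl m → ℝ) {Ω : (PW T cl m → ℤ) → (LS T cl m → ℤ) → Prop}
    {δ ε : ℝ} (hδ : 0 ≤ δ) (h : ∀ w z, Ω w z → ∀ a, δ ≤ ‖cor Z (F a) γ w z (ψ a w)‖)
    {Φ : (PW T cl m → ℤ) → ℝ} (hΦ : ∀ w, 0 ≤ Φ w ∧ Φ w ≤ 1)
    (h1 : ∀ w, Φ w ≠ 0 → ε ≤ ∑' z, wL Z w z * ind (Ω w z)) :
    (δ ^ 2) ^ Fintype.card κ * ε * ∑' w, wP Z w * Φ w ≤ ‖∑' w, (wP Z w : ℂ) * ∑' z, (wL Z w z : ℂ) *
      (Φ w * ∏ j : κ × Bool, cor Z (F j.1) γ w z (if j.2 then ψ j.1 w else -ψ j.1 w))‖ := by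
  have hG := pd_Gam hT.pd cl Unit m
  obtain ⟨B, hB⟩ := ms_bdd (posDef_blocks ((posDef_bk hG Li).smul hγ) (posDef_bk hG No))
  obtain ⟨B', hB'⟩ := ms_bdd (posDef_bk hG Li)
  have b1 : ∀ a w z, ‖cor Z (F a) γ w z (ψ a w)‖ ≤ B := fun a w z => by
    rw [cor_eq hT hZ hγ (hF a)]
    refine (norm_Ex_le (tri_pJ hT hZ w z)
      (posDef_blocks ((posDef_bk hG Li).smul hγ) (posDef_bk hG No)) (C := 1) fun y => ?_).trans
      ((one_mul _).trans_le (hB _ _ (tri_pJ hT hZ w z)))
    rw [norm_mul, norm_ee, mul_one, Complex.norm_real]; exact hF _ _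
  have tL : ∀ w, Tri (fun l : LS T cl m => T.lv l.1.cd) fun z => cL Z w (toR z) :=
    fun w i z z' k => pr_congr hT hZ fun l _ _ e => by
      unfold gl3
      split_ifs with a b
      exacts [rfl, congrArg Int.cast (k ⟨l, b, a⟩ e), rfl]
  have sP : Summable (wP Z : (PW T cl m → ℤ) → ℝ) := summable_ng
    (lv := fun l : PW T cl m => T.lv l.1.cd) (p := fun w l => Z.pr cl m (gl3 (toR w) 0 0) l)
    (fun i z z' k => pr_congr hT hZ fun l _ _ e => by
      unfold gl3
      split_ifs with a b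
      exacts [congrArg Int.cast (k ⟨l, a⟩ e), rfl, rfl]) (posDef_bk hG Pu)
  have sL : ∀ w : PW T cl m → ℤ, Summable (wL Z w) := fun w => summable_ng (tL w) (posDef_bk hG Li)
  have p0 : ∀ w : PW T cl m → ℤ, 0 ≤ wP Z w := fun _ => ng_nonneg _ _
  have l0 : ∀ (w : PW T cl m → ℤ) z, 0 ≤ wL Z w z := fun _ _ => ng_nonneg _ _
  let R : (PW T cl m → ℤ) → (LS T cl m → ℤ) → ℝ := fun w z => ∏ a, ‖cor Z (F a) γ w z (ψ a w)‖ ^ 2
  have r0 : ∀ w z, 0 ≤ R w z := fun _ _ => prod_nonneg fun _ _ => sq_nonneg _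
  have r1 : ∀ w z, |R w z| ≤ ∏ _a : κ, B ^ 2 := fun w z => by
    rw [abs_of_nonneg (r0 w z)]
    exact prod_le_prod (fun _ _ => sq_nonneg _) fun a _ =>
      pow_le_pow_left₀ (norm_nonneg _) (b1 a w z) 2
  have r2 : ∀ w, |∑' z, wL Z w z * R w z| ≤ (∏ _a : κ, B ^ 2) * B' := fun w => by
    rw [abs_of_nonneg (tsum_nonneg fun z => mul_nonneg (l0 w z) (r0 w z))]
    refine le_trans ?_ (mul_le_mul_of_nonneg_left (hB' _ _ (tL w)) ((abs_nonneg _).trans (r1 0 0)))
    rw [ms, ← tsum_mul_left]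
    exact (summable_mul_real (sL w) (l0 w) (r1 w)).tsum_le_tsum (fun z => by
      rw [mul_comm]; exact mul_le_mul_of_nonneg_right ((le_abs_self _).trans (r1 w z)) (l0 w z))
      ((sL w).mul_left _)
  have e : ∀ w z, ∏ j : κ × Bool, cor Z (F j.1) γ w z (if j.2 then ψ j.1 w else -ψ j.1 w) =
      (R w z : ℂ) := fun w z => by
    simp only [R, Fintype.prod_prod_type, Fintype.prod_bool, if_true, Bool.false_eq_true, if_false,
      cor_neg, Complex.mul_conj, Complex.normSq_eq_norm_sq, Complex.ofReal_prod]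
  simp only [e, ← Complex.ofReal_mul, ← Complex.ofReal_tsum, Complex.norm_real,
    mul_left_comm (wL Z _ _), tsum_mul_left]
  refine le_trans ?_ (le_abs_self _)
  rw [← tsum_mul_left]
  refine Summable.tsum_le_tsum (fun w => ?_) ((summable_mul_real sP p0 (C := 1) fun w => by
    rw [abs_of_nonneg (hΦ w).1]; exact (hΦ w).2).mul_left _)
    (summable_mul_real sP p0 (C := 1 * ((∏ _a : κ, B ^ 2) * B')) fun w => by
      rw [abs_mul, abs_of_nonneg (hΦ w).1]
      exact mul_le_mul (hΦ w).2 (r2 w) (abs_nonneg _) zero_le_one)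
  rw [mul_left_comm, mul_comm _ (Φ w)]
  by_cases k : Φ w = 0
  · simp [k]
  refine mul_le_mul_of_nonneg_left (mul_le_mul_of_nonneg_left
    ((mul_le_mul_of_nonneg_left (h1 w k) (pow_nonneg (sq_nonneg δ) _)).trans ?_) (hΦ w).1) (p0 w)
  rw [← tsum_mul_left]
  refine ((summable_mul_real (sL w) (l0 w) fun _ => abs_ind _).mul_left _).tsum_le_tsum
    (fun z => ?_) (summable_mul_real (sL w) (l0 w) (r1 w))
  rw [mul_left_comm]
  refine mul_le_mul_of_nonneg_left ?_ (l0 w z)
  by_cases o : Ω w z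
  · rw [ind_pos o, mul_one, ← card_univ, ← prod_const]
    exact prod_le_prod (fun _ _ => sq_nonneg _) fun a _ => pow_le_pow_left₀ hδ (h w z o a) 2
  · rw [ind_neg o, mul_zero]; exact r0 w z

/-- the function on a cell as a function of the point -/
def F0 (Z : Sys T U Unit) (m : ℕ) (f : ℤ → ℝ) (c : Finset U) (x : T.ι → ℤ) : ℝ :=
  ∑' y : {a // m ≤ T.lv a} → ℤ, ng (bk T.G fun a => m ≤ T.lv a) (fun a => (y a : ℝ) -
    MvPolynomial.eval (toR fun a => if h : m ≤ T.lv a then y ⟨a, h⟩ else x a)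
      (Z.fam.at' (some ()) c a)) *
    f (Z.off c () + T.el ⬝ᵥ fun a => if h : m ≤ T.lv a then y ⟨a, h⟩ else x a)

theorem sin (s : ℕ) : SIN s := by
  classical
  refine ⟨s + 17, by omega, fun N P T n p R _ _ Z f θ A γ X Y κ _ _ ψ F Ω h hX hY _ hγ _ hκ hF _ hc =>
    ?_⟩
  have x1 : (s : ℝ) + 17 ≤ P (n + 2) := by exact_mod_cast h.lad.big (n + 2)
  have s0 : (0 : ℝ) ≤ s := Nat.cast_nonneg _
  have g1 : 1 ≤ γ := (one_le_exp (pow_nonneg (by linarith) _)).trans hγ
  set M := exp (s * (17 * P (n + 2) ^ 2))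
  set Ce := (cells (Prod.fst : Wv n p → Fin n)).image (image (Sum.inl : _ → Uv n p R))
  have hM : 0 < M := exp_pos _
  have ha := antitone_nat_of_succ_le h.lad.anti
  have fM := fun z c => P057SA.F_le (cl := cU) h.ok h.lad.one h.zok h.u01 (by linarith)
    (fun e (he : n + 2 ≤ e) => ⟨(h.cx e).1.trans (ha he), (h.cx e).2.trans (ha he)⟩) z c ()
  let g : κ → Finset (Uv n p R) → (T.ι → ℤ) → ℝ := fun a c x =>
    if F a = PG Z f then max (-1) (min 1 (F0 Z (n + 2) f c x / M)) else 1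
  let ρ : κ → ℝ := fun a =>
    if F a = PG Z f then (M ^ (cells (Prod.fst : Wv n p → Fin n)).card)⁻¹ else 1
  have b1 : ∀ a c x, |g a c x| ≤ 1 := fun a c x => by
    simp only [g]
    split_ifs
    exacts [abs_le.2 ⟨le_max_left _ _, max_le (by norm_num) (min_le_left _ _)⟩, abs_one.le]
  have e1 : ∀ a z, ∏ c ∈ Ce, g a c (pt z (some ()) c) = ρ a * F a z := fun a z => by
    simp only [g, ρ]
    split_ifs with k
    · rw [k, PG, prod_image fun _ _ _ _ e => image_injective Sum.inl_injective e, ← prod_const,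
        ← prod_inv_distrib, ← prod_mul_distrib]
      refine prod_congr rfl fun c _ => ?_
      change max _ (min _ (Z.F cU (n + 2) f z _ () / M)) = _
      rw [min_eq_right ((div_le_one hM).2 (fM _ _)), max_eq_right
        (le_trans (by norm_num) (div_nonneg (F_nonneg Z h.u01 _ _ _) hM.le)), div_eq_inv_mul]
    · rw [(hF a).resolve_left k]; simp
  have b2 : ∀ a z, |ρ a * F a z| ≤ 1 := fun a z => by
    rw [← e1, abs_prod]
    exact prod_le_one (fun _ _ => abs_nonneg _) fun _ _ => b1 _ _ _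
  have x2 : P (n + 2) ^ (s + 4) ≤ X ^ (s + 4) := pow_le_pow_left₀ (by linarith) hX _
  have b3 : ∀ a, exp (-X ^ (s + 4)) ≤ ρ a := fun a => by
    simp only [ρ]
    split_ifs
    · rw [exp_neg]
      exact inv_anti₀ (by positivity) ((P057SA.pw_le h le_rfl).trans (exp_le_exp.2 x2))
    · exact exp_le_one_iff.2 (neg_nonpos.2 (pow_nonneg (by linarith) _))
  refine ⟨g, b1, fun y Φ _ _ hΦ h1 h2 => ?_⟩
  let a : Finset (Uv n p R ⊕ κ × Bool) → Option Unit → ℝ := fun A o =>
    if Kp A o then 1 else 4 * (1 + Fintype.card (κ × Bool) * (γ + 4))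
  have x3 : X ^ (s + 17) = X ^ (s + 4) * X ^ 13 := by ring
  have x4 : 1 ≤ X ^ (s + 4) := one_le_pow₀ (by linarith)
  have x5 : X ≤ X ^ (s + 4) := le_self_pow₀ (by linarith) (by omega)
  have x6 : 44 * X ≤ X ^ 13 := by
    have := one_le_pow₀ (n := 10) (show 1 ≤ X by linarith)
    nlinarith [mul_le_mul_of_nonneg_left this (pow_nonneg (show 0 ≤ X by linarith) 3), mul_nonneg
      (show 0 ≤ X by linarith) (show 0 ≤ X ^ 2 - 44 by nlinarith)]
  have k0 : (0 : ℝ) ≤ Fintype.card κ := Nat.cast_nonneg _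
  have a0 : ∀ A o, 0 < a A o ∧ a A o ≤ exp (X ^ (s + 17)) * γ := fun A o => by
    have : 44 * X ≤ exp (X ^ (s + 17)) := by nlinarith [add_one_le_exp (X ^ (s + 17))]
    simp only [a, Fintype.card_prod, Fintype.card_bool]
    push_cast
    split_ifs
    · exact ⟨one_pos, by nlinarith⟩
    · exact ⟨by positivity, by nlinarith [mul_le_mul_of_nonneg_right hκ (show 0 ≤ γ by linarith),
        mul_le_mul_of_nonneg_right this (show 0 ≤ γ by linarith)]⟩
  by_contra hn
  push Not at hn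
  have h3 := star (J := κ × Bool) h.ok h.zok (γ := γ) (by linarith) (Φ := fun w _ => Φ w) (B := 1)
    (fun w _ => by rw [Complex.norm_real, Real.norm_of_nonneg (hΦ w).1]; exact (hΦ w).2)
    (F := fun j z => ρ j.1 * F j.1 z) (fun j => b2 j.1)
    (fun j w => if j.2 then ψ j.1 w else -ψ j.1 w) (a := a) (fun A o => (a0 A o).1)
    (fun A k => if_pos ⟨rfl, k⟩) (fun A o k => (if_neg k).ge) fun c hc => by
      refine le_trans (le_of_eq ?_)
        (hn a c (fun A o k => if_pos k) (fun l k => hc l k.1 k.2) a0).le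
      congr 2
      funext x
      refine congrArg (_ * ·) ?_
      simp only [Fs]
      rw [ee_sum, ← prod_mul_distrib]
      refine prod_congr rfl fun j _ => congrArg₂ (· * ·) ?_ (congrArg ee ?_)
      · rw [← e1, Complex.ofReal_prod]
        refine prod_congr rfl fun c hc => ?_
        obtain ⟨c, hd, rfl⟩ := mem_image.1 hc
        rw [pt_cj]
        · rfl
        rintro _ a _ b e
        obtain ⟨u, hu, rfl⟩ := mem_image.1 a
        obtain ⟨v, hv, rfl⟩ := mem_image.1 b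
        rw [(mem_cells.1 hd).1 hu hv (Option.some_injective _ e)]
      · have e2 : rp (dc (toR x ∘ lt (g := id) (O₂ := Ov.one _) (fun _ => rfl) j)) =
            fun l => x (emb _ l.1) := funext fun l => by rw [rp, dc_pu, toR_apply, round_intCast]
        have e3 : (fun l : Lg T n p R => dc (toR x ∘ lt (g := id) (O₂ := Ov.one _)
            (fun _ => rfl) j) l) = toR fun l => x (uL j l) := funext fun l => dc_li _ j l
        refine Eq.trans ?_ (congrArg (_ * ·) (congrArg₂ (ψ j.1 · ⬝ᵥ ·) e2 e3)).symm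
        split_ifs <;> simp
  have h4 := low_cor h.ok h.zok (γ := γ) (by linarith) b2 ψ (δ := exp (-X ^ (s + 4)) * exp (-X))
    (by positivity) (fun w z o a => by
      rw [cor_mul, norm_mul, Complex.norm_real, Real.norm_of_nonneg ((exp_pos _).le.trans (b3 a))]
      exact mul_le_mul (b3 a) (hc w z o a) (exp_pos _).le ((exp_pos _).le.trans (b3 a))) hΦ h1
  refine absurd ((mul_le_mul_of_nonneg_left h2 (by positivity)).trans (h4.trans h3)) (not_le.2 ?_)
  rw [← exp_add, ← exp_nat_mul, ← exp_nat_mul, ← exp_add, ← exp_add, exp_lt_exp]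
  push_cast
  nlinarith [mul_le_mul_of_nonneg_right hκ (show 0 ≤ X ^ (s + 4) + X by linarith),
    mul_le_mul_of_nonneg_left x6 (show 0 ≤ X ^ (s + 4) by linarith),
    mul_le_mul_of_nonneg_left x5 (show 0 ≤ X by linarith),
    mul_le_mul_of_nonneg_left x4 (show 0 ≤ X by linarith)]

end

end Vale.Agent.P057EN
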