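import Vale.Agent.P057EN.Prd
import Vale.Agent.P057EN.Ref
import Vale.Agent.P057SG.Defs
import Vale.Agent.P057PL.Pull

/-!
Displacements of the base point as vertices of a new class.
-/

set_option linter.unusedSectionVars false

open Matrix Finset
open Vale.Agent.P267.H775 Vale.Agent.P057G Vale.Agent.P057PC Vale.Agent.P057TP Vale.Agent.P057ST
open Vale.Agent.P057GH Vale.Agent.P057DP Vale.Agent.P057SG

namespace Vale.Agent.P057EN

noncomputable section

variable {T : Tow} {C U J R : Type} {s m : ℕ} {N : ℝ} [Fintype U] [DecidableEq U] [Fintype J]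
  [DecidableEq J] {cl : U → C} {Z : Sys T U Unit}

theorem pr_pure (hZ : Z.Ok) {x x' : Lb T cl Unit m → ℝ} (h : ∀ k, k.Pure → x k = x' k)
    {l : Lb T cl Unit m} (hl : l.Pure) : Z.pr cl m x l = Z.pr cl m x' l := by
  rw [Sys.pr, Sys.pr, Fam.alt_eq, Fam.alt_eq, ← sub_eq_zero, ← altL_sub, altL_eq_sum]
  refine sum_eq_zero fun μ hμ => if_neg fun e => MvPolynomial.mem_support_iff.1 hμ ?_
  refine P057PL.coeff_of_dvd (P057PL.dvd_eval (P057PL.lift_dvd
    (fun k => (em k.Pure).imp (h k) (P057PL.mon_dvd2 k)) _) _) ?_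
  have h1 := card_spW_le μ
  rw [deg_of_hom ((JH.eval (hZ.fam.hom l.bs l.cd) (lift_hom x _)).sub
    (JH.eval (hZ.fam.hom l.bs l.cd) (lift_hom x' _))) (MvPolynomial.mem_support_iff.1 hμ), e] at h1
  rcases hl with k | k
  · have := l.card_eq k; omega
  · omega

theorem ort_lv (hT : T.Ok s N) {W S : Type} [Fintype W] [DecidableEq W] [Fintype S] {cl : W → C}
    {D : Lb T cl S m → Prop} (h : ∀ l l' : Lb T cl S m, l.fc = l'.fc → l.bs = l'.bs →
      T.lv l.cd = T.lv l'.cd → D l → D l') : Ort (Gam T cl S m) D :=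
  fun i j hi hj => by_contra fun e => hj (h i j (Gam_ne e).1 (Gam_ne e).2 (by_contra fun k => e (by
    simp only [Gam, of_apply, hT.blk _ _ k, ite_self])) hi)

/-- the classes of the star system -/
def cS (cl : U → C) (J : Type) : U ⊕ J → Option C := Sum.elim (fun v => some (cl v)) fun _ => none

omit [Fintype U] [DecidableEq U] [Fintype J] [DecidableEq J] in
theorem cS_inl (w w' : U) : cS cl J (Sum.inl w) = cS cl J (Sum.inl w') ↔ cl w = cl w' :=
  Option.some_inj

/-- the star system -/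
def zS (Z : Sys T U Unit) (J : Type) [Fintype J] : Sys T (U ⊕ J) Unit :=
  pbo Z (Sum.elim some fun _ => none) Unit

theorem ok_zS (hZ : Z.Ok) : (zS Z J).Ok := ok_pbo hZ _ Unit

/-- old labels as new labels -/
def emb (J : Type) [Fintype J] [DecidableEq J] (l : Lb T cl Unit m) : Lb T (cS cl J) Unit m :=
  P057GH.lift cS_inl id l

/-- the face with the new vertex -/
def fj (j : J) (A : Finset U) : Finset (U ⊕ J) := insert (Sum.inr j) (A.image Sum.inl)

theorem inr_not (j : J) (A : Finset U) : Sum.inr j ∉ A.image (Sum.inl : U → U ⊕ J) := by simp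

theorem card_fj (j : J) (A : Finset U) : (fj j A).card = A.card + 1 := by
  rw [fj, card_insert_of_notMem (inr_not j A), card_image_of_injective _ Sum.inl_injective]

theorem inj_fj (j : J) {A : Finset U} (h : Set.InjOn cl A) : Set.InjOn (cS cl J) (fj j A) := by
  intro v hv w hw e
  simp only [fj, coe_insert, coe_image, Set.mem_insert_iff, Set.mem_image, mem_coe] at hv hw
  rcases hv with rfl | ⟨v, hv, rfl⟩ <;> rcases hw with rfl | ⟨w, hw, rfl⟩
  · rfl
  · cases e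
  · cases e
  · rw [h hv hw (Option.some_injective _ e)]

theorem inj_fj' {A : Finset U} (h : Set.InjOn cl A) :
    Set.InjOn (cS cl J) (A.image Sum.inl : Finset (U ⊕ J)) := by
  rintro _ x _ y e
  obtain ⟨u, hu, rfl⟩ := mem_image.1 x
  obtain ⟨v, hv, rfl⟩ := mem_image.1 y
  rw [h hu hv (Option.some_injective _ e)]

theorem fj_inj {j j' : J} {A A' : Finset U} (h : fj j A = fj j' A') : j = j' ∧ A = A' := by
  have h1 : j = j' := by simpa [fj] using Finset.ext_iff.1 h (Sum.inr j)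
  refine ⟨h1, Finset.ext fun v => ?_⟩
  simpa [fj] using Finset.ext_iff.1 h (Sum.inl v)

theorem bs_some {l : Lb T cl Unit m} (h : ¬ Pu l) : l.bs = some () := by
  cases e : l.bs
  exacts [absurd e h, rfl]

theorem bs_or {W : Type} {cl : W → C} (l : Lb T cl Unit m) : l.bs = none ∨ l.bs = some () := by
  cases l.bs
  exacts [Or.inl rfl, Or.inr rfl]

/-- the label of a displacement -/
def uL (j : J) (l : LS T cl m) : Lb T (cS cl J) Unit m :=
  ⟨(l.1.cd, fj j l.1.fc, none), l.1.2.1, inj_fj j l.1.2.2.1,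
    (card_fj j _).trans (l.2.1.resolve_left l.2.2)⟩

theorem no_lt (l : NP T cl m) : l.1.fc.card + 1 < T.lv l.1.cd :=
  lt_of_le_of_ne (l.1.card_lt (bs_some fun h => l.2 (Or.inl h))) fun h => l.2 (Or.inr h)

/-- the label of a nonlinear label at a displaced point -/
def uN (j : J) (l : NP T cl m) : Lb T (cS cl J) Unit m :=
  ⟨(l.1.cd, fj j l.1.fc, some ()), l.1.2.1, inj_fj j l.1.2.2.1, (card_fj j _).trans_lt (no_lt l)⟩

/-- the old configuration at the displaced base point -/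
def cj [CommRing R] (j : J) (x : Lb T (cS cl J) Unit m → R) (l : Lb T cl Unit m) : R :=
  x (emb J l) + tot x () l.cd (fj j l.fc)

variable [CommRing R]

theorem tot_emb (x : Lb T (cS cl J) Unit m → R) (l : Lb T cl Unit m) :
    tot x () l.cd (l.fc.image Sum.inl) = x (emb J l) := tot_lab x (bs_or (emb J l))

theorem cj_pu (j : J) (x : Lb T (cS cl J) Unit m → R) {l : Lb T cl Unit m} (h : Pu l) :
    cj j x l = x (emb J l) := by
  rw [cj, tot_big _ _ (by rw [card_fj, l.card_eq h]; omega), add_zero]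

theorem cj_li (j : J) (x : Lb T (cS cl J) Unit m → R) (l : LS T cl m) :
    cj j x l = x (emb J l) + x (uL j l) := congrArg (_ + ·) (tot_lab x (bs_or (uL j l)))

theorem cj_no (j : J) (x : Lb T (cS cl J) Unit m → R) (l : NP T cl m) :
    cj j x l = x (emb J l) + x (uN j l) := congrArg (_ + ·) (tot_lab x (bs_or (uN j l)))

theorem cj_eq (j : J) (x : Lb T (cS cl J) Unit m → R) : cj j x = gl3 (fun l => x (emb J l))
    ((fun l : LS T cl m => x (emb J l)) + fun l => x (uL j l))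
    fun l => x (emb J l) + x (uN j l) := by
  funext l
  unfold gl3
  split_ifs with a b
  exacts [cj_pu j x a, cj_li j x ⟨l, b, a⟩, cj_no j x ⟨l, b⟩]

theorem pt_cj (j : J) (x : Lb T (cS cl J) Unit m → R) {B : Finset U} (hB : Set.InjOn cl B) :
    pt (cj j x) (some ()) B = pt x (some ()) (fj j B) := by
  funext a
  rw [pt_tot, pt_tot, fj, sum_powerset_insert (inr_not j B), powerset_image,
    sum_image fun _ _ _ _ e => image_injective Sum.inl_injective e,
    sum_image fun _ _ _ _ e => image_injective Sum.inl_injective e, ← sum_add_distrib]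
  refine sum_congr rfl fun A hA => ?_
  change _ = _ + tot x () a (fj j A)
  by_cases h1 : m ≤ T.lv a
  · simp only [tot_high _ _ _ h1, add_zero]
  by_cases h2 : T.lv a < A.card
  · rw [tot_big _ _ h2, tot_big _ _ (by rwa [card_image_of_injective _ Sum.inl_injective]),
      tot_big _ _ (by rw [card_fj]; omega), add_zero]
  obtain ⟨l, rfl, rfl, h3⟩ := exists_lab (T := T) (cl := cl) () (not_le.1 h1)
    (hB.mono (coe_subset.2 (mem_powerset.1 hA))) (not_lt.1 h2)
  rw [tot_lab _ h3, tot_emb, cj]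

theorem at_zS {B : Finset U} (hB : Set.InjOn cl B) (a : T.ι) :
    (zS Z J).fam.at' (some ()) (B.image Sum.inl) a = Z.fam.at' (some ()) B a := by
  rw [zS, at_pbo Z (cl₁ := cS cl J) (fun v v' w h h' => by
    cases v <;> cases v' <;> simp_all) _ (inj_fj' hB), img_image]
  congr 1
  ext w
  simp [mem_img]

theorem pr_emb (hZ : Z.Ok) (x : Lb T (cS cl J) Unit m → ℝ) (l : Lb T cl Unit m) :
    Z.pr cl m (x ∘ emb J) l = (zS Z J).pr (cS cl J) m x (emb J l) := by
  have e := fun (y : Lb T (cS cl J) Unit m → ℝ) B => funext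
    (pt_lift (cS_inl (J := J)) Sum.inl_injective Function.injective_id y (some ()) B)
  refine (pr_map hZ (ok_zS hZ) (bs_or l) (fun B => B.image Sum.inl)
    (fun B hB => (inj_fj' (l.2.2.1.mono (coe_subset.2 hB)))) (fun B _ => e x B)
    fun B hB => (at_zS (l.2.2.1.mono (coe_subset.2 hB)) _).symm).trans ?_
  refine Eq.trans ?_ (tot_lab ((zS Z J).pr (cS cl J) m x ∘ emb J) (bs_or l))
  rw [← dlt_tot]
  exact dlt_congr fun B _ => (congrFun (e _ B) _).symm

theorem pr_cj (hZ : Z.Ok) (j : J) (x : Lb T (cS cl J) Unit m → ℝ) (l : Lb T cl Unit m) :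
    Z.pr cl m (cj j x) l = cj j ((zS Z J).pr (cS cl J) m x) l := by
  refine (pr_map hZ (ok_zS hZ) (bs_or l) (fj j)
    (fun B hB => inj_fj j (l.2.2.1.mono (coe_subset.2 hB)))
    (fun B hB => pt_cj j x (l.2.2.1.mono (coe_subset.2 hB))) fun B hB =>
      ((at_pbo_insert Z rfl _ _ _).trans (at_zS (l.2.2.1.mono (coe_subset.2 hB)) _)).symm).trans ?_
  rw [← tot_lab (cj j ((zS Z J).pr (cS cl J) m x)) (bs_or l), ← dlt_tot]
  exact dlt_congr fun B hB => (congrFun (pt_cj j _ (l.2.2.1.mono (coe_subset.2 hB))) _).symm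

theorem gl3_pu {w : PW T cl m → R} {x : LS T cl m → R} {y : NP T cl m → R} {l : Lb T cl Unit m}
    (h : Pu l) : gl3 w x y l = w ⟨l, h⟩ := dif_pos h

theorem gl3_li {w : PW T cl m → R} {x : LS T cl m → R} {y : NP T cl m → R} {l : Lb T cl Unit m}
    (h : Li l) : gl3 w x y l = x ⟨l, h⟩ := (dif_neg h.2).trans (dif_pos h.1)

theorem gl3_no {w : PW T cl m → R} {x : LS T cl m → R} {y : NP T cl m → R} {l : Lb T cl Unit m}
    (h : No l) : gl3 w x y l = y ⟨l, h⟩ := (dif_neg fun k => h (Or.inl k)).trans (dif_neg h)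

/-- the centre of a displacement is linear -/
theorem pr_uL (hT : T.Ok s N) (hZ : Z.Ok) (j : J) (x : Lb T (cS cl J) Unit m → ℤ) (l : LS T cl m) :
    (zS Z J).pr (cS cl J) m (toR x) (uL j l) =
      cL Z (fun k => x (emb J k.1)) (toR fun k => x (uL j k)) l -
        cL Z (fun k => x (emb J k.1)) 0 l := by
  let y : Lb T (cS cl J) Unit m → ℝ := fun k => if k.bs = none then x k else 0
  have h1 := pr_cj hZ j y l
  rw [cj_li, ← pr_emb hZ, ← sub_eq_iff_eq_add'] at h1
  rw [pr_congr hT (ok_zS hZ) (x := toR x) (x' := y) fun k _ h _ => (if_pos (h.elim id id)).symm, ← h1]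
  refine congrArg₂ (· - ·) (pr_pure hZ (fun k hk => ?_) l.2.1) (pr_pure hZ (fun k hk => ?_) l.2.1)
  · by_cases e : Pu k
    · rw [cj_pu _ _ e, gl3_pu e]; exact if_pos (congrArg (Option.map id) e)
    · rw [cj_li j y ⟨k, hk, e⟩, gl3_li ⟨hk, e⟩]
      exact (congrArg₂ (· + ·) (if_neg (by simp [emb, lift_bs, bs_some e])) (if_pos rfl)).trans
        (zero_add _)
  · by_cases e : Pu k
    · rw [gl3_pu e]; exact if_pos (congrArg (Option.map id) e)
    · rw [gl3_li ⟨hk, e⟩]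
      simp [y, emb, lift_bs, bs_some e]

theorem emb_inj : (emb J : Lb T cl Unit m → _).Injective :=
  lift_inj cS_inl Sum.inl_injective Function.injective_id

theorem emb_bs (l : Lb T cl Unit m) : (emb J l).bs = l.bs := Option.map_id_apply

theorem mem_emb {l : Lb T (cS cl J) Unit m} (h : ∀ j, Sum.inr j ∉ l.fc) : ∃ k, emb J k = l :=
  mem_lift cS_inl (k := id) Sum.inl_injective (B := univ) (o := l.bs) (fun v hv => by
    cases v with
    | inl v => exact mem_image_of_mem _ (mem_univ v)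
    | inr j => exact absurd hv (h j)) (Or.inr Option.map_id_apply.symm)

theorem qq_emb' (hT : T.Ok s N) {Q : Lb T cl Unit m → Prop} [Fintype {l // Q l}]
    (hQ : ∀ l l' : Lb T cl Unit m, l.fc = l'.fc → l.bs = l'.bs → T.lv l.cd = T.lv l'.cd →
      Q l → Q l') (v : Lb T (cS cl J) Unit m → ℝ) :
    qq (bk (Gam T cl Unit m) Q) (fun l => v (emb J l.1)) ≤ qq (Gam T (cS cl J) Unit m) v := by
  refine qq_emb (pd_Gam hT.pd _ Unit m) (i := fun l : {l // Q l} => emb J l.1)
    (fun _ _ e => Subtype.ext (emb_inj e))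
    (fun _ _ => (Gam_lift _ Sum.inl_injective Function.injective_id _ _).symm) (ort_lv hT ?_) v
  rintro _ l' h1 h2 h3 ⟨k, rfl⟩
  obtain ⟨k', rfl⟩ := mem_emb (l := l') fun j => h1 ▸ inr_not j _
  exact ⟨⟨k', hQ _ _ (image_injective Sum.inl_injective h1) (by rwa [emb_bs, emb_bs] at h2) h3
    k.2⟩, rfl⟩

theorem qq_uL (hT : T.Ok s N) (j : J) (v : Lb T (cS cl J) Unit m → ℝ) :
    qq (bk (Gam T cl Unit m) Li) (fun l => v (uL j l)) ≤ qq (Gam T (cS cl J) Unit m) v := by
  refine qq_emb (pd_Gam hT.pd _ Unit m) (i := uL j) (fun k k' e => Subtype.ext (lb_ext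
    (congrArg Lb.cd e :) (fj_inj (congrArg Lb.fc e)).2
    ((bs_some k.2.2).trans (bs_some k'.2.2).symm))) (fun k k' => ?_) (ort_Gam ?_) v
  · simp only [bk, Gam, submatrix_apply, of_apply, bs_some k.2.2, bs_some k'.2.2]
    congr 1
    exact propext ⟨fun e => ⟨congrArg (fj j) e.1, rfl⟩, fun e => ⟨(fj_inj e.1).2, trivial⟩⟩
  · rintro _ l' h1 h2 ⟨k, rfl⟩
    have h3 : k.1.fc.card + 1 = T.lv l'.cd := by rw [← l'.card_eq h2.symm, ← h1, ← card_fj j]; rfl
    exact ⟨⟨⟨(l'.cd, k.1.fc, some ()), l'.2.1, k.1.2.2.1, (Nat.lt_succ_self _).trans_eq h3⟩,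
      Or.inr h3, fun e => by cases e⟩, lb_ext rfl h1 h2⟩

theorem qq_uN (hT : T.Ok s N) (j : J) (v : Lb T (cS cl J) Unit m → ℝ) :
    qq (bk (Gam T cl Unit m) No) (fun l => v (uN j l)) ≤ qq (Gam T (cS cl J) Unit m) v := by
  have b : ∀ k : NP T cl m, k.1.bs = some () := fun k => bs_some fun h => k.2 (Or.inl h)
  refine qq_emb (pd_Gam hT.pd _ Unit m) (i := uN j) (fun k k' e => Subtype.ext (lb_ext
    (congrArg Lb.cd e :) (fj_inj (congrArg Lb.fc e)).2 ((b k).trans (b k').symm)))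
    (fun k k' => ?_) (ort_Gam ?_) v
  · simp only [bk, Gam, submatrix_apply, of_apply, b k, b k']
    congr 1
    exact propext ⟨fun e => ⟨congrArg (fj j) e.1, rfl⟩, fun e => ⟨(fj_inj e.1).2, trivial⟩⟩
  · rintro _ l' h1 h2 ⟨k, rfl⟩
    have h3 : k.1.fc.card + 1 < T.lv l'.cd := by
      rw [← card_fj j]; exact (congrArg card h1).trans_lt (l'.card_lt h2.symm)
    exact ⟨⟨⟨(l'.cd, k.1.fc, some ()), l'.2.1, k.1.2.2.1, (Nat.lt_succ_self _).trans h3⟩,
      fun e => e.elim (fun e => by cases e) h3.ne⟩, lb_ext rfl h1 h2⟩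

/-- the variables of the correlations -/
abbrev KK (T : Tow) (cl : U → C) (m : ℕ) (J : Type) : Type :=
  PW T cl m ⊕ LS T cl m ⊕ (LS T cl m ⊕ NP T cl m) × J

/-- the section -/
def eK : KK T cl m J → Lb T (cS cl J) Unit m :=
  Sum.elim (fun l => emb J l.1) (Sum.elim (fun l => emb J l.1)
    fun k => Sum.elim (uL k.2) (uN k.2) k.1)

/-- the second summand -/
def gK : KK T cl m J → Option (NP T cl m) :=
  Sum.elim (fun _ => none) (Sum.elim (fun _ => none) fun k => k.1.getRight?)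

open Classical in
/-- new labels to old variables -/
def SK (T : Tow) (cl : U → C) (m : ℕ) (J : Type) [Fintype J] [DecidableEq J] :
    Matrix (KK T cl m J) (Lb T (cS cl J) Unit m) ℤ := Matrix.of fun k l =>
  (if eK k = l then 1 else 0) + (gK k).elim 0 fun a => if emb J a.1 = l then 1 else 0

theorem SK_mul (x : Lb T (cS cl J) Unit m → R) (k : KK T cl m J) :
    ((SK T cl m J).map (Int.cast : ℤ → R) *ᵥ x) k =
      x (eK k) + (gK k).elim 0 fun a => x (emb J a.1) := by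
  simp only [SK, mulVec, dotProduct, map_apply, of_apply, Int.cast_add, add_mul, sum_add_distrib]
  cases gK k <;> simp

theorem eK_inj : (eK : KK T cl m J → _).Injective := by
  have n : ∀ (l : Lb T cl Unit m) (k : (LS T cl m ⊕ NP T cl m) × J),
      emb J l ≠ Sum.elim (uL k.2) (uN k.2) k.1 := by
    rintro l ⟨k | k, j⟩ e <;>
      exact inr_not j l.fc ((congrArg Lb.fc e).symm ▸ mem_insert_self _ _ : _ ∈ (emb J l).fc)
  rintro (k | k | k) (k' | k' | k') e
  · exact congrArg _ (Subtype.ext (emb_inj e))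
  · exact absurd (emb_inj e ▸ k.2) k'.2.2
  · exact absurd e (n _ _)
  · exact absurd ((emb_inj e).symm ▸ k'.2) k.2.2
  · exact congrArg _ (congrArg _ (Subtype.ext (emb_inj e)))
  · exact absurd e (n _ _)
  · exact absurd e.symm (n _ _)
  · exact absurd e.symm (n _ _)
  · obtain ⟨k | k, j⟩ := k <;> obtain ⟨k' | k', j'⟩ := k'
    · obtain ⟨rfl, h⟩ := fj_inj (congrArg Lb.fc e)
      rw [Subtype.ext (lb_ext (congrArg Lb.cd e :) h
        ((bs_some k.2.2).trans (bs_some k'.2.2).symm)) (a1 := k) (a2 := k')]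
    · cases congrArg Lb.bs e
    · cases congrArg Lb.bs e
    · obtain ⟨rfl, h⟩ := fj_inj (congrArg Lb.fc e)
      rw [Subtype.ext (lb_ext (congrArg Lb.cd e :) h ((bs_some fun h => k.2 (Or.inl h)).trans
        (bs_some fun h => k'.2 (Or.inl h)).symm)) (a1 := k) (a2 := k')]

theorem emb_ne (a : NP T cl m) (k : KK T cl m J) : emb J a.1 ≠ eK k := by
  rcases k with k | k | ⟨k | k, j⟩ <;> intro e
  · exact a.2 (Or.inl (emb_inj e ▸ k.2))
  · exact a.2 (emb_inj e ▸ k.2.1)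
  all_goals
    exact inr_not j a.1.fc ((congrArg Lb.fc e).symm ▸ mem_insert_self _ _ : _ ∈ (emb J a.1).fc)

theorem SK_sec (k k' : KK T cl m J) : SK T cl m J k (eK k') = (1 : Matrix _ _ ℤ) k k' := by
  simp only [SK, of_apply, eK_inj.eq_iff, one_apply]
  cases gK k <;> simp [emb_ne]

/-- the centres in one displaced fibre -/
def pJ (Z : Sys T U Unit) (w : PW T cl m → ℤ) (z : LS T cl m → ℤ) (y : LS T cl m ⊕ NP T cl m → ℤ) :
    LS T cl m ⊕ NP T cl m → ℝ :=
  Sum.elim (cL Z w (toR (y ∘ Sum.inl)) - cL Z w 0)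
    fun l => Z.pr cl m (toR (gl3 w (z + y ∘ Sum.inl) (y ∘ Sum.inr))) l

/-- the centres of the variables -/
def pK (Z : Sys T U Unit) (y : KK T cl m J → ℤ) : KK T cl m J → ℝ :=
  Sum.elim (fun l => Z.pr cl m (gl3 (toR (y ∘ Sum.inl)) 0 0) l)
    (Sum.elim (cL Z (y ∘ Sum.inl) (toR (y ∘ Sum.inr ∘ Sum.inl))) fun k =>
      pJ Z (y ∘ Sum.inl) (y ∘ Sum.inr ∘ Sum.inl) (fun b => y (Sum.inr (Sum.inr (b, k.2)))) k.1)

theorem SK_int (x : Lb T (cS cl J) Unit m → ℤ) : SK T cl m J *ᵥ x =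
    Sum.elim (fun l => x (emb J l.1)) (Sum.elim (fun l => x (emb J l.1)) fun k =>
      Sum.elim (fun l => x (uL k.2 l)) (fun l => x (emb J l.1) + x (uN k.2 l)) k.1) := by
  funext k
  refine (SK_mul x k).trans ?_
  rcases k with k | k | ⟨k | k, j⟩
  exacts [add_zero _, add_zero _, add_zero _, add_comm _ _]

theorem pK_SK (hT : T.Ok s N) (hZ : Z.Ok) (x : Lb T (cS cl J) Unit m → ℤ) :
    pK Z (SK T cl m J *ᵥ x) = mR (SK T cl m J) *ᵥ (zS Z J).pr (cS cl J) m (toR x) := by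
  funext k
  rw [mR, SK_mul, SK_int]
  rcases k with k | k | ⟨k | k, j⟩
  · refine Eq.trans ?_ (add_zero _).symm
    exact (pr_congr hT hZ fun l _ h _ => gl3_pu (h.elim id fun e => e.trans k.2)).trans
      (pr_emb hZ (toR x) k.1)
  · refine Eq.trans ?_ (add_zero _).symm
    refine (pr_pure hZ (fun l hl => ?_) k.2.1).trans (pr_emb hZ (toR x) k.1)
    by_cases e : Pu l
    exacts [gl3_pu e, gl3_li ⟨hl, e⟩]
  · exact (pr_uL hT hZ j x k).symm.trans (add_zero _).symm
  · refine Eq.trans ?_ ((pr_cj hZ j (toR x) k.1).trans ((cj_no j _ k).trans (add_comm _ _)))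
    refine congrArg (Z.pr cl m · k.1) ((congrArg toR (cj_eq j x).symm).trans (funext fun l => ?_))
    simp only [toR_apply, cj, Int.cast_add, tot_cast]

theorem tri_pJ (hT : T.Ok s N) (hZ : Z.Ok) (w : PW T cl m → ℤ) (z : LS T cl m → ℤ) :
    Tri (Sum.elim (fun l => T.lv l.1.cd) fun l => T.lv l.1.cd) (pJ Z w z) := by
  rintro (i | i) y y' h
  · refine congrArg (· - _) (pr_congr hT hZ fun l _ _ k => ?_)
    unfold gl3
    split_ifs with a b
    exacts [rfl, congrArg Int.cast (h (Sum.inl ⟨l, b, a⟩) k), rfl]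
  · refine pr_congr hT hZ fun l _ _ k => congrArg Int.cast ?_
    unfold gl3
    split_ifs with a b
    exacts [rfl, congrArg (_ + ·) (h (Sum.inl ⟨l, b, a⟩) k), h (Sum.inr ⟨l, b⟩) k]

open Classical in
theorem cor_eq (hT : T.Ok s N) (hZ : Z.Ok) {γ : ℝ} (hγ : 0 < γ) {F : (Lb T cl Unit m → ℤ) → ℝ}
    {B : ℝ} (hF : ∀ z, |F z| ≤ B) (w : PW T cl m → ℤ) (z : LS T cl m → ℤ) (ψ : LS T cl m → ℝ) :
    cor Z F γ w z ψ = Ex (fromBlocks (γ • bk (Gam T cl Unit m) Li) 0 0 (bk (Gam T cl Unit m) No))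
      (pJ Z w z) fun y => F (gl3 w (z + y ∘ Sum.inl) (y ∘ Sum.inr)) * ee (ψ ⬝ᵥ toR (y ∘ Sum.inl)) := by
  have hG := pd_Gam hT.pd cl Unit m
  refine ((Ex_sum (tri_pJ hT hZ w z) ((posDef_bk hG Li).smul hγ) (posDef_bk hG No)
    (p1 := fun t => cL Z w (toR t) - cL Z w 0) (fun _ _ _ => rfl) (C := B) fun y => by
      rw [norm_mul, norm_ee, mul_one, Complex.norm_real]; exact hF _).trans
    (tsum_congr fun t => ?_)).symm
  rw [Complex.ofReal_mul, mul_assoc, ch, Complex.ofReal_tsum, ← tsum_mul_right]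
  refine congrArg (_ * ·) (tsum_congr fun y => ?_)
  rw [Complex.ofReal_mul, mul_assoc]
  rfl

open Classical in
/-- the Gram matrix of the variables -/
def AK (T : Tow) (cl : U → C) (m : ℕ) (J : Type) [DecidableEq J] (γ : ℝ) :
    Matrix (KK T cl m J) (KK T cl m J) ℝ :=
  fromBlocks (bk (Gam T cl Unit m) Pu) 0 0 (fromBlocks (bk (Gam T cl Unit m) Li) 0 0
    (blockDiagonal fun _ => fromBlocks (γ • bk (Gam T cl Unit m) Li) 0 0 (bk (Gam T cl Unit m) No)))

open Classical in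
/-- the star step: the displacements become vertices of a new class -/
theorem star (hT : T.Ok s N) (hZ : Z.Ok) {γ : ℝ} (hγ : 0 < γ)
    {Φ : (PW T cl m → ℤ) → (LS T cl m → ℤ) → ℂ} {B : ℝ} (hΦ : ∀ w z, ‖Φ w z‖ ≤ B)
    {F : J → (Lb T cl Unit m → ℤ) → ℝ} (hF : ∀ j z, |F j z| ≤ B)
    (ψ : J → (PW T cl m → ℤ) → LS T cl m → ℝ) {a : Finset (U ⊕ J) → Option Unit → ℝ}
    (ha : ∀ A o, 0 < a A o) (h1 : ∀ A, (∀ j, Sum.inr j ∉ A) → a A none = 1)
    (h2 : ∀ A o, ¬ (o = none ∧ ∀ j, Sum.inr j ∉ A) → 4 * (1 + Fintype.card J * (γ + 4)) ≤ a A o)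
    {β : ℝ} (h : ∀ c : Lb T (cS cl J) Unit m → ℝ,
      (∀ l, l.bs = none → (∀ j, Sum.inr j ∉ l.fc) → c l = 0) →
      ‖Ev (cub (zS Z J) (cS cl J) m a c) univ fun x =>
        Φ (fun l => x (emb J l.1)) (fun l => x (emb J l.1)) * ∏ j, (F j (cj j x) : ℂ) *
          ee (ψ j (fun l => x (emb J l.1)) ⬝ᵥ toR fun l => x (uL j l))‖ ≤ β) :
    ‖∑' w, (wP Z w : ℂ) * ∑' z, (wL Z w z : ℂ) *
      (Φ w z * ∏ j, cor Z (F j) γ w z (ψ j w))‖ ≤ β := by
  have hG := pd_Gam hT.pd cl Unit m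
  have hΓ := pd_Gam hT.pd (cS cl J) Unit m
  have g1 := (posDef_bk hG Li).smul hγ
  have g2 := posDef_blocks g1 (posDef_bk hG No)
  have g3 := posDef_blocks (posDef_bk hG Li) (posDef_bd (J := J) g2)
  have hlv : ∀ k l, SK T cl m J k l ≠ 0 → T.lv l.cd ≤ T.lv (eK k).cd := fun k l e => by
    by_contra n
    refine e ((congrArg₂ (· + ·) (if_neg ?_) ?_).trans (zero_add 0))
    · rintro rfl; exact n le_rfl
    · rcases k with k | k | ⟨k | k, j⟩
      exacts [rfl, rfl, rfl, if_neg (by rintro rfl; exact n le_rfl)]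
  have ht := tri_transfer (tri_pr hT (ok_zS hZ)) SK_sec hlv (pK_SK (J := J) (cl := cl) (m := m) hT hZ)
  let fJ : J → (PW T cl m → ℤ) → (LS T cl m → ℤ) → (LS T cl m ⊕ NP T cl m → ℤ) → ℂ :=
    fun j w z y => F j (gl3 w (z + y ∘ Sum.inl) (y ∘ Sum.inr)) * ee (ψ j w ⬝ᵥ toR (y ∘ Sum.inl))
  have bJ : ∀ j w z y, ‖fJ j w z y‖ ≤ B := fun j w z y => by
    rw [norm_mul, norm_ee, mul_one, Complex.norm_real]; exact hF _ _
  let f : (KK T cl m J → ℤ) → ℂ := fun y => Φ (y ∘ Sum.inl) (y ∘ Sum.inr ∘ Sum.inl) *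
    ∏ j, fJ j (y ∘ Sum.inl) (y ∘ Sum.inr ∘ Sum.inl) fun b => y (Sum.inr (Sum.inr (b, j)))
  have bf : ∀ y, ‖f y‖ ≤ B * ∏ _j : J, B := fun y => by
    rw [norm_mul, norm_prod]
    exact mul_le_mul (hΦ _ _) (prod_le_prod (fun _ _ => norm_nonneg _) fun _ _ => bJ _ _ _ _)
      (prod_nonneg fun _ _ => norm_nonneg _) ((norm_nonneg _).trans (hΦ 0 0))
  have e1 : Ex (AK T cl m J γ) (pK Z) f = ∑' w, (wP Z w : ℂ) * ∑' z, (wL Z w z : ℂ) *
      (Φ w z * ∏ j, cor Z (F j) γ w z (ψ j w)) := by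
    rw [AK, Ex_sum ht (posDef_bk hG Pu) g3 (p1 := fun w l => Z.pr cl m (gl3 (toR w) 0 0) l)
      (fun _ _ _ => rfl) bf]
    refine tsum_congr fun w => congrArg (_ * ·) ?_
    refine (Ex_sum (tri_inr ht w) (posDef_bk hG Li) (posDef_bd g2) (p1 := fun z => cL Z w (toR z))
      (fun _ _ _ => rfl) fun _ => bf _).trans (tsum_congr fun z => congrArg (_ * ·) ?_)
    exact (Ex_mul_const _ _ _ (Φ w z)).trans (congrArg (Φ w z * ·)
      ((Ex_pi (fun _ => tri_pJ hT hZ w z) g2 fun j => bJ j w z).trans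
        (prod_congr rfl fun j _ => (cor_eq hT hZ hγ (hF j) w z _).symm)))
  have nP : ∀ l : Lb T (cS cl J) Unit m, ¬ ¬ (l.bs = none ∧ ∀ j, Sum.inr j ∉ l.fc) →
      ∃ k : PW T cl m, eK (Sum.inl k) = l := fun l hl => by
    obtain ⟨k, rfl⟩ := mem_emb (not_not.1 hl).2
    exact ⟨⟨k, (emb_bs k).symm.trans (not_not.1 hl).1⟩, rfl⟩
  have pP : ∀ k : PW T cl m, (emb J k.1).bs = none ∧ ∀ j, Sum.inr j ∉ (emb J k.1).fc :=
    fun k => ⟨(emb_bs _).trans k.2, fun j => inr_not j _⟩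
  have cS1 : ∀ i (k : PW T cl m), ((mR (SK T cl m J))ᵀ * AK T cl m J γ * mR (SK T cl m J)) i
      (eK (Sum.inl k)) = ∑ k', if eK (Sum.inl k') = i then bk (Gam T cl Unit m) Pu k' k else 0 :=
    fun i k => by
      rw [conj_sec SK_sec, Fintype.sum_sum_type]
      simp [AK, SK, gK]
  rw [← e1]
  refine Ex_tmix (tri_pr hT (ok_zS hZ)) eK _ SK_sec hlv (pK_SK hT hZ)
    (posDef_blocks (posDef_bk hG Pu) g3) (pd_sG hT.pd ha)
    (P := fun l => ¬ (l.bs = none ∧ ∀ j, Sum.inr j ∉ l.fc)) (fun i j x y => by_contra fun e => ?_)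
    (fun l hl => (nP l hl).elim fun k e => ⟨_, e⟩) (fun i j x y => ?_) ?_ (fun v hv => ?_) bf
    fun c hc => ?_
  · have := Gam_ne (right_ne_zero_of_mul e)
    exact y fun n => x (by rwa [this.1, this.2])
  · obtain ⟨k, rfl⟩ := nP j y
    exact (cS1 i k).trans (sum_eq_zero fun k' _ => if_neg fun e : emb J k'.1 = i => x (e ▸ pP k'))
  · ext ⟨i, x⟩ ⟨j, y⟩
    obtain ⟨k, rfl⟩ := nP j y
    obtain ⟨k', rfl⟩ := nP i x
    refine Eq.trans ?_ ((cS1 (emb J k'.1) k).trans ((sum_eq_single k'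
      (fun b _ e => if_neg fun n => e (Subtype.ext (emb_inj n))) (by simp)).trans (if_pos rfl))).symm
    change a (emb J k'.1).fc (emb J k'.1).bs * Gam T _ Unit m (emb J k'.1) (emb J k.1) = _
    rw [(pP k').1, h1 _ (pP k').2, one_mul]
    exact Gam_lift _ Sum.inl_injective Function.injective_id _ _
  · have q0 := qq_nonneg hΓ.posSemidef v
    have q1 := qq_emb' hT (Q := Li) (fun l l' a b c d => by
      simpa only [Li, Pu, Lb.Pure, ← a, ← b, ← c] using d) v
    have q2 := qq_emb' hT (Q := No) (fun l l' a b c d => by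
      simpa only [No, Lb.Pure, ← a, ← b, ← c] using d) v
    have q3 : 4 * (1 + Fintype.card J * (γ + 4)) * qq (Gam T (cS cl J) Unit m) v ≤
        qq (sG T (cS cl J) Unit m a) v := by
      rw [← qq_sG_const]
      exact qq_sG_mono hT.pd v fun l k => h2 _ _ fun n => k (hv l (not_not.2 n))
    have q4 : ∀ j, qq (fromBlocks (γ • bk (Gam T cl Unit m) Li) 0 0 (bk (Gam T cl Unit m) No))
        (fun b => (mR (SK T cl m J) *ᵥ v) (Sum.inr (Sum.inr (b, j)))) ≤
        (γ + 4) * qq (Gam T (cS cl J) Unit m) v := fun j => by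
      rw [qq_blocks, qq_smul_mat]
      simp only [Function.comp_def, mR, SK_mul]
      have := qq_add2 (posDef_bk hG No).posSemidef (fun l => v (uN j l)) fun l => v (emb J l.1)
      have := mul_le_mul_of_nonneg_left (qq_uL hT j v) hγ.le
      have := qq_uN hT j v
      simp only [eK, gK, Sum.elim_inl, Sum.elim_inr, Sum.getRight?_inl, Sum.getRight?_inr,
        Option.elim, add_zero]
      change _ + qq _ ((fun l => v (uN j l)) + fun l => v (emb J l.1)) ≤ _
      linarith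
    have q5 := sum_le_card_nsmul univ _ _ fun j _ => q4 j
    rw [card_univ, nsmul_eq_mul] at q5
    rw [qq_blocks, qq_blocks, qq_bd]
    have e2 : (mR (SK T cl m J) *ᵥ v) ∘ Sum.inl = 0 := funext fun k =>
      (SK_mul v _).trans ((add_zero _).trans (hv _ (not_not.2 (pP k))))
    have e3 : ((mR (SK T cl m J) *ᵥ v) ∘ Sum.inr) ∘ Sum.inl = fun l => v (emb J l.1) :=
      funext fun k => (SK_mul v _).trans (add_zero _)
    rw [e2, e3, show qq (bk (Gam T cl Unit m) Pu) 0 = 0 by simp [qq]]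
    simp only [Function.comp_apply]
    linarith
  · refine le_trans (le_of_eq ?_) (h c fun l x y => hc l (not_not.2 ⟨x, y⟩))
    rw [Ev_univ]
    congr 2
    funext x
    simp only [cj_eq, f, fJ, SK_int]
    rfl

end

end Vale.Agent.P057EN
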