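import Vale.Agent.P057EN.Rfl
import Vale.Agent.P057PC.Del

/-!
Insertion of very wide labels followed by a mixture on a block.
-/

set_option linter.unusedSectionVars false

open Matrix Finset
open Vale.Agent.P267.H775 Vale.Agent.P057G Vale.Agent.P057PC Vale.Agent.P057ST

namespace Vale.Agent.P057EN

noncomputable section

variable {L K : Type} [Fintype L] [DecidableEq L] [Fintype K] [DecidableEq K]

theorem herm_ext {G H : Matrix L L ℝ} (hG : G.IsHermitian) (hH : H.IsHermitian)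
    (h : ∀ v, qq G v = qq H v) : G = H := by
  ext i j
  have h1 := qq_add hG (Pi.single i 1) (Pi.single j 1)
  rw [h, h, h, qq_add hH] at h1
  have h2 : bb G (Pi.single i 1) (Pi.single j 1) = bb H (Pi.single i 1) (Pi.single j 1) := by
    linarith
  simpa [bb] using h2

theorem herm_cj {A : Matrix K K ℝ} (hA : A.IsHermitian) (S : Matrix K L ℝ) :
    (Sᵀ * A * S).IsHermitian := by
  have := isHermitian_conjTranspose_mul_mul S hA
  rwa [conjTranspose_eq_transpose_of_trivial] at this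

/-- the projection to `P` -/
def pj (P : L → Prop) [DecidablePred P] : Matrix L L ℝ := diagonal fun l => if P l then 1 else 0

theorem qq_pj (P : L → Prop) [DecidablePred P] (v : L → ℝ) : qq (pj P) v = qq 1 (rs P v) := by
  simp only [qq, pj, dotProduct, mulVec_diagonal, one_mulVec, rs]
  rw [← Fintype.sum_subtype_add_sum_subtype P, sum_eq_zero (s := univ)
    (f := fun l : {l // ¬ P l} => _) fun l _ => by rw [if_neg l.2]; simp, add_zero]
  exact sum_congr rfl fun l _ => by rw [if_pos l.2, one_mul]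

theorem Ex_wide_aux {lv : L → ℕ} {p : (L → ℤ) → L → ℝ} (hp : Tri lv p) (P : L → Prop)
    [DecidablePred P] (S : Matrix {l // ¬ P l} L ℤ)
    (hS : ∀ k k' : {l // ¬ P l}, S k k' = (1 : Matrix _ _ ℤ) k k')
    (hlv : ∀ k l, S k l ≠ 0 → lv l ≤ lv k) {p' : ({l // ¬ P l} → ℤ) → {l // ¬ P l} → ℝ}
    (hp' : ∀ z, p' (S *ᵥ z) = mR S *ᵥ p z) {A : Matrix {l // ¬ P l} {l // ¬ P l} ℝ} (hA : A.PosDef)
    {f : ({l // ¬ P l} → ℤ) → ℂ} {C : ℝ} (hf : ∀ y, ‖f y‖ ≤ C) {η δ1 : ℝ} (hδ1 : 0 < δ1)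
    (H : ∀ δ, 0 < δ → δ ≤ δ1 → ((mR S)ᵀ * A * mR S + δ • pj P).PosDef →
      ‖Ex ((mR S)ᵀ * A * mR S + δ • pj P) p fun z => f (S *ᵥ z)‖ ≤ η) : ‖Ex A p' f‖ ≤ η := by
  let N : Matrix L L ℤ := Matrix.of fun l l' => if h : ¬ P l then if P l' then S ⟨l, h⟩ l' else 0
    else 0
  have hN : N * N = 0 := by
    ext i j
    refine sum_eq_zero fun k _ => ?_
    by_cases hk : P k <;> simp [N, hk]
  have hU : (1 + N) * (1 - N) = 1 := by
    rw [add_mul, mul_sub, mul_sub, hN]; simp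
  have hU' : (1 - N) * (1 + N) = 1 := mul_eq_one_comm.1 hU
  have h1 : ∀ (k : {l // ¬ P l}) l, (1 + N) k l = S k l := fun k l => by
    by_cases hl : P l
    · rw [Matrix.add_apply, one_apply_ne fun h : k.1 = l => k.2 (h ▸ hl)]; simp [N, k.2, hl]
    · rw [Matrix.add_apply, hS k ⟨l, hl⟩]; simp [N, hl, one_apply, Subtype.ext_iff]
  have h2 : ∀ z : L → ℤ, rs (fun l => ¬ P l) ((1 + N) *ᵥ z) = S *ᵥ z := fun z => by
    funext k; simp only [rs, mulVec, dotProduct, h1]
  have h3 : ∀ z : L → ℝ, rs (fun l => ¬ P l) (mR (1 + N) *ᵥ z) = mR S *ᵥ z := fun z => by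
    funext k; simp only [rs, mulVec, dotProduct, mR, map_apply, h1]
  have h4 : ∀ z : L → ℝ, rs P (mR (1 + N) *ᵥ z) = rs P z := fun z => by
    funext k; simp [rs, mulVec, dotProduct, mR, N, k.2, one_apply]
  have hNl : ∀ i j, N i j ≠ 0 → lv j ≤ lv i := fun i j h => by
    by_cases hi : P i
    · simp [N, hi] at h
    · exact hlv ⟨i, hi⟩ j fun h5 => h (by simp [N, hi, h5])
  let q : (L → ℤ) → L → ℝ := fun w => mR (1 + N) *ᵥ p ((1 - N) *ᵥ w)
  have hq : Tri lv q := fun i w w' h => by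
    refine sum_congr rfl fun j _ => ?_
    by_cases h5 : (1 + N) i j = 0
    · simp [mR, h5]
    · have h6 : lv j ≤ lv i := by
        by_cases h7 : i = j
        · rw [h7]
        · exact hNl i j (by rwa [Matrix.add_apply, one_apply_ne h7, zero_add] at h5)
      congr 1
      refine hp j _ _ fun k hk => ?_
      rw [sub_mulVec, sub_mulVec, one_mulVec, one_mulVec, Pi.sub_apply, Pi.sub_apply,
        h k (by omega)]
      congr 1
      refine sum_congr rfl fun k' _ => ?_
      by_cases h8 : N k k' = 0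
      · simp [h8]
      · rw [h k' (by have := hNl k k' h8; omega)]
  have hs : Spl P q p' := fun w l => by
    have h5 := congrFun (hp' ((1 - N) *ᵥ w)) l
    rw [← h2, ← h3, mulVec_mulVec, hU, one_mulVec] at h5
    exact h5.symm
  have hC : 0 ≤ C := (norm_nonneg _).trans (hf 0)
  have hm := ms_nonneg A p'
  refine le_of_forall_pos_le_add fun ε hε => ?_
  obtain ⟨δ0, h0, hδ⟩ := exists_fine_tri (univ.sup lv + 1) {l // P l} (fun l => lv l)
    (fun l => Nat.lt_succ_of_le (le_sup (f := lv) (mem_univ _))) (ε / (C * ms A p' + 1))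
    (by positivity)
  set δ := min δ0 δ1
  have hδ0 : 0 < δ := by positivity
  let B : Matrix L L ℝ := Matrix.of fun l l' =>
    if h : ¬ P l ∧ ¬ P l' then A ⟨l, h.1⟩ ⟨l', h.2⟩ else if l = l' then δ else 0
  have b1 : bk B (fun l => ¬ P l) = A := by
    ext i j; simp [bk, B, i.2, j.2]
  have b2 : bk B P = δ • 1 := by
    ext i j; simp [bk, B, i.2, one_apply, Subtype.ext_iff]
  have b3 : Ort B P := fun i j hi hj => by
    have : i ≠ j := fun h => hj (h ▸ hi)
    simp [B, hi, this]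
  have b4 : B.IsHermitian := by
    ext i j
    by_cases h : ¬ P i ∧ ¬ P j
    · have := hA.1.apply ⟨i, h.1⟩ ⟨j, h.2⟩
      simpa [B, h.1, h.2] using this
    · simp only [B, conjTranspose_apply, of_apply, star_trivial, dif_neg h,
        dif_neg fun h' : ¬ P j ∧ ¬ P i => h h'.symm, eq_comm]
  have b5 : ∀ v, qq B v = δ * qq 1 (rs P v) + qq A (rs _ v) := fun v => by
    rw [qq_split b4 b3, b1, b2, qq_smul_mat]
  have b6 : B.PosDef := PosDef.of_dotProduct_mulVec_pos b4 fun v hv => by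
    change 0 < qq B v
    rw [b5]
    have a1 := qq_nonneg (PosDef.one (n := {l // P l}) (R := ℝ)).posSemidef (rs P v)
    by_cases h5 : rs P v = 0
    · refine add_pos_of_nonneg_of_pos (by positivity) (hA.dotProduct_mulVec_pos fun h6 => hv ?_)
      funext l
      by_cases hl : P l
      exacts [congrFun h5 ⟨l, hl⟩, congrFun h6 ⟨l, hl⟩]
    · exact add_pos_of_pos_of_nonneg (mul_pos hδ0 (PosDef.one.dotProduct_mulVec_pos h5))
        (qq_nonneg hA.posSemidef _)
  have e1 := Ex_unimod hU B (p := p) (p' := q)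
    (fun z => by simp only [q, mulVec_mulVec, hU', one_mulVec]) fun w => f (rs _ w)
  have e4 := posDef_unimod hU' b6
  have e5 : (mR (1 + N))ᵀ * B * mR (1 + N) = (mR S)ᵀ * A * mR S + δ • pj P :=
    herm_ext e4.1 ((herm_cj hA.1 _).add ((isHermitian_diagonal _).smul (by simp [IsSelfAdjoint])))
      fun v => by rw [qq_conj, b5, h3, h4, qq_add_mat, qq_conj, qq_smul_mat, qq_pj, add_comm]
  have e2 := H δ hδ0 (min_le_right _ _) (e5 ▸ e4)
  have e3 := Ex_del hq b6 b3 hs (fun y => by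
    rw [b2]; exact hδ δ hδ0 (min_le_left _ _) _ (tri_pf hq P y)) hf
  simp only [h2] at e1
  rw [← e5, e1] at e2
  rw [b1] at e3
  refine (norm_le_insert _ _).trans (add_le_add e2 (e3.trans ?_))
  rw [mul_assoc, div_mul_eq_mul_div, div_le_iff₀ (by positivity)]
  nlinarith

open Classical in
/-- insertion of very wide labels outside the range of the section `e` -/
theorem Ex_wide {lv : L → ℕ} {p : (L → ℤ) → L → ℝ} (hp : Tri lv p) (e : K → L) (S : Matrix K L ℤ)
    (hS : ∀ k k', S k (e k') = (1 : Matrix K K ℤ) k k')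
    (hlv : ∀ k l, S k l ≠ 0 → lv l ≤ lv (e k)) {p' : (K → ℤ) → K → ℝ}
    (hp' : ∀ z, p' (S *ᵥ z) = mR S *ᵥ p z) {A : Matrix K K ℝ} (hA : A.PosDef)
    {f : (K → ℤ) → ℂ} {C : ℝ} (hf : ∀ y, ‖f y‖ ≤ C) {η δ1 : ℝ} (hδ1 : 0 < δ1)
    (H : ∀ δ, 0 < δ → δ ≤ δ1 →
      ((mR S)ᵀ * A * mR S + δ • pj fun l => ¬ l ∈ Set.range e).PosDef →
      ‖Ex ((mR S)ᵀ * A * mR S + δ • pj fun l => ¬ l ∈ Set.range e) p fun z => f (S *ᵥ z)‖ ≤ η) :
    ‖Ex A p' f‖ ≤ η := by
  have he : Function.Injective e := fun k k' h => by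
    by_contra h1
    have := hS k k'
    rw [← h, hS, one_apply_eq, one_apply_ne h1] at this
    exact one_ne_zero this
  let E : K ≃ {l // ¬ ¬ l ∈ Set.range e} :=
    (Equiv.ofInjective e he).trans (Equiv.subtypeEquivRight fun _ => not_not.symm)
  have hE : ∀ k, e (E.symm k) = k := fun k => congrArg Subtype.val (E.apply_symm_apply k)
  have h0 : ∀ z, (S.submatrix E.symm id *ᵥ z) ∘ E = S *ᵥ z := fun z => by
    funext k; simp [mulVec]
  have h2 : (mR (S.submatrix E.symm id))ᵀ * A.submatrix E.symm E.symm * mR (S.submatrix E.symm id)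
      = (mR S)ᵀ * A * mR S := herm_ext (herm_cj (hA.submatrix E.symm.injective).1 _)
    (herm_cj hA.1 _) fun v => by
      rw [qq_conj, qq_conj]; exact qq_submatrix A E.symm (mR S *ᵥ v)
  have h1 := Ex_wide_aux hp (fun l => ¬ l ∈ Set.range e) (S.submatrix E.symm id)
    (fun k k' => by rw [submatrix_apply, id, ← hE k', hS]; simp [one_apply])
    (fun k l h => by rw [← hE k]; exact hlv _ l h) (p' := fun y k => p' (y ∘ E) (E.symm k))
    (fun z => by funext k; rw [h0, hp']; rfl) (hA.submatrix E.symm.injective)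
    (f := fun y => f (y ∘ E)) (fun y => hf _) hδ1 (η := η) fun δ a b => by
      simp only [h0, h2]; exact H δ a b
  rwa [Ex_equiv E.symm (G := A) (G' := A.submatrix E.symm E.symm) (p := p') (f := f)
    (p' := fun y k => p' (y ∘ E) (E.symm k)) (f' := fun y => f (y ∘ E)) (fun _ _ => rfl)
    (fun z i => by simp [Function.comp_assoc]) fun z => by simp [Function.comp_assoc]] at h1

/-- transfer along an integer map with a section, then a mixture on the block `P` -/
theorem Ex_tmix {lv : L → ℕ} {p : (L → ℤ) → L → ℝ} (hp : Tri lv p) (e : K → L) (S : Matrix K L ℤ)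
    (hS : ∀ k k', S k (e k') = (1 : Matrix K K ℤ) k k')
    (hlv : ∀ k l, S k l ≠ 0 → lv l ≤ lv (e k)) {p' : (K → ℤ) → K → ℝ}
    (hp' : ∀ z, p' (S *ᵥ z) = mR S *ᵥ p z) {A : Matrix K K ℝ} (hA : A.PosDef) {H : Matrix L L ℝ}
    (hH : H.PosDef) {P : L → Prop} [DecidablePred P] (oH : Ort H P)
    (hr : ∀ l, ¬ P l → l ∈ Set.range e) (h1 : Ort ((mR S)ᵀ * A * mR S) P)
    (h2 : (bk H fun l => ¬ P l) = bk ((mR S)ᵀ * A * mR S) fun l => ¬ P l)
    (h3 : ∀ v, (∀ l, ¬ P l → v l = 0) → 4 * qq A (mR S *ᵥ v) ≤ qq H v)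
    {f : (K → ℤ) → ℂ} {C : ℝ} (hf : ∀ y, ‖f y‖ ≤ C) {β : ℝ}
    (h : ∀ c : L → ℝ, (∀ l, ¬ P l → c l = 0) →
      ‖Ex H (fun z => p z + c) fun z => f (S *ᵥ z)‖ ≤ β) : ‖Ex A p' f‖ ≤ β := by
  classical
  obtain ⟨c, hc, hc1⟩ := exists_one_le hH
  refine Ex_wide hp e S hS hlv hp' hA hf (δ1 := c / 4) (by positivity) fun δ a b hB => ?_
  refine Ex_pmix hp hB hH (fun i j hi hj => ?_) oH (h2.trans ?_)
    (posDef_half (posDef_bk hB P) (posDef_bk hH P).1 fun x => ?_) (fun _ => hf _) h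
  · rw [Matrix.add_apply, h1 i j hi hj, Matrix.smul_apply, pj,
      diagonal_apply_ne _ fun k : i = j => hj (k ▸ hi), smul_zero, add_zero]
  · ext i j
    simp only [bk, submatrix_apply, Matrix.add_apply, Matrix.smul_apply, pj, diagonal_apply,
      hr i i.2, not_true, if_false, ite_self, smul_zero, add_zero]
  · have hx : ∀ l, ¬ P l → glue (X := fun _ => ℝ) P x (fun _ => 0) l = 0 := fun l hl =>
      glue_neg (X := fun _ => ℝ) x _ hl
    rw [← rs_glue_pos P x fun _ => 0, qq_bk _ _ hx, qq_bk _ _ hx, qq_add_mat, qq_conj, qq_smul_mat]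
    set v := glue (X := fun _ => ℝ) P x fun _ => 0
    have a1 : qq (pj fun l => ¬ l ∈ Set.range e) v ≤ qq 1 v := by
      simp only [qq, pj, dotProduct, mulVec_diagonal, one_mulVec]
      exact sum_le_sum fun l _ => by split_ifs <;> nlinarith [mul_self_nonneg (v l)]
    have a2 := qq_nonneg (PosDef.one (n := L) (R := ℝ)).posSemidef v
    nlinarith [h3 v hx, hc1 v, mul_le_mul_of_nonneg_left a1 a.le, mul_le_mul_of_nonneg_right b a2]

end

end Vale.Agent.P057EN
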